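import Vale.Agent.Lib.PCP.Defs

/-! Unique Games instances. -/

namespace Vale.Agent.P325

/-- A Unique Games instance: a list of constraints `(u, v, t)`; vertices are named by natural
numbers and `t` is the table `[π 0, π 1, …]` of the permutation. -/
abbrev UG := List (ℕ × ℕ × List ℕ)

/-- There is a constraint, and every table is a permutation of the alphabet `{0, …, k - 1}`. -/
def UG.WF (k : ℕ) (G : UG) : Prop := G ≠ [] ∧ ∀ e ∈ G, e.2.2.Perm (List.range k)

/-- The number of constraints `(u, v, π)` with `a v = π (a u)`. -/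
def UG.good (G : UG) (a : ℕ → ℕ) : ℕ := G.countP fun e => a e.2.1 == e.2.2.getD (a e.1) 0

/-- Some labelling satisfies at least a `c` fraction of the constraints. -/
def UG.ValGe (k : ℕ) (c : ℝ) (G : UG) : Prop :=
  ∃ a : ℕ → ℕ, (∀ v, a v < k) ∧ c * G.length ≤ G.good a

/-- Every labelling satisfies at most an `s` fraction of the constraints. -/
def UG.ValLe (k : ℕ) (s : ℝ) (G : UG) : Prop :=
  ∀ a : ℕ → ℕ, (∀ v, a v < k) → (G.good a : ℝ) ≤ s * G.length

end Vale.Agent.P325
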