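import Vale.Agent.P325.Four
import Vale.Agent.Lib.PCP.PowCode

/-! Averages over lists, and computable maps into finite types. -/

namespace Vale.Agent.P325

open Finset Vale.Agent.Lib.TM Vale.Agent.Lib.PCP
open scoped BigOperators

variable {α β τ : Type}

lemma sum_get (l : List α) (f : α → ℝ) : ∑ i, f (l.get i) = (l.map f).sum := by
  simp

lemma ex_get (l : List α) (f : α → ℝ) : 𝔼 i, f (l.get i) = (l.map f).sum / l.length := by
  rw [ex_eq, sum_get, Fintype.card_fin]

lemma sum_flat [Fintype τ] (l : List α) (g : α → τ → β) (f : β → ℝ) :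
    ((l.flatMap fun a => (univ : Finset τ).toList.map (g a)).map f).sum =
      (l.map fun a => ∑ t, f (g a t)).sum := by
  induction l with
  | nil => simp
  | cons a l ih =>
    rw [List.flatMap_cons, List.map_append, List.sum_append, ih, List.map_map, List.map_cons,
      List.sum_cons, Finset.sum_map_toList]
    rfl

lemma length_flat [Fintype τ] (l : List α) (g : α → τ → β) :
    (l.flatMap fun a => (univ : Finset τ).toList.map (g a)).length = l.length * Fintype.card τ := by
  simp [List.length_flatMap]

lemma ex_flat [Fintype τ] (l : List α) (g : α → τ → β) (f : β → ℝ) :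
    𝔼 i, f ((l.flatMap fun a => (univ : Finset τ).toList.map (g a)).get i) =
      𝔼 i, 𝔼 t, f (g (l.get i) t) := by
  rw [ex_get, sum_flat, length_flat, ← sum_get]
  simp only [ex_eq, ← sum_div, Fintype.card_fin]
  rw [div_div, Nat.cast_mul, mul_comm]

lemma countP_eq (l : List α) (p : α → Bool) : (l.countP p : ℝ) = (l.map fun a => ind (p a)).sum := by
  induction l with
  | nil => simp
  | cons a l ih => cases h : p a <;> simp [h, ih, ind, add_comm]

variable [Enc α]

/-- Every function of `c a` is computable from `a`. -/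
def CTF (c : α → τ) : Prop := ∀ (β : Type) [Enc β] (g : τ → β), CT 0 fun a => g (c a)

lemma CTF.bool {c : α → Bool} (h : CT 0 c) : CTF c := fun _ _ g =>
  (h.cond (CT.const (g true)) (CT.const (g false))).of_eq fun a => by cases c a <;> rfl

lemma CTF.fin {n : ℕ} {c : α → ℕ} (h : CT 0 c) (d : Fin n) :
    CTF fun a => if h : c a < n then (⟨c a, h⟩ : Fin n) else d := fun _ _ g =>
  ((CT.const (List.ofFn g)).getD h (CT.const (g d))).of_eq fun a => by
    by_cases h : c a < n <;> simp [List.getD_eq_getElem?_getD, h]

lemma CTF.prod {σ : Type} [Fintype τ] {c : α → τ} {c' : α → σ} (h : CTF c) (h' : CTF c') :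
    CTF fun a => (c a, c' a) := fun β _ g => by
  rcases isEmpty_or_nonempty τ with h0 | ⟨⟨t0⟩⟩
  · exact (h β fun t => isEmptyElim t).of_eq fun a => isEmptyElim (c a)
  refine ((ct_mapConst (f := fun a i => g ((Fintype.equivFin τ).symm i, c' a)) (List.finRange _)
    fun i => h' β fun s => g (_, s)).getD (h ℕ fun t => (Fintype.equivFin τ t : ℕ))
    (h' β fun s => g (t0, s))).of_eq fun a => ?_
  simp [List.getD_eq_getElem?_getD]

lemma CTF.pi [Fintype τ] {n : ℕ} {c : α → Fin n → τ} (h : ∀ i, CTF fun a => c a i) : CTF c := by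
  induction n with
  | zero => exact fun β _ g => (CT.const (g Fin.elim0)).of_eq fun a => congrArg g (Subsingleton.elim _ _)
  | succ n ih =>
    exact fun β _ g => ((h 0).prod (ih fun i => h i.succ) β fun x => g (Fin.cons x.1 x.2)).of_eq
      fun a => congrArg g (Fin.cons_self_tail (c a))

end Vale.Agent.P325
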