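import Vale.Agent.P325.Model
import Vale.Agent.P325.Defs
import Vale.Agent.P325.Tab

/-! Completeness, and the reduction on instances. -/

namespace Vale.Agent.P325

open Finset Matrix Vale.Agent.Lib.TM
open scoped BigOperators

namespace Par

variable (p : Par) (σ : Fin 3 → ℕ → F2)

/-- The values of the variables of the equations. -/
def xs (es : Fin p.k → Eqn) : Fin p.k × Fin 3 → F2 := fun i => σ i.2 ((es i.1).var i.2)

/-- The value of a view. -/
def val : p.View → p.Y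
  | .inl x => σ x.1 x.2.1 • x.2.2
  | .inr x => ∑ j, σ j (x.1.var j) • x.2 j

/-- The honest labelling. -/
def hon (C : p.Y → p.A) (y : p.Y) : p.Vtx → p.A
  | .inl x => C (p.xs σ x.1 ᵥ* x.2 + y)
  | .inr w => C (∑ i, p.val σ (w i) + y)

lemma val_view (e : Eqn) (b : p.Blk) :
    p.val σ (p.view e b) = ∑ j, σ j (e.var j) • p.mask b j := by
  unfold view mask
  split_ifs
  · rw [val, sum_eq_single b.2.1 (fun j _ hj => by simp [hj]) (by simp), Pi.single_eq_same]
  · rfl

lemma xs_mat {es : Fin p.k → Eqn} (h : ∀ i, (es i).Ok σ)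
    (x : (Fin p.k → p.Blk) × (Fin p.k → p.A)) : p.xs σ es ᵥ* p.mat x =
      ∑ i, p.val σ (p.view (es i) (x.1 i)) + inA (p.shift es x.2) := by
  have e : (inA (p.shift es x.2) : p.Y) = ∑ i, (es i).rhs • inA (x.2 i) := by
    funext c
    rcases c with c | c <;> simp [inA, shift, Finset.sum_apply]
  rw [e, ← sum_add_distrib, Matrix.vecMul_eq_sum, Fintype.sum_prod_type]
  refine sum_congr rfl fun i _ => ?_
  rw [val_view, ← h i, sum_smul, ← sum_add_distrib]
  exact sum_congr rfl fun j _ => smul_add _ _ _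

end Par

lemma ex_vecMul {ι κ : Type} [Fintype ι] [Fintype κ] [DecidableEq ι] [DecidableEq κ] {x : ι → F2}
    (hx : x ≠ 0) (f : (κ → F2) → ℝ) : 𝔼 N : Matrix ι κ F2, f (x ᵥ* N) = 𝔼 z, f z := by
  obtain ⟨i, hi⟩ := Function.ne_iff.1 hx
  refine ex_hom (φ := fun N : Matrix ι κ F2 => x ᵥ* N) (fun _ _ => vecMul_add _ _ _) (fun z => ?_) f
  refine ⟨of fun a j => if a = i then z j else 0, funext fun j => ?_⟩
  simp [vecMul, dotProduct, (F2.cases (x i)).resolve_left hi]

theorem complete (p : Par) (C : p.Y → p.A) (hC : ∀ y t, C (y + inA t) = C y + t) {ε η : ℝ}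
    (hε : 𝔼 y, 𝔼 ω, 𝔼 z : Fin p.n → F2, ind (C (y + z ᵥ* p.J ω) ≠ C y) ≤ ε)
    {E : Type} [Fintype E] [Nonempty E] (q : E → Eqn) {σ : Fin 3 → ℕ → F2}
    (hσ : 𝔼 e, ind (¬ (q e).Ok σ) ≤ η) : ∃ lab, 1 - p.k * η - ε ≤ p.acc q lab := by
  classical
  let F : p.Y → (Fin p.k → E) → p.Rnd → ℝ := fun y e ξ =>
    ind (C (y + ∑ i, p.val σ (p.view (q (e i)) (ξ.1.1 i)) + p.xs σ (q ∘ e) ᵥ* ξ.2.2 ᵥ* p.J ξ.2.1) ≠
      C (y + ∑ i, p.val σ (p.view (q (e i)) (ξ.1.1 i))))
  have h0 : 0 ≤ ε := le_trans (ex_nonneg fun _ => ex_nonneg fun _ => ex_nonneg fun _ =>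
    ind_nonneg _) hε
  have h1 : 𝔼 y, 𝔼 e, 𝔼 ξ, F y e ξ ≤ ε := by
    rw [ex_comm]
    refine ex_le fun e => ?_
    have k : ∀ ξ : p.Rnd, 𝔼 y, F y e ξ =
        𝔼 y, ind (C (y + p.xs σ (q ∘ e) ᵥ* ξ.2.2 ᵥ* p.J ξ.2.1) ≠ C y) :=
      fun ξ => ex_shift _ fun y => ind (C (y + p.xs σ (q ∘ e) ᵥ* ξ.2.2 ᵥ* p.J ξ.2.1) ≠ C y)
    rw [ex_comm, funext k, ex_comm]
    by_cases hx : p.xs σ (q ∘ e) = 0
    · simpa [hx, ind] using h0
    · refine le_trans (ex_mono fun y => ?_) hε
      rw [ex_prod]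
      refine ex_le fun _ => ?_
      rw [ex_prod]
      exact ex_mono fun ω => (ex_vecMul hx fun z => ind (C (y + z ᵥ* p.J ω) ≠ C y)).le
  obtain ⟨y, hy⟩ := ex_exists_le fun y => 𝔼 e, 𝔼 ξ, F y e ξ
  refine ⟨p.hon σ C y, ?_⟩
  have h2 : 𝔼 e : Fin p.k → E, ∑ i, ind (¬ (q (e i)).Ok σ) ≤ p.k * η := by
    rw [ex_sum]
    simp only [ex_eval _ fun a => ind (¬ (q a).Ok σ), sum_const, card_univ, Fintype.card_fin,
      nsmul_eq_mul]
    gcongr
  have h3 : 𝔼 e : Fin p.k → E, 𝔼 ξ, (1 - ∑ i, ind (¬ (q (e i)).Ok σ) - F y e ξ) ≤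
      p.acc q (p.hon σ C y) := by
    refine ex_mono fun e => ex_mono fun ξ => ?_
    have a0 : 0 ≤ F y e ξ := ind_nonneg _
    by_cases h : ∀ i, (q (e i)).Ok σ
    · have a1 : 0 ≤ ∑ i, ind (¬ (q (e i)).Ok σ) := sum_nonneg fun _ _ => ind_nonneg _
      have a2 : p.hon σ C y (p.vU (q ∘ e) ξ) = C (y + ∑ i, p.val σ (p.view (q (e i)) (ξ.1.1 i)) +
          p.xs σ (q ∘ e) ᵥ* ξ.2.2 ᵥ* p.J ξ.2.1) + p.shift (q ∘ e) ξ.1.2 := by
        rw [← hC, Par.vU, Par.hon, vecMul_add, p.xs_mat σ (es := q ∘ e) h, vecMul_vecMul]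
        exact congrArg C (by simp only [Function.comp]; abel)
      rw [a2, ind_congr (add_left_inj _), Par.vV, Par.hon, add_comm _ y]
      simp only [F, ne_eq, ind_not, Function.comp] at a1 ⊢
      linarith
    · have := (ind_pos (not_forall.1 h)).symm.le.trans (ind_exists_le _)
      have := ind_nonneg (p.hon σ C y (p.vU (q ∘ e) ξ) =
        p.hon σ C y (p.vV (q ∘ e) ξ.1.1) + p.shift (q ∘ e) ξ.1.2)
      linarith
  simp only [ex_sub, Fintype.expect_const] at h3
  linarith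

/-- All lists of `k` elements of `l`. -/
def tup (l : List Eqn) : ℕ → List (List Eqn)
  | 0 => [[]]
  | k + 1 => l.flatMap fun e => (tup l k).map (e :: ·)

lemma ct_tup (k : ℕ) : CT 0 fun l => tup l k := by
  induction k with
  | zero => exact CT.const _
  | succ k ih =>
    exact CT.flatMap (f := fun l e => (tup l k).map (e :: ·))
      (CT.map (f := fun (a : List Eqn × Eqn) s => a.2 :: s) (CT.id.fst.snd.cons CT.id.snd)
        (ih.comp CT.id.fst)) CT.id

/-- Reading a list as a tuple. -/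
def rd (k : ℕ) (s : List Eqn) : Fin k → Eqn := fun i => s.getD i (0, 0, 0, false)

lemma sum_tup (l : List Eqn) (k : ℕ) (f : (Fin k → Eqn) → ℝ) :
    ((tup l k).map fun s => f (rd k s)).sum = ∑ e : Fin k → Fin l.length, f (l.get ∘ e) := by
  induction k with
  | zero => simpa [tup] using congrArg f (Subsingleton.elim _ _)
  | succ k ih =>
    rw [← (Fin.consEquiv fun _ => Fin l.length).sum_comp, Fintype.sum_prod_type,
      tup, List.map_flatMap, List.flatMap_def, List.sum_flatten, List.map_map, ← sum_get]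
    refine sum_congr rfl fun i _ => ?_
    have e : ∀ s, rd (k + 1) (l.get i :: s) = Fin.cons (l.get i) (rd k s) := fun s =>
      funext fun j => by cases j using Fin.cases <;> rfl
    simp only [Function.comp_def, List.map_map, e]
    rw [ih fun t => f (Fin.cons (l.get i) t)]
    exact sum_congr rfl fun t _ => congrArg f (funext fun j => by cases j using Fin.cases <;> rfl)

lemma ct_pair {α : Type} [Enc α] {f g : α → ℕ} (hf : CT 0 f) (hg : CT 0 g) :
    CT 0 fun a => Nat.pair (f a) (g a) :=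
  ((hf.blt hg).cond ((hg.mul hg).add hf) (((hf.mul hf).add hf).add hg)).of_eq fun a => by
    unfold Nat.pair
    by_cases h : f a < g a
    · rw [Nat.blt_eq.mpr h, if_pos h]; rfl
    · rw [Bool.eq_false_iff.2 (mt Nat.blt_eq.mp h), if_neg h]; rfl

/-- Numbering of tuples. -/
def cF : (k : ℕ) → (Fin k → ℕ) → ℕ
  | 0, _ => 0
  | k + 1, f => Nat.pair (f 0) (cF k (Fin.tail f))

lemma cF_inj (k : ℕ) : Function.Injective (cF k) := by
  induction k with
  | zero => exact fun _ _ _ => Subsingleton.elim _ _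
  | succ k ih =>
    intro f g h
    obtain ⟨h1, h2⟩ := Nat.pair_eq_pair.1 h
    rw [← Fin.cons_self_tail f, h1, ih h2, Fin.cons_self_tail]

lemma ct_cF {α : Type} [Enc α] {k : ℕ} {f : α → Fin k → ℕ} (h : ∀ i, CT 0 fun a => f a i) :
    CT 0 fun a => cF k (f a) := by
  induction k with
  | zero => exact CT.const 0
  | succ k ih => exact ct_pair (h 0) (ih fun i => h i.succ)

/-- Numbering of equations. -/
def cE (e : Eqn) : ℕ := Nat.pair e.1 (Nat.pair e.2.1 (Nat.pair e.2.2.1 (cond e.2.2.2 1 0)))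

lemma cE_inj : Function.Injective cE := by
  rintro ⟨a, b, c, d⟩ ⟨a', b', c', d'⟩ h
  cases d <;> cases d' <;> simp_all [cE]

lemma ct_cE {α : Type} [Enc α] {f : α → Eqn} (h : CT 0 f) : CT 0 fun a => cE (f a) :=
  ct_pair h.fst (ct_pair h.snd.fst (ct_pair h.snd.snd.fst
    (h.snd.snd.snd.cond (CT.const 1) (CT.const 0))))

/-- Numbering of a finite type. -/
noncomputable def num {T : Type} [Fintype T] (t : T) : ℕ := Fintype.equivFin T t

lemma num_inj {T : Type} [Fintype T] {s t : T} : num s = num t ↔ s = t := by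
  simp [num, Fin.val_inj]

namespace Par

variable (p : Par)

/-- Numbering of views. -/
noncomputable def cV : p.View → ℕ
  | .inl x => Nat.pair 0 (Nat.pair x.2.1 (num (x.1, x.2.2)))
  | .inr x => Nat.pair 1 (Nat.pair (cE x.1) (num x.2))

lemma cV_inj : Function.Injective p.cV := by
  rintro (⟨a, b, c⟩ | ⟨a, b⟩) (⟨a', b', c'⟩ | ⟨a', b'⟩) h <;>
    simp_all [cV, num_inj, cE_inj.eq_iff]

/-- Numbering of vertices. -/
noncomputable def code : p.Vtx → ℕ
  | .inl x => Nat.pair 0 (Nat.pair (cF _ (cE ∘ x.1)) (num x.2))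
  | .inr w => Nat.pair 1 (cF _ (p.cV ∘ w))

lemma code_inj : Function.Injective p.code := by
  rintro (⟨a, b⟩ | a) (⟨a', b'⟩ | a') h <;>
    simp_all [code, num_inj, (cF_inj _).eq_iff, cE_inj.comp_left.eq_iff, p.cV_inj.comp_left.eq_iff]

/-- The numbering of the alphabet. -/
noncomputable def eqv : Fin (2 ^ p.d) ≃ p.A := (Fintype.equivFinOfCardEq (by simp)).symm

/-- The table of a translation. -/
noncomputable def tab (t : p.A) : List ℕ := List.ofFn fun a => (p.eqv.symm (p.eqv a + t) : ℕ)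

lemma tab_perm (t : p.A) : (p.tab t).Perm (List.range (2 ^ p.d)) := by
  have := (Equiv.Perm.map_finRange_perm (p.eqv.trans ((Equiv.addRight t).trans p.eqv.symm))).map
    Fin.val
  rw [List.map_coe_finRange_eq_range, List.map_map] at this
  rwa [tab, List.ofFn_eq_map]

/-- One constraint. -/
noncomputable def con (es : Fin p.k → Eqn) (ξ : p.Rnd) : ℕ × ℕ × List ℕ :=
  (p.code (p.vV es ξ.1.1), p.code (p.vU es ξ), p.tab (p.shift es ξ.1.2))

lemma ct_view {α : Type} [Enc α] {f : α → Eqn} (h : CT 0 f) (b : p.Blk) :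
    CT 0 fun a => p.cV (p.view (f a) b) := by
  obtain ⟨c, j, v⟩ := b
  by_cases hc : c = 0
  · have : CT 0 fun a => (f a).var j := by
      fin_cases j
      exacts [h.fst, h.snd.fst, h.snd.snd.fst]
    exact (ct_pair (CT.const 0) (ct_pair this (CT.const (num (j, v j))))).of_eq fun a => by
      rw [view, if_pos hc, cV]
  · exact (ct_pair (CT.const 1) (ct_pair (ct_cE h) (CT.const (num v)))).of_eq fun a => by
      rw [view, if_neg hc, cV]

lemma ct_con (ξ : p.Rnd) : CT 0 fun s => p.con (rd p.k s) ξ := by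
  have h : ∀ i, CT 0 fun s => rd p.k s i := fun i => CT.id.getD (CT.const _) (CT.const _)
  have h1 : CT 0 fun s => p.code (p.vV (rd p.k s) ξ.1.1) :=
    (ct_pair (CT.const 1) (ct_cF (f := fun s i => p.cV (p.view (rd p.k s i) (ξ.1.1 i)))
      fun i => p.ct_view (h i) _)).of_eq fun s => by rw [vV, code]; rfl
  have h2 : CT 0 fun s => p.code (p.vU (rd p.k s) ξ) :=
    (ct_pair (CT.const 0) (ct_pair (ct_cF (f := fun s i => cE (rd p.k s i)) fun i => ct_cE (h i))
      (CT.const (num (p.mat ξ.1 + ξ.2.2 * p.J ξ.2.1))))).of_eq fun s => by rw [vU, code]; rfl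
  have h3 : CT 0 fun s => p.tab (p.shift (rd p.k s) ξ.1.2) :=
    CTF.pi (c := fun s i => (rd p.k s i).2.2.2) (fun i => CTF.bool (h i).snd.snd.snd) _
      fun b => p.tab (∑ i, (if b i then 1 else 0 : F2) • ξ.1.2 i)
  exact h1.mk (h2.mk h3)

/-- The reduction. -/
noncomputable def red (l : List Eqn) : UG :=
  (tup l p.k).flatMap fun s => (univ : Finset p.Rnd).toList.map (p.con (rd p.k s))

lemma length_red (l : List Eqn) : ((p.red l).length : ℝ) =
    Fintype.card (Fin p.k → Fin l.length) * Fintype.card p.Rnd := by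
  have := sum_tup l p.k fun _ => 1
  rw [red, length_flat, Nat.cast_mul]
  simpa using Or.inl this

lemma good_red {l : List Eqn} (hl : l ≠ []) (a : ℕ → ℕ) (ha : ∀ v, a v < 2 ^ p.d) :
    ((p.red l).good a : ℝ) =
      p.acc l.get (fun v => p.eqv ⟨a (p.code v), ha _⟩) * (p.red l).length := by
  have : Nonempty (Fin l.length) := ⟨⟨0, List.length_pos_iff.2 hl⟩⟩
  rw [UG.good, countP_eq, length_red, red, sum_flat, sum_tup l p.k fun es => ∑ ξ, ind
    ((a (p.con es ξ).2.1 == (p.con es ξ).2.2.getD (a (p.con es ξ).1) 0) = true), acc]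
  simp only [ex_eq, ← sum_div]
  rw [div_div, mul_comm (Fintype.card p.Rnd : ℝ), div_mul_cancel₀ _ (by positivity)]
  refine sum_congr rfl fun e _ => sum_congr rfl fun ξ _ => ind_congr ?_
  simp only [con, tab, beq_iff_eq, List.getD_eq_getElem?_getD, List.getElem?_ofFn, ha, dif_pos,
    Option.getD_some, ← Equiv.eq_symm_apply, Fin.ext_iff]

end Par

theorem exists_code (p : Par) : ∃ red : List Eqn → UG, CT 0 red ∧ ∀ l, l ≠ [] →
    (red l).WF (2 ^ p.d) ∧
    (∀ c, (∃ lab, c ≤ p.acc l.get lab) → (red l).ValGe (2 ^ p.d) c) ∧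
    ∀ s, (∀ lab, p.acc l.get lab ≤ s) → (red l).ValLe (2 ^ p.d) s := by
  refine ⟨p.red, CT.flatMap (f := fun _ s => (univ : Finset p.Rnd).toList.map (p.con (rd p.k s)))
    (Lib.PCP.ct_mapConst (f := fun (a : List Eqn × List Eqn) ξ => p.con (rd p.k a.2) ξ) _
      fun ξ => (p.ct_con ξ).comp CT.id.snd) (ct_tup p.k), fun l hl => ⟨⟨?_, fun e he => ?_⟩, ?_,
    fun s h a ha => ?_⟩⟩
  · have : Nonempty (Fin l.length) := ⟨⟨0, List.length_pos_iff.2 hl⟩⟩
    have h : (0 : ℝ) < (p.red l).length := by rw [p.length_red]; positivity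
    exact List.length_pos_iff.1 (by exact_mod_cast h)
  · simp only [Par.red, List.mem_flatMap, List.mem_map] at he
    obtain ⟨s, -, ξ, -, rfl⟩ := he
    exact p.tab_perm _
  · rintro c ⟨lab, h⟩
    have ha : ∀ v, Function.extend p.code (fun v => (p.eqv.symm (lab v) : ℕ)) 0 v < 2 ^ p.d :=
      fun v => by
        by_cases e : ∃ w, p.code w = v
        · obtain ⟨w, rfl⟩ := e
          rw [p.code_inj.extend_apply]; exact Fin.is_lt _
        · rw [Function.extend_apply' _ _ _ e]; simp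
    refine ⟨_, ha, ?_⟩
    rw [p.good_red hl _ ha]
    simp only [p.code_inj.extend_apply, Fin.eta, Equiv.apply_symm_apply]
    gcongr
  · rw [p.good_red hl a ha]
    gcongr
    exact h _

end Vale.Agent.P325
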