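import Vale.Agent.P325.Four

/-! A cubic form is rarely a square of a quadratic form. -/

namespace Vale.Agent.P325

open Finset Matrix
open scoped BigOperators

section

open MvPolynomial

lemma sz_ex {σ F : Type} [Fintype σ] [DecidableEq σ] [Field F] [Fintype F] [DecidableEq F]
    [Algebra F2 F] {p : MvPolynomial σ F2} (hp : p ≠ 0) :
    𝔼 x : σ → F, ind (aeval x p = 0) ≤ p.totalDegree / Fintype.card F := by
  set e := Fintype.equivFin σ
  have hq : rename e (MvPolynomial.map (algebraMap F2 F) p) ≠ 0 := by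
    rw [Ne, rename_eq_zero_iff_of_injective _ e.injective]
    exact fun h => hp (MvPolynomial.map_injective _ (algebraMap F2 F).injective
      (h.trans (map_zero _).symm))
  have h1 := schwartz_zippel_totalDegree hq univ
  have h2 : (rename e (MvPolynomial.map (algebraMap F2 F) p)).totalDegree ≤ p.totalDegree :=
    (totalDegree_rename_le _ _).trans (Finset.sup_mono (support_map_subset _ _))
  have h3 : ∀ y : Fin (Fintype.card σ) → F, eval y (rename e (MvPolynomial.map (algebraMap F2 F) p))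
      = aeval ((Equiv.arrowCongr e.symm (Equiv.refl F)) y) p := by
    intro y
    rw [eval_rename, eval_map, aeval_def]
    rfl
  rw [← ex_equiv (Equiv.arrowCongr e.symm (Equiv.refl F)), ex_ind]
  simp only [h3, Fintype.piFinset_univ, card_univ] at h1
  have h4 := (NNRat.cast_le (K := ℝ)).2 h1
  push_cast at h4
  rw [Fintype.card_fun, Fintype.card_fin]
  push_cast
  refine h4.trans (div_le_div_of_nonneg_right ?_ (Nat.cast_nonneg _))
  exact_mod_cast h2

/-- The generic linear combination. -/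
noncomputable def genA {ρ : ℕ} (c : Fin ρ → F2) (j : Fin 3) : MvPolynomial (Fin ρ × Fin 3) F2 :=
  ∑ i, C (c i) * X (i, j)

lemma pderiv_genA {ρ : ℕ} (c : Fin ρ → F2) (i : Fin ρ) (j l : Fin 3) :
    pderiv (i, l) (genA c j) = if j = l then C (c i) else 0 := by
  rw [genA, map_sum, sum_eq_single i]
  · rw [pderiv_C_mul, pderiv_X, Pi.single_apply]
    by_cases h : j = l <;> simp [h]
  · intro m _ hm
    rw [pderiv_C_mul, pderiv_X_of_ne (by simp [hm]), mul_zero]
  · simp

lemma pderiv_sq_mul {σ : Type} (p : σ) (k f : MvPolynomial σ F2) :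
    pderiv p (k ^ 2 * f) = k ^ 2 * pderiv p f := by
  have : pderiv p (k ^ 2) = 0 := by
    rw [sq, pderiv_mul, mul_comm, CharTwo.add_self_eq_zero]
  rw [pderiv_mul, this, zero_mul, zero_add]

lemma exists_ker {ρ : ℕ} {G : Finset (Fin ρ → F2)} (h0 : ∀ c ∈ G, c ≠ 0) (hG : 3 * ρ < G.card) :
    ∃ k : G → MvPolynomial (Fin ρ × Fin 3) F2, (∀ i j, ∑ c, k c * (C (c.1 i) * genA c.1 j) = 0) ∧
      ∑ c, k c ^ 2 * (genA c.1 0 * genA c.1 1 * genA c.1 2) ≠ 0 := by
  by_contra hc
  have hD : ∀ k : G → MvPolynomial (Fin ρ × Fin 3) F2,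
      (∀ i j, ∑ c, k c * (C (c.1 i) * genA c.1 j) = 0) →
      ∀ i j l, ∑ c, k c * (C (c.1 i) * C (c.1 j) * C (c.1 l)) = 0 := by
    intro k hk i j l
    have h1 : ∑ c, k c ^ 2 * (genA c.1 0 * genA c.1 1 * genA c.1 2) = 0 :=
      by_contra fun h => hc ⟨k, hk, h⟩
    have h2 := congrArg (fun f => pderiv (l, 2) (pderiv (j, 1) (pderiv (i, 0) f))) h1
    simp only [map_sum, pderiv_sq_mul, map_zero] at h2
    have h3 : ∀ c : Fin ρ → F2, pderiv (l, 2) (pderiv (j, 1) (pderiv (i, 0)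
        (genA c 0 * genA c 1 * genA c 2))) = (C (c i) * C (c j) * C (c l)) ^ 2 := by
      intro c
      have h4 : ∀ a : F2, a ^ 2 = a := by decide
      rw [← C_mul, ← C_mul, ← C_pow, h4, C_mul, C_mul]
      simp [pderiv_genA]
    simp only [h3, ← mul_pow, ← CharTwo.sum_sq] at h2
    exact pow_eq_zero_iff two_ne_zero |>.1 h2
  have hmul : ∀ (m : Fin ρ) (t : F2) (k : G → MvPolynomial (Fin ρ × Fin 3) F2),
      (∀ i j, ∑ c, k c * (C (c.1 i) * genA c.1 j) = 0) →
      ∀ i j, ∑ c, (k c * C (c.1 m + t)) * (C (c.1 i) * genA c.1 j) = 0 := by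
    intro m t k hk i j
    have h1 : ∀ c : G, (k c * C (c.1 m + t)) * (C (c.1 i) * genA c.1 j)
        = ∑ l, k c * (C (c.1 m) * C (c.1 i) * C (c.1 l)) * X (l, j)
          + C t * (k c * (C (c.1 i) * genA c.1 j)) := by
      intro c
      have h2 : ∑ l, k c * (C (c.1 m) * C (c.1 i) * C (c.1 l)) * X (l, j)
          = k c * C (c.1 m) * C (c.1 i) * genA c.1 j := by
        rw [genA, mul_sum]
        exact sum_congr rfl fun _ _ => by ring
      rw [h2, map_add]
      ring
    simp only [h1, sum_add_distrib, ← mul_sum, hk, mul_zero, add_zero]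
    rw [sum_comm]
    simp only [← sum_mul, hD k hk, zero_mul, sum_const_zero]
  have hli : ¬ LinearIndependent (MvPolynomial (Fin ρ × Fin 3) F2)
      fun (c : G) (p : Fin ρ × Fin 3) => C (c.1 p.1) * genA c.1 p.2 := by
    intro h
    have := h.fintype_card_le_finrank
    rw [Module.finrank_fintype_fun_eq_card, Fintype.card_prod, Fintype.card_fin, Fintype.card_fin,
      Fintype.card_coe] at this
    omega
  obtain ⟨k, hk, c0, hc0⟩ := Fintype.not_linearIndependent_iff.1 hli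
  have h1 : ∀ s : Finset (Fin ρ), ∀ i j,
      ∑ c, (k c * C (∏ m ∈ s, (c.1 m + (c0.1 m + 1)))) * (C (c.1 i) * genA c.1 j) = 0 := by
    intro s
    induction s using Finset.induction_on with
    | empty =>
      intro i j
      simpa using congrFun hk (i, j)
    | insert m s hm ih =>
      intro i j
      refine Eq.trans (sum_congr rfl fun c _ => ?_) (hmul m (c0.1 m + 1) _ ih i j)
      rw [prod_insert hm, C_mul]
      ring
  obtain ⟨i, hi⟩ := Function.ne_iff.1 (h0 c0.1 c0.2)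
  have h2 := hD _ (h1 univ) i i i
  rw [sum_eq_single c0 (fun c _ hcc => ?_) (by simp), (F2.cases _).resolve_left hi,
    prod_eq_one fun m _ => by rw [← add_assoc, F2.add_self, zero_add]] at h2
  · exact hc0 (by simpa using h2)
  · obtain ⟨m, hm⟩ := Function.ne_iff.1 fun h => hcc (Subtype.ext h)
    have h3 : ∀ a b : F2, a ≠ b → a + (b + 1) = 0 := by decide
    rw [prod_eq_zero (mem_univ m) (h3 _ _ hm), map_zero, mul_zero, zero_mul]

lemma exists_poly {ρ : ℕ} (G : Finset (Fin ρ → F2)) : ∃ D : MvPolynomial (Fin ρ × Fin 3) F2,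
    D ≠ 0 ∧ ((∀ c ∈ G, c ≠ 0) → 3 * ρ < G.card → ∀ (F : Type) [Field F] [Algebra F2 F]
      (a b : Fin ρ → Fin 3 → F), (∀ c ∈ G, ((∑ i, c i • b i) ⬝ᵥ ∑ i, c i • a i) ^ 2
        = ∏ j, (∑ i, c i • a i) j) → aeval (fun p : Fin ρ × Fin 3 => a p.1 p.2) D = 0) := by
  by_cases h : (∀ c ∈ G, c ≠ 0) ∧ 3 * ρ < G.card
  swap
  · exact ⟨1, one_ne_zero, fun h1 h2 => absurd ⟨h1, h2⟩ h⟩
  obtain ⟨k, hk, hD⟩ := exists_ker h.1 h.2
  refine ⟨_, hD, fun _ _ F _ _ a b hab => ?_⟩
  have : CharP F 2 := charP_of_injective_algebraMap (algebraMap F2 F).injective 2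
  set e := aeval (R := F2) fun p : Fin ρ × Fin 3 => a p.1 p.2 with he
  have h1 : ∀ (c : Fin ρ → F2) (j : Fin 3), e (genA c j) = (∑ i, c i • a i) j := by
    intro c j
    simp [he, genA, Algebra.smul_def, Finset.sum_apply]
  have h2 : ∀ c : G, e (k c ^ 2 * (genA c.1 0 * genA c.1 1 * genA c.1 2))
      = (∑ i, ∑ j, b i j * e (k c * (C (c.1 i) * genA c.1 j))) ^ 2 := by
    intro c
    rw [map_mul, map_mul, map_mul, h1, h1, h1, ← Fin.prod_univ_three, ← hab c.1 c.2, map_pow,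
      ← mul_pow, sum_dotProduct, mul_sum]
    refine congrArg (· ^ 2) (sum_congr rfl fun i _ => ?_)
    rw [dotProduct, mul_sum]
    refine sum_congr rfl fun j _ => ?_
    rw [map_mul, map_mul, h1, he, aeval_C, Pi.smul_apply, Algebra.smul_def]
    ring
  rw [map_sum]
  simp only [h2, ← CharTwo.sum_sq]
  rw [sum_comm, sum_eq_zero fun i _ => ?_, zero_pow two_ne_zero]
  rw [sum_comm]
  simp only [← mul_sum, ← map_sum, hk, map_zero, mul_zero, sum_const_zero]

end

theorem few_good (ρ : ℕ) : ∃ D : ℕ, ∀ (F : Type) [Field F] [Fintype F] [DecidableEq F]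
    [Algebra F2 F], 𝔼 a : Fin ρ → Fin 3 → F, ind (∃ b : Fin ρ → Fin 3 → F,
      3 * ρ < (univ.filter fun c : Fin ρ → F2 => c ≠ 0 ∧
        ((∑ i, c i • b i) ⬝ᵥ ∑ i, c i • a i) ^ 2 = ∏ j, (∑ i, c i • a i) j).card) ≤
      D / Fintype.card F := by
  choose D hD hE using exists_poly (ρ := ρ)
  refine ⟨∑ G, (D G).totalDegree, fun F _ _ _ _ => ?_⟩
  have h1 : ∀ a : Fin ρ → Fin 3 → F, ind (∃ b : Fin ρ → Fin 3 → F,
      3 * ρ < (univ.filter fun c : Fin ρ → F2 => c ≠ 0 ∧
        ((∑ i, c i • b i) ⬝ᵥ ∑ i, c i • a i) ^ 2 = ∏ j, (∑ i, c i • a i) j).card)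
      ≤ ∑ G, ind (MvPolynomial.aeval (fun p : Fin ρ × Fin 3 => a p.1 p.2) (D G) = 0) := by
    intro a
    refine le_trans (ind_mono ?_) (ind_exists_le _)
    rintro ⟨b, hb⟩
    exact ⟨_, hE _ (fun c hc => (mem_filter.1 hc).2.1) hb F a b fun c hc => (mem_filter.1 hc).2.2⟩
  refine (ex_mono h1).trans ?_
  rw [ex_sum, Nat.cast_sum, sum_div]
  refine sum_le_sum fun G _ => le_trans (le_of_eq ?_) (sz_ex (hD G))
  exact ex_equiv (Equiv.curry (Fin ρ) (Fin 3) F).symm fun x => ind (MvPolynomial.aeval x (D G) = 0)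

end Vale.Agent.P325
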