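import Mathlib

/-! Expectations, and Fourier analysis on finite vector spaces over the two-element field. -/

namespace Vale.Agent.P325

open Finset Matrix
open scoped BigOperators

set_option linter.unusedSectionVars false

/-- The two-element field. -/
abbrev F2 := ZMod 2

lemma F2.cases (a : F2) : a = 0 ∨ a = 1 := by revert a; decide

lemma F2.add_self (a : F2) : a + a = 0 := by revert a; decide

open Classical in
/-- Indicator of a proposition. -/
noncomputable def ind (p : Prop) : ℝ := if p then 1 else 0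

lemma ind_nonneg (p : Prop) : 0 ≤ ind p := by unfold ind; split_ifs <;> norm_num

lemma ind_le_one (p : Prop) : ind p ≤ 1 := by unfold ind; split_ifs <;> norm_num

lemma ind_pos {p : Prop} (h : p) : ind p = 1 := if_pos h

lemma ind_neg {p : Prop} (h : ¬ p) : ind p = 0 := if_neg h

lemma ind_eq_ite (p : Prop) [Decidable p] : ind p = if p then 1 else 0 := by
  by_cases h : p <;> simp [ind, h]

lemma ind_congr {p q : Prop} (h : p ↔ q) : ind p = ind q := by rw [propext h]

lemma ind_mono {p q : Prop} (h : p → q) : ind p ≤ ind q := by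
  by_cases hp : p
  · rw [ind_pos hp, ind_pos (h hp)]
  · rw [ind_neg hp]; exact ind_nonneg q

lemma ind_and (p q : Prop) : ind (p ∧ q) = ind p * ind q := by
  by_cases hp : p <;> by_cases hq : q <;> simp [ind, hp, hq]

lemma ind_not (p : Prop) : ind (¬ p) = 1 - ind p := by by_cases hp : p <;> simp [ind, hp]

lemma ind_or_le (p q : Prop) : ind (p ∨ q) ≤ ind p + ind q := by
  by_cases hp : p <;> by_cases hq : q <;> simp [ind, hp, hq]

lemma ind_forall {ι : Type} [Fintype ι] (p : ι → Prop) : ind (∀ i, p i) = ∏ i, ind (p i) := by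
  by_cases h : ∀ i, p i
  · simp [ind, h]
  · rw [ind_neg h]
    obtain ⟨i, hi⟩ := not_forall.1 h
    exact (prod_eq_zero (mem_univ i) (ind_neg hi)).symm

lemma ind_exists_le {ι : Type} [Fintype ι] (p : ι → Prop) : ind (∃ i, p i) ≤ ∑ i, ind (p i) := by
  by_cases h : ∃ i, p i
  · obtain ⟨i, hi⟩ := h
    exact (ind_le_one _).trans ((ind_pos hi).symm.le.trans
      (single_le_sum (f := fun i => ind (p i)) (fun _ _ => ind_nonneg _) (mem_univ i)))
  · rw [ind_neg h]; exact sum_nonneg fun _ _ => ind_nonneg _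

section ex

variable {α β : Type} [Fintype α] [Fintype β]

lemma ex_eq (f : α → ℝ) : 𝔼 a, f a = (∑ a, f a) / Fintype.card α :=
  Fintype.expect_eq_sum_div_card f

lemma ex_ind (p : α → Prop) [DecidablePred p] :
    𝔼 a, ind (p a) = ((univ.filter p).card : ℝ) / Fintype.card α := by
  simp [ex_eq, ind_eq_ite]

lemma ex_mono {f g : α → ℝ} (h : ∀ a, f a ≤ g a) : 𝔼 a, f a ≤ 𝔼 a, g a :=
  expect_le_expect fun a _ => h a

lemma ex_nonneg {f : α → ℝ} (h : ∀ a, 0 ≤ f a) : 0 ≤ 𝔼 a, f a := expect_nonneg fun a _ => h a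

lemma ex_le [Nonempty α] {f : α → ℝ} {c : ℝ} (h : ∀ a, f a ≤ c) : 𝔼 a, f a ≤ c :=
  expect_le univ_nonempty fun a _ => h a

lemma ex_exists_le [Nonempty α] (f : α → ℝ) : ∃ a, f a ≤ 𝔼 a, f a :=
  let ⟨a, _, h⟩ := exists_le_of_expect_le univ_nonempty (le_refl (𝔼 a, f a)); ⟨a, h⟩

lemma ex_exists_ge [Nonempty α] (f : α → ℝ) : ∃ a, 𝔼 a, f a ≤ f a :=
  let ⟨a, _, h⟩ := exists_le_of_le_expect univ_nonempty (le_refl (𝔼 a, f a)); ⟨a, h⟩

lemma ex_mul (c : ℝ) (f : α → ℝ) : 𝔼 a, c * f a = c * 𝔼 a, f a := (mul_expect _ _ _).symm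

lemma ex_mul' (c : ℝ) (f : α → ℝ) : 𝔼 a, f a * c = (𝔼 a, f a) * c := (expect_mul _ _ _).symm

lemma ex_add (f g : α → ℝ) : 𝔼 a, (f a + g a) = 𝔼 a, f a + 𝔼 a, g a := expect_add_distrib _ _ _

lemma ex_sub (f g : α → ℝ) : 𝔼 a, (f a - g a) = 𝔼 a, f a - 𝔼 a, g a := expect_sub_distrib _ _ _

lemma ex_sum {ι : Type} (s : Finset ι) (f : α → ι → ℝ) :
    𝔼 a, ∑ i ∈ s, f a i = ∑ i ∈ s, 𝔼 a, f a i := expect_sum_comm _ _ _

lemma ex_comm (f : α → β → ℝ) : 𝔼 a, 𝔼 b, f a b = 𝔼 b, 𝔼 a, f a b := expect_comm _ _ _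

lemma ex_prod (f : α × β → ℝ) : 𝔼 p, f p = 𝔼 a, 𝔼 b, f (a, b) := by
  rw [← univ_product_univ, expect_product]

lemma ex_equiv (e : α ≃ β) (f : β → ℝ) : 𝔼 a, f (e a) = 𝔼 b, f b :=
  Fintype.expect_equiv e _ _ fun _ => rfl

lemma ex_shift [AddCommGroup α] (a : α) (f : α → ℝ) : 𝔼 x, f (x + a) = 𝔼 x, f x :=
  ex_equiv (Equiv.addRight a) f

lemma ex_shift' [AddCommGroup α] (a : α) (f : α → ℝ) : 𝔼 x, f (a + x) = 𝔼 x, f x :=
  ex_equiv (Equiv.addLeft a) f

/-- Two additive maps with the same range have the same image law. -/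
lemma ex_range {γ : Type} [AddCommGroup α] [AddCommGroup β] [AddCommGroup γ] {φ : α → γ}
    {ψ : β → γ} (hφ : ∀ x y, φ (x + y) = φ x + φ y) (hψ : ∀ x y, ψ (x + y) = ψ x + ψ y)
    (h1 : ∀ a, ∃ b, ψ b = φ a) (h2 : ∀ b, ∃ a, φ a = ψ b) (f : γ → ℝ) :
    𝔼 a, f (φ a) = 𝔼 b, f (ψ b) := by
  have k1 : ∀ b, 𝔼 a, f (φ a) = 𝔼 a, f (φ a + ψ b) := fun b => by
    obtain ⟨a, ha⟩ := h2 b
    rw [← ex_shift a fun a => f (φ a)]
    simp only [hφ, ha]
  have k2 : ∀ a, 𝔼 b, f (φ a + ψ b) = 𝔼 b, f (ψ b) := fun a => by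
    obtain ⟨b, hb⟩ := h1 a
    rw [← ex_shift' b fun b => f (ψ b)]
    simp only [hψ, hb]
  rw [← Fintype.expect_const (ι := β) (𝔼 a, f (φ a)), funext k1, ex_comm, funext k2,
    Fintype.expect_const]

/-- An additive surjection maps the uniform law to the uniform law. -/
lemma ex_hom [AddCommGroup α] [AddCommGroup β] {φ : α → β} (h : ∀ x y, φ (x + y) = φ x + φ y)
    (hs : Function.Surjective φ) (f : β → ℝ) : 𝔼 a, f (φ a) = 𝔼 b, f b :=
  ex_range (ψ := id) h (fun _ _ => rfl) (fun _ => ⟨_, rfl⟩) hs f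

/-- Independent coordinates. -/
lemma ex_pi_prod [DecidableEq α] (g : α → β → ℝ) :
    𝔼 f : α → β, ∏ a, g a (f a) = ∏ a, 𝔼 b, g a b := by
  simp only [ex_eq, prod_div_distrib, prod_univ_sum, Fintype.piFinset_univ]
  simp

lemma ex_eval [DecidableEq α] [Nonempty β] (a : α) (g : β → ℝ) :
    𝔼 f : α → β, g (f a) = 𝔼 b, g b := by
  have := ex_pi_prod fun a' b => if a' = a then g b else 1
  simp only [prod_ite_eq', mem_univ, if_true] at this
  rw [this, prod_eq_single a] <;> simp +contextual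

lemma ex_sq_le (f : α → ℝ) [Nonempty α] : (𝔼 a, f a) ^ 2 ≤ 𝔼 a, f a ^ 2 := by
  simpa using expect_mul_sq_le_sq_mul_sq univ f fun _ => 1

lemma ex_mul_le (f g : α → ℝ) :
    𝔼 a, f a * g a ≤ √(𝔼 a, f a ^ 2) * √(𝔼 a, g a ^ 2) := by
  rw [← Real.sqrt_mul (ex_nonneg fun _ => sq_nonneg _)]
  exact Real.le_sqrt_of_sq_le (expect_mul_sq_le_sq_mul_sq univ f g)

end ex

/-- The sign character. -/
def sgn (a : F2) : ℝ := if a = 0 then 1 else -1

@[simp] lemma sgn_zero : sgn 0 = 1 := rfl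

@[simp] lemma sgn_one : sgn 1 = -1 := if_neg (by decide)

lemma sgn_add (a b : F2) : sgn (a + b) = sgn a * sgn b := by
  rcases F2.cases a with rfl | rfl <;> rcases F2.cases b with rfl | rfl <;> simp [F2.add_self]

lemma sgn_mul_self (a : F2) : sgn a * sgn a = 1 := by rw [← sgn_add, F2.add_self, sgn_zero]

lemma sgn_sq (a : F2) : sgn a ^ 2 = 1 := by rw [sq, sgn_mul_self]

lemma abs_sgn (a : F2) : |sgn a| = 1 := by rcases F2.cases a with rfl | rfl <;> simp

lemma sgn_sum {ι : Type} (s : Finset ι) (f : ι → F2) : sgn (∑ i ∈ s, f i) = ∏ i ∈ s, sgn (f i) := by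
  classical
  induction s using Finset.induction_on with
  | empty => simp
  | insert a s ha ih => rw [sum_insert ha, prod_insert ha, sgn_add, ih]

lemma ind_eq_zero (a : F2) : ind (a = 0) = (1 + sgn a) / 2 := by
  rcases F2.cases a with rfl | rfl <;> simp [ind]

/-- The mean of the sign of an additive map. -/
lemma ex_sgn {G : Type} [Fintype G] [AddCommGroup G] {φ : G → F2}
    (h : ∀ x y, φ (x + y) = φ x + φ y) : 𝔼 x, sgn (φ x) = ind (∀ x, φ x = 0) := by
  by_cases h0 : ∀ x, φ x = 0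
  · simp [h0, ind]
  · obtain ⟨y, hy⟩ := not_forall.1 h0
    have := ex_shift y fun x => sgn (φ x)
    simp only [h, sgn_add, (F2.cases _).resolve_left hy, sgn_one, ex_mul'] at this
    rw [ind_neg h0]
    linarith

/-- A symmetric perfect pairing with values in the two-element field. -/
class Pairing (G : Type) [AddCommGroup G] where
  /-- the pairing -/
  B : G → G → F2
  symm : ∀ s x, B s x = B x s
  add : ∀ s x y, B s (x + y) = B s x + B s y
  nd : ∀ s, (∀ x, B s x = 0) → s = 0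
  two : ∀ x : G, x + x = 0

instance : Pairing F2 := ⟨(· * ·), mul_comm, mul_add, fun s h => by simpa using h 1, F2.add_self⟩

instance Pairing.pi {ι G : Type} [Fintype ι] [AddCommGroup G] [Pairing G] : Pairing (ι → G) where
  B s x := ∑ i, Pairing.B (s i) (x i)
  symm s x := sum_congr rfl fun _ _ => Pairing.symm _ _
  add s x y := by simp only [Pi.add_apply, Pairing.add, sum_add_distrib]
  nd s h := funext fun i => Pairing.nd _ fun x => by
    classical
    have h0 : ∀ s : G, Pairing.B s 0 = 0 := fun s => by simpa using Pairing.add s 0 0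
    have := h (Pi.single i x)
    rwa [sum_eq_single i (fun j _ hj => by rw [Pi.single_eq_of_ne hj, h0]) (by simp),
      Pi.single_eq_same] at this
  two x := funext fun i => Pairing.two (x i)

instance {ι κ : Type} [Fintype ι] [Fintype κ] : Pairing (Matrix ι κ F2) :=
  Pairing.pi (ι := ι) (G := κ → F2)

section four

variable {G : Type} [AddCommGroup G] [Pairing G] [Fintype G]

/-- Characters. -/
def chi (s x : G) : ℝ := sgn (Pairing.B s x)

/-- Fourier coefficients. -/
noncomputable def hat (f : G → ℝ) (s : G) : ℝ := 𝔼 x, f x * chi s x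

lemma chi_comm (s x : G) : chi s x = chi x s := by rw [chi, chi, Pairing.symm]

lemma chi_add (s x y : G) : chi s (x + y) = chi s x * chi s y := by
  rw [chi, Pairing.add, sgn_add]; rfl

lemma chi_add' (s t x : G) : chi (s + t) x = chi s x * chi t x := by
  rw [chi_comm, chi_add, chi_comm x, chi_comm x]

lemma chi_mul_self (s x : G) : chi s x * chi s x = 1 := sgn_mul_self _

lemma chi_sq (s x : G) : chi s x ^ 2 = 1 := sgn_sq _

lemma abs_chi (s x : G) : |chi s x| = 1 := abs_sgn _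

@[simp] lemma chi_zero (s : G) : chi s 0 = 1 := by rw [← Pairing.two s, chi_add, chi_mul_self]

@[simp] lemma chi_zero' (s : G) : chi 0 s = 1 := by rw [chi_comm, chi_zero]

lemma add_eq_zero_iff (s t : G) : s + t = 0 ↔ s = t :=
  ⟨fun h => add_right_cancel (h.trans (Pairing.two t).symm), fun h => h ▸ Pairing.two s⟩

lemma ex_chi (s : G) : 𝔼 x, chi s x = ind (s = 0) :=
  (ex_sgn (Pairing.add s)).trans (ind_congr ⟨Pairing.nd s, fun h x => by
    rw [h, Pairing.symm]; simpa using Pairing.add x 0 0⟩)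

lemma ex_chi' (x : G) : 𝔼 s, chi s x = ind (x = 0) := by simp only [chi_comm _ x, ex_chi]

lemma ex_chi_mul (s t : G) : 𝔼 x, chi s x * chi t x = ind (s = t) := by
  simp only [← chi_add', ex_chi, add_eq_zero_iff]

lemma hat_syn {ι : Type} (s : Finset ι) (c : ι → ℝ) (φ : ι → G) (t : G) :
    hat (fun x => ∑ i ∈ s, c i * chi (φ i) x) t = ∑ i ∈ s, c i * ind (φ i = t) := by
  simp only [hat, sum_mul, mul_assoc, ex_sum, ex_mul, ex_chi_mul]

lemma hat_syn' (c : G → ℝ) (t : G) : hat (fun x => ∑ s, c s * chi s x) t = c t := by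
  classical
  simp [hat_syn, ind_eq_ite]

/-- Fourier inversion. -/
lemma inversion (f : G → ℝ) (x : G) : ∑ s, hat f s * chi s x = f x := by
  classical
  have hc : (Fintype.card G : ℝ) ≠ 0 := Nat.cast_ne_zero.2 Fintype.card_ne_zero
  have : ∀ y, ∑ s, chi s y * chi s x = Fintype.card G * ind (y = x) := fun y => by
    simp only [chi_comm _ y, chi_comm _ x]
    rw [← ex_chi_mul, ex_eq, mul_div_cancel₀ _ hc]
  simp only [hat, ← ex_mul', mul_assoc]
  rw [← ex_sum]
  simp only [← mul_sum, this, ind_eq_ite, ex_eq]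
  simp [hc]

/-- Plancherel. -/
lemma plancherel (f g : G → ℝ) : 𝔼 x, f x * g x = ∑ s, hat f s * hat g s := by
  simp only [hat.eq_1 g, ← ex_mul, ← ex_sum]
  refine congrArg _ (funext fun x => ?_)
  rw [← inversion f x, sum_mul]
  exact sum_congr rfl fun _ _ => by ring

/-- Parseval. -/
lemma parseval (f : G → ℝ) : 𝔼 x, f x ^ 2 = ∑ s, hat f s ^ 2 := by
  simp only [sq, plancherel]

lemma hat_shift (f : G → ℝ) (a s : G) : hat (fun x => f (x + a)) s = hat f s * chi s a := by
  rw [hat, hat, ← ex_shift a fun x => f x * chi s x, ← ex_mul']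
  simp only [chi_add, mul_assoc, chi_mul_self, mul_one]

lemma hat_mul (f g : G → ℝ) (z : G) :
    hat (fun x => f x * g x) z = ∑ s, hat f s * hat g (s + z) := by
  simp only [hat.eq_1 g, ← ex_mul, ← ex_sum, hat.eq_1 _ z]
  refine congrArg _ (funext fun x => ?_)
  rw [← inversion f x, sum_mul, sum_mul]
  exact sum_congr rfl fun _ _ => by rw [chi_add']; ring

end four

section mat

variable {ι κ μ : Type} [Fintype ι] [Fintype κ] [Fintype μ]

lemma B_vec (s x : ι → F2) : Pairing.B s x = s ⬝ᵥ x := rfl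

lemma B_mat (S M : Matrix ι κ F2) : Pairing.B S M = (Sᵀ * M).trace := by
  simp only [Matrix.trace, Matrix.diag, Matrix.mul_apply, transpose_apply]
  exact sum_comm

lemma chi_transpose (S M : Matrix ι κ F2) : chi Sᵀ Mᵀ = chi S M := by
  rw [chi, chi, B_mat, B_mat, transpose_transpose, trace_mul_comm, ← trace_transpose,
    transpose_mul, transpose_transpose]

lemma chi_mul_left (S : Matrix ι κ F2) (P : Matrix ι μ F2) (M : Matrix μ κ F2) :
    chi S (P * M) = chi (Pᵀ * S) M := by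
  rw [chi, chi, B_mat, B_mat, transpose_mul, transpose_transpose, Matrix.mul_assoc]

lemma chi_mul_right (S : Matrix ι κ F2) (M : Matrix ι μ F2) (R : Matrix μ κ F2) :
    chi S (M * R) = chi (S * Rᵀ) M := by
  rw [chi, chi, B_mat, B_mat, transpose_mul, transpose_transpose, ← Matrix.mul_assoc,
    trace_mul_comm, Matrix.mul_assoc]

lemma chi_vecMulVec (S : Matrix ι κ F2) (x : ι → F2) (y : κ → F2) :
    chi S (vecMulVec x y) = chi x (S *ᵥ y) := by
  refine congrArg sgn (sum_congr rfl fun i _ => ?_)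
  change ∑ j, S i j * (x i * y j) = x i * ∑ j, S i j * y j
  rw [mul_sum]
  exact sum_congr rfl fun _ _ => by ring

lemma mat_add_self (M : Matrix ι κ F2) : M + M = 0 := Pairing.two M

lemma mat_sub (M N : Matrix ι κ F2) : M - N = M + N := by
  rw [sub_eq_iff_eq_add, add_assoc, mat_add_self, add_zero]

/-- Extension by zero. -/
def inA (t : κ → F2) : κ ⊕ μ → F2 := Sum.elim t 0

end mat

end Vale.Agent.P325
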