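import Vale.Agent.P325.GHX

/-! Global hypercontractivity on matrix spaces, and the level inequality. -/

namespace Vale.Agent.P325

open Finset Matrix
open scoped BigOperators

set_option linter.unusedSectionVars false

section aux

variable {ι κ μ : Type} [Fintype ι] [Fintype κ] [Fintype μ] [DecidableEq ι] [DecidableEq κ]
  [DecidableEq μ]

lemma ex_res (v ξ : ι → F2) (f : Matrix ι κ F2 → ℝ) :
    𝔼 M0, 𝔼 M, res v ξ M0 f M = 𝔼 M, f M := by
  rw [ex_comm]
  simp only [res, ex_shift _ f, Fintype.expect_const]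

/-- Degree drop for a function all of whose characters contain a fixed column vector. -/
lemma drop_col {r : ℕ} {C γ : ℝ}
    (ih : ∀ g : Matrix ι κ F2 → ℝ, (∀ S : Matrix ι κ F2, r ≤ S.rank → hat g S = 0) → Glob γ r g →
      𝔼 M, g M ^ 4 ≤ C * γ * 𝔼 M, g M ^ 2)
    {h : Matrix ι κ F2 → ℝ} {v : ι → F2} (hv : v ≠ 0)
    (hh : ∀ S, hat h S ≠ 0 → (∃ x, S *ᵥ x = v) ∧ S.rank ≤ r) (hg : Glob γ (r + 1) h) :
    𝔼 M, h M ^ 4 ≤ C * γ * 𝔼 M, h M ^ 2 := by
  obtain ⟨i, hi⟩ := Function.ne_iff.1 hv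
  have hξ : (Pi.single i 1 : ι → F2) ⬝ᵥ v = 1 := by
    rw [single_dotProduct, one_mul]
    exact (F2.cases _).resolve_left hi
  rw [← ex_res v (Pi.single i 1) fun M => h M ^ 4, ← ex_res v (Pi.single i 1) fun M => h M ^ 2,
    ← ex_mul]
  refine ex_mono fun M0 => ih (res v (Pi.single i 1) M0 h) (fun T hT => ?_) (hg.2.1 _ _ M0 hξ)
  rw [res_eq, hat_syn]
  refine sum_eq_zero fun S _ => ?_
  by_cases h0 : hat h S = 0
  · rw [h0, zero_mul, zero_mul]
  · have h1 := rank_res_mem hξ (hh S h0).1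
    have h2 := (hh S h0).2
    rw [ind_neg, mul_zero]
    rintro rfl
    omega

/-- Projection to the characters containing all vectors of `I`. -/
noncomputable def LI (I : Finset ((ι → F2) ⊕ (κ → F2))) (g : Matrix ι κ F2 → ℝ) :
    Matrix ι κ F2 → ℝ := mult (fun A => ind (I ⊆ nb A)) g

lemma incl_excl {α : Type} [DecidableEq α] (N P Q : Finset α) :
    ind (∀ u ∈ N, u ∈ P → u ∈ Q → False)
      = ∑ I ∈ N.powerset, (-1) ^ I.card * (ind (I ⊆ P) * ind (I ⊆ Q)) := by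
  have h1 := sum_powerset_neg_one_pow_card (x := N ∩ (P ∩ Q))
  have h2 : (N ∩ (P ∩ Q)).powerset = N.powerset.filter fun I => I ⊆ P ∧ I ⊆ Q := by
    ext I
    simp only [mem_powerset, mem_filter, subset_inter_iff]
  have h3 : ind (∀ u ∈ N, u ∈ P → u ∈ Q → False)
      = ((if N ∩ (P ∩ Q) = ∅ then 1 else 0 : ℤ) : ℝ) := by
    rw [Int.cast_ite, Int.cast_one, Int.cast_zero, ← ind_eq_ite]
    refine ind_congr ?_
    simp only [eq_empty_iff_forall_notMem, mem_inter]
    exact ⟨fun h u hu => h u hu.1 hu.2.1 hu.2.2, fun h u a b c => h u ⟨a, b, c⟩⟩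
  rw [h3, ← h1, h2, sum_filter]
  push_cast
  refine sum_congr rfl fun I _ => ?_
  rw [← ind_and, ind_eq_ite, mul_ite, mul_one, mul_zero]

lemma LI_empty (g : Matrix ι κ F2 → ℝ) : LI ∅ g = g := by
  simp only [LI, empty_subset, ind_pos trivial, mult_one']

lemma hat_LI (I : Finset ((ι → F2) ⊕ (κ → F2))) (g : Matrix ι κ F2 → ℝ) (A : Matrix ι κ F2) :
    hat (LI I g) A = ind (I ⊆ nb A) * hat g A := hat_mult _ _ _

lemma hat_sq_le {r : ℕ} {g : Matrix ι κ F2 → ℝ} (hg : ∀ A, r < A.rank → hat g A = 0)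
    (Z : Matrix ι κ F2) : hat (fun M => g M * g M) Z ^ 2 ≤
      2 * (ind (Z.rank ≤ 2 * r) * (∑ A, hat g A * hat g (A + Z) *
        ind (∀ u ∈ nb Z, u ∈ nb A → u ∈ nb (A + Z) → False)) ^ 2)
      + 2 * 2 ^ (2 * 2 ^ (2 * r)) * ∑ I ∈ univ.filter fun I : Finset ((ι → F2) ⊕ (κ → F2)) =>
        I.Nonempty ∧ I.card ≤ 2 * 2 ^ (2 * r), hat (fun M => LI I g M * LI I g M) Z ^ 2 := by
  by_cases hZ : Z.rank ≤ 2 * r
  swap
  · have : hat (fun M => g M * g M) Z = 0 := by
      rw [hat_mul]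
      refine sum_eq_zero fun A _ => ?_
      have h1 := rank_add_le' A (A + Z)
      rw [← add_assoc, mat_add_self, zero_add] at h1
      by_cases hA : r < A.rank
      · rw [hg A hA, zero_mul]
      · rw [hg (A + Z) (by omega), mul_zero]
    rw [this, ind_neg hZ, zero_pow two_ne_zero, zero_mul]
    positivity
  have h1 : ∑ A, hat g A * hat g (A + Z) * ind (∀ u ∈ nb Z, u ∈ nb A → u ∈ nb (A + Z) → False)
      = hat (fun M => g M * g M) Z + ∑ I ∈ (nb Z).powerset.erase ∅,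
        (-1) ^ I.card * hat (fun M => LI I g M * LI I g M) Z := by
    have h2 := add_sum_erase (nb Z).powerset
      (fun I => (-1 : ℝ) ^ I.card * hat (fun M => LI I g M * LI I g M) Z) (empty_mem_powerset _)
    simp only [LI_empty, card_empty, pow_zero, one_mul] at h2
    rw [h2]
    simp only [incl_excl, mul_sum, hat_mul, hat_LI]
    rw [sum_comm]
    exact sum_congr rfl fun I _ => sum_congr rfl fun A _ => by ring
  have h2 := sq_sum_le_card_mul_sum_sq (s := (nb Z).powerset.erase ∅)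
    (f := fun I => (-1 : ℝ) ^ I.card * hat (fun M => LI I g M * LI I g M) Z)
  have h3 : (((nb Z).powerset.erase ∅).card : ℝ) ≤ 2 ^ (2 * 2 ^ (2 * r)) := by
    have := card_erase_le (s := (nb Z).powerset) (a := ∅)
    rw [card_powerset] at this
    exact_mod_cast this.trans (Nat.pow_le_pow_right (by norm_num) (card_nb hZ))
  have h4 : ∑ I ∈ (nb Z).powerset.erase ∅,
      ((-1 : ℝ) ^ I.card * hat (fun M => LI I g M * LI I g M) Z) ^ 2
      ≤ ∑ I ∈ univ.filter fun I : Finset ((ι → F2) ⊕ (κ → F2)) =>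
        I.Nonempty ∧ I.card ≤ 2 * 2 ^ (2 * r), hat (fun M => LI I g M * LI I g M) Z ^ 2 := by
    have h5 : ∀ n : ℕ, ((-1 : ℝ) ^ n) ^ 2 = 1 := fun n => by
      rw [← pow_mul, mul_comm, pow_mul, neg_one_sq, one_pow]
    simp only [mul_pow, h5, one_mul]
    refine sum_le_sum_of_subset_of_nonneg (fun I hI => ?_) fun _ _ _ => sq_nonneg _
    rw [mem_erase, mem_powerset] at hI
    exact mem_filter.2 ⟨mem_univ _, nonempty_iff_ne_empty.2 hI.1,
      (card_le_card hI.2).trans (card_nb hZ)⟩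
  have h5 := h2.trans (mul_le_mul h3 h4 (sum_nonneg fun _ _ => sq_nonneg _) (by positivity))
  rw [ind_pos hZ, one_mul, h1]
  generalize (∑ I ∈ (nb Z).powerset.erase ∅,
    (-1 : ℝ) ^ I.card * hat (fun M => LI I g M * LI I g M) Z) = t at h5 ⊢
  nlinarith [sq_nonneg (hat (fun M => g M * g M) Z + 2 * t)]

lemma sum_LI {r k : ℕ} {g : Matrix ι κ F2 → ℝ} (hg : ∀ A, r < A.rank → hat g A = 0) (hk : r ≤ k)
    (J : Finset (Finset ((ι → F2) ⊕ (κ → F2)))) :
    ∑ I ∈ J, 𝔼 M, LI I g M ^ 2 ≤ 2 ^ (2 * 2 ^ k) * 𝔼 M, g M ^ 2 := by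
  simp only [parseval, hat_LI, mul_pow]
  rw [sum_comm, mul_sum]
  refine sum_le_sum fun A _ => ?_
  by_cases hA : r < A.rank
  · simp [hg A hA]
  rw [← sum_mul]
  refine mul_le_mul_of_nonneg_right ?_ (sq_nonneg _)
  have h1 : ∑ I ∈ J, ind (I ⊆ nb A) ^ 2 = ((J.filter fun I => I ⊆ nb A).card : ℝ) := by
    simp [ind_eq_ite]
  have h2 : (J.filter fun I => I ⊆ nb A).card ≤ (nb A).powerset.card :=
    card_le_card fun I hI => mem_powerset.2 (mem_filter.1 hI).2
  rw [card_powerset] at h2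
  rw [h1]
  exact_mod_cast h2.trans (Nat.pow_le_pow_right (by norm_num) (card_nb (by omega)))

end aux

lemma LI_glob (r : ℕ) : ∃ C : ℝ, 1 ≤ C ∧ ∀ (ι κ : Type) [Fintype ι] [Fintype κ]
    [DecidableEq ι] [DecidableEq κ] (γ : ℝ) (s : ℕ) (g : Matrix ι κ F2 → ℝ),
      (∀ A, r < A.rank → hat g A = 0) → Glob γ s g →
      ∀ I : Finset ((ι → F2) ⊕ (κ → F2)), Glob (C ^ I.card * γ) s (LI I g) := by
  obtain ⟨C, hC, hl⟩ := exists_lam (r + 1)
  have key : ∀ (ι κ : Type) [Fintype ι] [Fintype κ] [DecidableEq ι] [DecidableEq κ] (γ : ℝ) (s : ℕ)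
      (g : Matrix ι κ F2 → ℝ) (v : ι → F2), (∀ A, r < A.rank → hat g A = 0) → Glob γ s g →
      Glob (C * γ) s (mult (fun A => ind (v ≠ 0 ∧ ∃ x, A *ᵥ x = v)) g) := by
    intro ι κ _ _ _ _ γ s g v hg h
    by_cases hv : v = 0
    · have : mult (fun A : Matrix ι κ F2 => ind (v ≠ 0 ∧ ∃ x, A *ᵥ x = v)) g = fun _ => 0 := by
        funext M
        simp [mult, ind, hv]
      rw [this]
      exact (glob_zero s).mono (mul_nonneg (by linarith) h.nonneg)
    · obtain ⟨m, h1, h2, h3⟩ := hl ι κ v hv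
      rw [mult_congr (m' := m) fun S hS => ?_]
      · exact h3 γ s g h
      · by_cases h4 : ∃ x, S *ᵥ x = v
        · rw [h1 S h4, ind_pos ⟨hv, h4⟩]
        · rw [h2 S h4 (Nat.lt_succ_of_le (not_lt.1 fun h => hS (hg S h))), ind_neg fun h => h4 h.2]
  refine ⟨C, hC, fun ι κ _ _ _ _ γ s g hg h I => ?_⟩
  induction I using Finset.induction_on with
  | empty => rwa [LI_empty, card_empty, pow_zero, one_mul]
  | insert u I hu ih =>
    have h1 : LI (insert u I) g = mult (fun A => ind (u ∈ nb A)) (LI I g) := by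
      simp only [LI, mult_mult, insert_subset_iff, ind_and]
    have h2 : ∀ A, r < A.rank → hat (LI I g) A = 0 := fun A hA => by
      rw [hat_LI, hg A hA, mul_zero]
    rw [h1, card_insert_of_notMem hu, pow_succ', mul_assoc]
    cases u with
    | inl v =>
      simp only [inl_mem_nb]
      exact key ι κ _ s _ v h2 ih
    | inr w =>
      have h3 := (key κ ι _ s _ w (fun A hA => by
        rw [hat_tr, h2 _ (by rwa [rank_transpose])]) ih.tr).tr
      rw [tr_mult, tr_tr] at h3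
      simp only [inr_mem_nb]
      exact h3

theorem hyper (r : ℕ) : ∃ C : ℝ, 0 ≤ C ∧ ∀ (ι κ : Type) [Fintype ι] [Fintype κ]
    [DecidableEq ι] [DecidableEq κ] (γ : ℝ) (g : Matrix ι κ F2 → ℝ),
      (∀ S : Matrix ι κ F2, r ≤ S.rank → hat g S = 0) → Glob γ r g →
      𝔼 M, g M ^ 4 ≤ C * γ * 𝔼 M, g M ^ 2 := by
  induction r with
  | zero =>
    refine ⟨0, le_rfl, fun ι κ _ _ _ _ γ g hg _ => ?_⟩
    have : ∀ M, g M = 0 := fun M => by
      rw [← inversion g M]
      exact sum_eq_zero fun S _ => by rw [hg S (Nat.zero_le _), zero_mul]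
    simp [this]
  | succ r ih =>
    obtain ⟨C1, hC1, ih⟩ := ih
    obtain ⟨C, hC, hl⟩ := LI_glob r
    set K : ℕ := 2 * 2 ^ (2 * r) with hK
    set n1 : ℝ := (((2 ^ (2 * r)) ^ 2 ^ (2 * r) : ℕ) : ℝ) with hn1
    have hn : 0 ≤ n1 := Nat.cast_nonneg _
    have hC0 : 0 ≤ C := by linarith
    refine ⟨2 * n1 ^ 3 + 2 * 2 ^ K * (C1 * C ^ K * 2 ^ K), by positivity,
      fun ι κ _ _ _ _ γ g hg h => ?_⟩
    have hγ := h.nonneg
    have h4 : ∀ f : Matrix ι κ F2 → ℝ, 𝔼 M, f M ^ 4 = ∑ Z, hat (fun M => f M * f M) Z ^ 2 := by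
      intro f
      rw [← parseval]
      exact congrArg _ (funext fun M => by ring)
    have h1 : ∀ I ∈ univ.filter fun I : Finset ((ι → F2) ⊕ (κ → F2)) => I.Nonempty ∧ I.card ≤ K,
        ∑ Z, hat (fun M => LI I g M * LI I g M) Z ^ 2 ≤ C1 * C ^ K * γ * 𝔼 M, LI I g M ^ 2 := by
      intro I hI
      obtain ⟨⟨u, hu⟩, hc⟩ := (mem_filter.1 hI).2
      have hG := (hl ι κ γ _ g hg h I).mono
        (mul_le_mul_of_nonneg_right (pow_le_pow_right₀ hC hc) hγ)
      have hs : ∀ S, hat (LI I g) S ≠ 0 → u ∈ nb S ∧ S.rank ≤ r := by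
        intro S hS
        rw [hat_LI] at hS
        refine ⟨by_contra fun hn => hS ?_, not_lt.1 fun hn => hS ?_⟩
        · rw [ind_neg fun hI => hn (hI hu), zero_mul]
        · rw [hg S hn, mul_zero]
      rw [← h4, mul_assoc C1]
      by_cases h0 : ∀ S, hat (LI I g) S = 0
      · have : ∀ M, LI I g M = 0 := fun M => by
          rw [← inversion (LI I g) M]
          exact sum_eq_zero fun S _ => by rw [h0 S, zero_mul]
        simp [this]
      obtain ⟨S0, hS0⟩ := not_forall.1 h0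
      cases u with
      | inl v =>
        exact drop_col (ih ι κ _) (inl_mem_nb.1 (hs S0 hS0).1).1
          (fun S hS => ⟨(inl_mem_nb.1 (hs S hS).1).2, (hs S hS).2⟩) hG
      | inr w =>
        have := drop_col (ih κ ι _) (inr_mem_nb.1 (hs S0 hS0).1).1 (fun S hS => by
          rw [hat_tr] at hS
          have a1 := (inr_mem_nb.1 (hs _ hS).1).2
          have a2 := (hs _ hS).2
          rw [transpose_transpose] at a1
          rw [rank_transpose] at a2
          exact ⟨a1, a2⟩) hG.tr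
        rwa [← ex_tr fun M => LI I g M ^ 4, ← ex_tr fun M => LI I g M ^ 2]
    have h2 := simple_bound (hat g) hg
    have h3 := sum_LI hg (k := 2 * r) (by omega)
      (univ.filter fun I : Finset ((ι → F2) ⊕ (κ → F2)) => I.Nonempty ∧ I.card ≤ K)
    have h5 := (sum_le_sum h1).trans ((mul_sum _ _ _).symm.le.trans
      (mul_le_mul_of_nonneg_left h3 (by positivity)))
    rw [← parseval, ← hn1] at h2
    have h6 := h.norm
    have h7 : 0 ≤ 𝔼 M, g M ^ 2 := ex_nonneg fun _ => sq_nonneg _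
    rw [h4]
    refine (sum_le_sum fun Z _ => hat_sq_le hg Z).trans ?_
    rw [sum_add_distrib, ← mul_sum, ← mul_sum, sum_comm]
    have h8 : n1 ^ 3 * (𝔼 M, g M ^ 2) ^ 2 ≤ n1 ^ 3 * (γ * 𝔼 M, g M ^ 2) := by
      rw [sq]
      exact mul_le_mul_of_nonneg_left (mul_le_mul_of_nonneg_right h6 h7) (by positivity)
    have h9 := mul_le_mul_of_nonneg_left h5 (show (0 : ℝ) ≤ 2 * 2 ^ K by positivity)
    rw [← hK] at h9 ⊢
    nlinarith

section cols

variable {ι κ μ : Type} [Fintype ι] [Fintype κ] [Fintype μ] [DecidableEq ι] [DecidableEq κ]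
  [DecidableEq μ]

/-- Splitting the columns. -/
def colsEquiv : Matrix ι μ F2 × Matrix ι κ F2 ≃ Matrix ι (κ ⊕ μ) F2 :=
  ⟨fun p => fromCols p.2 p.1, fun M => (M.toCols₂, M.toCols₁), fun _ => rfl, fromCols_toCols⟩

lemma ex_cols (f : Matrix ι (κ ⊕ μ) F2 → ℝ) : 𝔼 M, f M = 𝔼 W, 𝔼 X, f (fromCols X W) := by
  rw [← ex_equiv colsEquiv f, ex_prod]
  rfl

lemma chi_cols (S X : Matrix ι κ F2) (T W : Matrix ι μ F2) :
    chi (fromCols S T) (fromCols X W) = chi S X * chi T W := by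
  rw [chi, chi, chi, ← sgn_add]
  refine congrArg sgn ?_
  change ∑ i, ∑ j, fromCols S T i j * fromCols X W i j
    = ∑ i, ∑ j, S i j * X i j + ∑ i, ∑ j, T i j * W i j
  simp only [Fintype.sum_sum_type, fromCols_apply_inl, fromCols_apply_inr, sum_add_distrib]

lemma hat_cols (g : Matrix ι (κ ⊕ μ) F2 → ℝ) (S : Matrix ι κ F2) (T : Matrix ι μ F2) :
    hat g (fromCols S T) = hat (fun W => hat (fun X => g (fromCols X W)) S) T := by
  simp only [hat, ← ex_mul']
  rw [ex_cols]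
  simp only [chi_cols, mul_assoc]

lemma young {a h g : ℝ} (ha : 0 < a) (h0 : 0 ≤ g) (h2 : g ≤ 2) :
    h * g ≤ a * g + 2 / a ^ 3 * h ^ 4 := by
  rcases le_total h a with hh | hh
  · have : 0 ≤ 2 / a ^ 3 * h ^ 4 := by positivity
    nlinarith
  · have h3 : a ^ 3 ≤ h ^ 3 := pow_le_pow_left₀ ha.le hh 3
    have h4 : 2 * h ≤ 2 / a ^ 3 * h ^ 4 := by
      rw [div_mul_eq_mul_div, le_div_iff₀ (by positivity)]
      nlinarith
    nlinarith [mul_nonneg ha.le h0]

end cols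

theorem level_ineq (r : ℕ) {η : ℝ} (hη : 0 < η) : ∃ γ : ℝ, 0 < γ ∧ ∀ (ι κ μ : Type) [Fintype ι]
    [Fintype κ] [Fintype μ] [DecidableEq ι] [DecidableEq κ] [DecidableEq μ]
    (g : Matrix ι (κ ⊕ μ) F2 → ℝ), (∀ M, 0 ≤ g M) → (∀ M, g M ≤ 2) →
      (∀ (P : Matrix ι ι F2) (T : Matrix κ κ F2) (M0 : Matrix ι (κ ⊕ μ) F2), P * P = P →
        T * T = T → P.rank ≤ r → T.rank ≤ r →
        𝔼 M : Matrix ι (κ ⊕ μ) F2, g (M0 + (1 + P) * M * fromBlocks (1 + T) 0 0 0) ≤ γ) →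
      ∑ S : Matrix ι (κ ⊕ μ) F2, ind (S.toCols₁.rank < r) * hat g S ^ 2 ≤ η * 𝔼 M, g M := by
  obtain ⟨C, hC, hy⟩ := hyper r
  obtain ⟨C1, hC1, hl⟩ := low_glob r r
  have ha : 0 < η / 2 := by linarith
  have hK : 0 < C * C1 + 1 := by positivity
  refine ⟨(η / 2) ^ 3 / (8 * (C * C1 + 1)), by positivity, fun ι κ μ _ _ _ _ _ _ g g0 g2 hz => ?_⟩
  have key : ∀ W : Matrix ι μ F2, ∑ S : Matrix ι κ F2, ind (S.rank < r) *
      hat (fun X => g (fromCols X W)) S ^ 2 ≤ η * 𝔼 X, g (fromCols X W) := by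
    intro W
    have h1 : Glob (2 * ((η / 2) ^ 3 / (8 * (C * C1 + 1)))) r fun X => g (fromCols X W) := by
      refine glob_of_zoom fun P T M0 hP hT rP rT => ?_
      have h2 : 𝔼 M : Matrix ι (κ ⊕ μ) F2, g (fromCols M0 W + (1 + P) * M *
          fromBlocks (1 + T) 0 0 (0 : Matrix μ μ F2)) ≤ _ := hz P T (fromCols M0 W) hP hT rP rT
      have h3 : ∀ (X : Matrix ι κ F2) (Y : Matrix ι μ F2), fromCols M0 W + (1 + P) * fromCols X Y *
          fromBlocks (1 + T) 0 0 (0 : Matrix μ μ F2)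
          = fromCols (M0 + (1 + P) * X * (1 + T)) W := by
        intro X Y
        rw [mul_fromCols, fromCols_mul_fromBlocks]
        ext i (j | j) <;> simp
      rw [ex_cols] at h2
      simp only [h3, Fintype.expect_const] at h2
      refine le_trans (ex_mono fun M => ?_) ((ex_mul 2 _).le.trans (by linarith))
      nlinarith [g0 (fromCols (M0 + (1 + P) * M * (1 + T)) W),
        g2 (fromCols (M0 + (1 + P) * M * (1 + T)) W)]
    have h2 := hy ι κ _ _ (fun S hS => by rw [hat_mult, ind_neg (not_lt.2 hS), zero_mul])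
      (hl ι κ _ _ h1)
    generalize hf : (fun X => g (fromCols X W)) = f at h2 ⊢
    have f0 : ∀ X, 0 ≤ f X := fun X => hf ▸ g0 _
    have f2 : ∀ X, f X ≤ 2 := fun X => hf ▸ g2 _
    have h3 : 𝔼 M, mult (fun S => ind (S.rank < r)) f M ^ 2
        = ∑ S : Matrix ι κ F2, ind (S.rank < r) * hat f S ^ 2 := by
      rw [parseval]
      refine sum_congr rfl fun S _ => ?_
      rw [hat_mult]
      by_cases h : S.rank < r <;> simp [ind, h]
    have h4 : 𝔼 M, mult (fun S => ind (S.rank < r)) f M * f M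
        = ∑ S : Matrix ι κ F2, ind (S.rank < r) * hat f S ^ 2 := by
      rw [plancherel]
      exact sum_congr rfl fun S _ => by rw [hat_mult]; ring
    have h5 := ex_mono fun M => young (h := mult (fun S => ind (S.rank < r)) f M) ha (f0 M) (f2 M)
    rw [ex_add, ex_mul, ex_mul, h4] at h5
    rw [h3] at h2
    have h6 : 0 ≤ ∑ S : Matrix ι κ F2, ind (S.rank < r) * hat f S ^ 2 :=
      sum_nonneg fun _ _ => mul_nonneg (ind_nonneg _) (sq_nonneg _)
    generalize (∑ S : Matrix ι κ F2, ind (S.rank < r) * hat f S ^ 2) = x at h2 h5 h6 ⊢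
    have h7 := mul_le_mul_of_nonneg_left h2 (show 0 ≤ 2 / (η / 2) ^ 3 by positivity)
    have h8 : 2 / (η / 2) ^ 3 * (C * (C1 * (2 * ((η / 2) ^ 3 / (8 * (C * C1 + 1))))) * x)
        = C * C1 / (C * C1 + 1) * (x / 2) := by
      field_simp
      ring
    have h9 : C * C1 / (C * C1 + 1) * (x / 2) ≤ x / 2 :=
      mul_le_of_le_one_left (by linarith) ((div_le_one hK).2 (by linarith))
    linarith
  rw [ex_cols, ← ex_mul, ← Equiv.sum_comp colsEquiv, Fintype.sum_prod_type, sum_comm]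
  refine le_trans (le_of_eq ?_) (ex_mono key)
  rw [ex_sum]
  refine sum_congr rfl fun S _ => ?_
  rw [ex_mul, parseval, mul_sum]
  refine sum_congr rfl fun T _ => ?_
  rw [← hat_cols]
  rfl

end Vale.Agent.P325
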