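import Vale.Agent.P325.GHa

/-! Linear algebra for global hypercontractivity: shared vectors and simple pairs. -/

namespace Vale.Agent.P325

open Finset Matrix
open scoped BigOperators

set_option linter.unusedSectionVars false

variable {ι κ : Type} [Fintype ι] [Fintype κ] [DecidableEq ι] [DecidableEq κ]

lemma rank_add_le' (A B : Matrix ι κ F2) : (A + B).rank ≤ A.rank + B.rank := by
  unfold Matrix.rank
  refine le_trans (Submodule.finrank_mono ?_)
    (Submodule.finrank_add_le_finrank_add_finrank _ _)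
  rintro _ ⟨x, rfl⟩
  rw [mulVecLin_apply, add_mulVec]
  exact Submodule.add_mem_sup ⟨x, rfl⟩ ⟨x, rfl⟩

open Classical in
/-- The column space as a finite set. -/
noncomputable def colS (A : Matrix ι κ F2) : Finset (ι → F2) := univ.filter fun v => ∃ x, A *ᵥ x = v

lemma mem_colS {A : Matrix ι κ F2} {v : ι → F2} : v ∈ colS A ↔ ∃ x, A *ᵥ x = v := by
  simp [colS]

lemma card_colS (A : Matrix ι κ F2) : (colS A).card = 2 ^ A.rank := by
  classical
  have := Module.card_eq_pow_finrank (K := F2) (V := LinearMap.range A.mulVecLin)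
  rw [ZMod.card] at this
  rw [Matrix.rank, ← this, ← Fintype.card_coe]
  exact Fintype.card_congr (Equiv.subtypeEquivRight fun x => by simp [mem_colS])

/-- Nonzero column vectors and nonzero row vectors. -/
noncomputable def nb (A : Matrix ι κ F2) : Finset ((ι → F2) ⊕ (κ → F2)) :=
  ((colS A).erase 0).disjSum ((colS Aᵀ).erase 0)

lemma inl_mem_nb {A : Matrix ι κ F2} {v : ι → F2} :
    Sum.inl v ∈ nb A ↔ v ≠ 0 ∧ ∃ x, A *ᵥ x = v := by
  rw [nb, inl_mem_disjSum, mem_erase, mem_colS]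

lemma inr_mem_nb {A : Matrix ι κ F2} {w : κ → F2} :
    Sum.inr w ∈ nb A ↔ w ≠ 0 ∧ ∃ y, Aᵀ *ᵥ y = w := by
  rw [nb, inr_mem_disjSum, mem_erase, mem_colS]

lemma card_nb {A : Matrix ι κ F2} {k : ℕ} (h : A.rank ≤ k) : (nb A).card ≤ 2 * 2 ^ k := by
  have h1 := card_erase_le (s := colS A) (a := 0)
  have h2 := card_erase_le (s := colS Aᵀ) (a := 0)
  rw [card_colS] at h1 h2
  rw [rank_transpose] at h2
  have h3 : 2 ^ A.rank ≤ 2 ^ k := Nat.pow_le_pow_right (by norm_num) h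
  rw [nb, card_disjSum]
  omega

/-- `X` is below `A`: smaller column space and larger kernel. -/
def Below (X A : Matrix ι κ F2) : Prop :=
  (∀ x, ∃ y, A *ᵥ y = X *ᵥ x) ∧ ∀ x, A *ᵥ x = 0 → X *ᵥ x = 0

lemma sum_below {Z : Matrix ι κ F2} {k : ℕ} (h : Z.rank ≤ k) :
    ∑ X, ind (Below X Z) ≤ ((2 ^ k) ^ 2 ^ k : ℕ) := by
  classical
  have h1 : ∑ X, ind (Below X Z) = ((univ.filter fun X => Below X Z).card : ℝ) := by
    simp [ind_eq_ite]
  rw [h1, Nat.cast_le]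
  have hp : ∀ v : colS Z, ∃ x, Z *ᵥ x = v := fun v => mem_colS.1 v.2
  choose p hp using hp
  have h2 : (univ.filter fun X => Below X Z).card
      ≤ (Fintype.piFinset fun _ : colS Z => colS Z).card := by
    refine card_le_card_of_injOn (fun X v => X *ᵥ p v) (fun X hX => ?_) fun X hX Y hY hXY => ?_
    · rw [mem_coe, mem_filter] at hX
      rw [mem_coe, Fintype.mem_piFinset]
      exact fun v => mem_colS.2 (hX.2.1 _)
    · rw [mem_coe, mem_filter] at hX hY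
      refine Matrix.ext_iff_mulVec.2 fun x => ?_
      have h3 : Z *ᵥ (x + p ⟨Z *ᵥ x, mem_colS.2 ⟨x, rfl⟩⟩) = 0 := by
        rw [mulVec_add, hp, vec_add_self]
      have h4 := hX.2.2 _ h3
      have h5 := hY.2.2 _ h3
      rw [mulVec_add, add_eq_zero_iff] at h4 h5
      rw [h4, h5]
      exact congrFun hXY _
  rw [Fintype.card_piFinset, prod_const, card_univ, Fintype.card_coe, card_colS] at h2
  have h3 : 2 ^ Z.rank ≤ 2 ^ k := Nat.pow_le_pow_right (by norm_num) h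
  exact h2.trans ((Nat.pow_le_pow_left h3 _).trans (Nat.pow_le_pow_right (by positivity) h3))

lemma ker_span {A B Z : Matrix ι κ F2}
    (h : ∀ w, Sum.inr w ∈ nb Z → Sum.inr w ∈ nb A → Sum.inr w ∈ nb B → False) (x : κ → F2) :
    ∃ a b z, A *ᵥ a = 0 ∧ B *ᵥ b = 0 ∧ Z *ᵥ z = 0 ∧ a + b + z = x := by
  have h1 : LinearMap.ker A.mulVecLin ⊔ LinearMap.ker B.mulVecLin ⊔ LinearMap.ker Z.mulVecLin
      = ⊤ := by
    by_contra hc
    obtain ⟨f, hf, hk⟩ := Submodule.exists_le_ker_of_lt_top _ (lt_top_iff_ne_top.2 hc)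
    have h2 : ∀ x, (fun i => f (Pi.single i 1)) ⬝ᵥ x = f x := by
      intro x
      rw [LinearMap.pi_apply_eq_sum_univ f x, dotProduct]
      refine sum_congr rfl fun i _ => ?_
      rw [smul_eq_mul, mul_comm]
      exact congrArg _ (congrArg _ (funext fun j => by simp [Pi.single_apply, eq_comm]))
    have h3 : (fun i => f (Pi.single i 1)) ≠ 0 := fun h0 => hf (LinearMap.ext fun x => by
      rw [← h2, h0, zero_dotProduct, LinearMap.zero_apply])
    refine h _ (inr_mem_nb.2 ⟨h3, mem_row fun x hx => ?_⟩) (inr_mem_nb.2 ⟨h3, mem_row fun x hx => ?_⟩)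
      (inr_mem_nb.2 ⟨h3, mem_row fun x hx => ?_⟩) <;> rw [h2]
    · exact hk (Submodule.mem_sup_right hx)
    · exact hk (Submodule.mem_sup_left (Submodule.mem_sup_left hx))
    · exact hk (Submodule.mem_sup_left (Submodule.mem_sup_right hx))
  have h2 : x ∈ LinearMap.ker A.mulVecLin ⊔ LinearMap.ker B.mulVecLin
      ⊔ LinearMap.ker Z.mulVecLin := h1 ▸ Submodule.mem_top
  obtain ⟨y, hy, z, hz, rfl⟩ := Submodule.mem_sup.1 h2
  obtain ⟨a, ha, b, hb, rfl⟩ := Submodule.mem_sup.1 hy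
  exact ⟨a, b, z, ha, hb, hz, rfl⟩

/-- Pairs sharing no vector factor through a matrix below `Z`. -/
lemma simple_pair {A Z : Matrix ι κ F2} (h : ∀ u ∈ nb Z, u ∈ nb A → u ∈ nb (A + Z) → False) :
    ∃ X, Below X Z ∧ Below X A ∧ Below (X + Z) (A + Z) := by
  have wd : ∀ a b z, A *ᵥ a = 0 → (A + Z) *ᵥ b = 0 → Z *ᵥ z = 0 → a + b + z = 0 → A *ᵥ b = 0 := by
    intro a b z ha hb hz hs
    by_contra hc
    have h1 : A *ᵥ (a + b + z) = 0 := by rw [hs, mulVec_zero]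
    rw [mulVec_add, mulVec_add, ha, zero_add, add_eq_zero_iff] at h1
    rw [add_mulVec, add_eq_zero_iff] at hb
    refine h (Sum.inl (A *ᵥ b)) (inl_mem_nb.2 ⟨hc, b, hb.symm⟩) (inl_mem_nb.2 ⟨hc, b, rfl⟩)
      (inl_mem_nb.2 ⟨hc, z, ?_⟩)
    rw [add_mulVec, hz, add_zero, h1]
  choose a b z ha hb hz hs using fun j : κ => ker_span (fun w => h (Sum.inr w)) (Pi.single j 1)
  have mz : ∀ (S : Matrix ι κ F2) (c : κ → κ → F2), (∀ j, S *ᵥ c j = 0) →
      ∀ x, S *ᵥ ((Matrix.of c)ᵀ *ᵥ x) = 0 := by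
    intro S c hc x
    have : S * (Matrix.of c)ᵀ = 0 := by
      ext i j
      exact congrFun (hc j) i
    rw [mulVec_mulVec, this, zero_mulVec]
  have hA := mz A a ha
  have hB := mz (A + Z) b hb
  have hZ := mz Z z hz
  have hx : ∀ x, (Matrix.of a)ᵀ *ᵥ x + (Matrix.of b)ᵀ *ᵥ x + (Matrix.of z)ᵀ *ᵥ x = x := by
    intro x
    have : (Matrix.of a)ᵀ + (Matrix.of b)ᵀ + (Matrix.of z)ᵀ = 1 := by
      ext i j
      have := congrFun (hs j) i
      rw [Pi.single_apply] at this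
      rw [one_apply, ← this]
      rfl
    rw [← add_mulVec, ← add_mulVec, this, one_mulVec]
  generalize (Matrix.of a)ᵀ = Ma at hA hx
  generalize (Matrix.of b)ᵀ = Mb at hB hx
  generalize (Matrix.of z)ᵀ = Mz at hZ hx
  have hAZ : ∀ x, A *ᵥ (Mb *ᵥ x) = Z *ᵥ (Mb *ᵥ x) := fun x => by
    have := hB x
    rwa [add_mulVec, add_eq_zero_iff] at this
  refine ⟨A * Mb, ⟨fun x => ⟨Mb *ᵥ x, ?_⟩, fun x h0 => ?_⟩, ⟨fun x => ⟨Mb *ᵥ x, ?_⟩, fun x h0 => ?_⟩,
    fun x => ⟨Ma *ᵥ x, ?_⟩, fun x h0 => ?_⟩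
  · rw [← mulVec_mulVec, hAZ]
  · rw [← mulVec_mulVec]
    refine wd (Ma *ᵥ x) _ (Mz *ᵥ x + x) (hA x) (hB x) (by rw [mulVec_add, hZ, h0, add_zero]) ?_
    rw [← add_assoc, hx, vec_add_self]
  · rw [← mulVec_mulVec]
  · rw [← mulVec_mulVec]
    refine wd (x + Ma *ᵥ x) _ (Mz *ᵥ x) (by rw [mulVec_add, hA, h0, add_zero]) (hB x) (hZ x) ?_
    rw [add_assoc, add_assoc, ← add_assoc (Ma *ᵥ x), hx, vec_add_self]
  · have h1 : Z *ᵥ x = Z *ᵥ (Ma *ᵥ x) + Z *ᵥ (Mb *ᵥ x) := by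
      conv_lhs => rw [← hx x, mulVec_add, mulVec_add, hZ, add_zero]
    rw [add_mulVec, add_mulVec, hA, ← mulVec_mulVec, hAZ, h1, zero_add, add_comm (Z *ᵥ (Ma *ᵥ x)),
      ← add_assoc, vec_add_self, zero_add]
  · have h1 := wd (Ma *ᵥ x) (Mb *ᵥ x + x) (Mz *ᵥ x) (hA x)
      (by rw [mulVec_add, hB, h0, add_zero]) (hZ x) (by
        rw [← add_assoc, add_right_comm, hx, vec_add_self])
    rw [mulVec_add, add_eq_zero_iff] at h1
    rw [add_mulVec, ← mulVec_mulVec, h1, ← add_mulVec, h0]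

/-- The contribution of the simple pairs. -/
lemma simple_bound {r : ℕ} (c : Matrix ι κ F2 → ℝ) (hc : ∀ A, r < A.rank → c A = 0) :
    ∑ Z : Matrix ι κ F2, ind (Z.rank ≤ 2 * r) * (∑ A, c A * c (A + Z) *
      ind (∀ u ∈ nb Z, u ∈ nb A → u ∈ nb (A + Z) → False)) ^ 2
      ≤ (((2 ^ (2 * r)) ^ 2 ^ (2 * r) : ℕ) : ℝ) ^ 3 * (∑ A, c A ^ 2) ^ 2 := by
  set n1 : ℝ := (((2 ^ (2 * r)) ^ 2 ^ (2 * r) : ℕ) : ℝ) with hn1
  have hn : 0 ≤ n1 := Nat.cast_nonneg _
  set n : Matrix ι κ F2 → ℝ := fun X => ∑ A, (|c A| * ind (Below X A)) ^ 2 with hn'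
  have n0 : ∀ X, 0 ≤ n X := fun X => sum_nonneg fun _ _ => sq_nonneg _
  have h1 : ∑ X, n X ≤ n1 * ∑ A, c A ^ 2 := by
    rw [hn', sum_comm, mul_sum]
    refine sum_le_sum fun A _ => ?_
    by_cases hA : r < A.rank
    · simp [hc A hA]
    · simp only [mul_pow, sq_abs, ← mul_sum]
      rw [mul_comm]
      refine mul_le_mul_of_nonneg_right (le_trans (sum_le_sum fun X _ => ?_)
        (sum_below (k := 2 * r) (Z := A) (by omega))) (sq_nonneg _)
      exact pow_le_of_le_one (ind_nonneg _) (ind_le_one _) two_ne_zero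
  have h2 : ∀ Z : Matrix ι κ F2, ind (Z.rank ≤ 2 * r) * (∑ A, c A * c (A + Z) *
      ind (∀ u ∈ nb Z, u ∈ nb A → u ∈ nb (A + Z) → False)) ^ 2
      ≤ n1 * ∑ X, n X * n (X + Z) := by
    intro Z
    by_cases hZ : Z.rank ≤ 2 * r
    swap
    · rw [ind_neg hZ, zero_mul]
      exact mul_nonneg hn (sum_nonneg fun X _ => mul_nonneg (n0 _) (n0 _))
    rw [ind_pos hZ, one_mul, ← sq_abs]
    have h3 : |∑ A, c A * c (A + Z) * ind (∀ u ∈ nb Z, u ∈ nb A → u ∈ nb (A + Z) → False)|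
        ≤ ∑ X, ind (Below X Z) * ∑ A, (|c A| * ind (Below X A)) *
          (|c (A + Z)| * ind (Below (X + Z) (A + Z))) := by
      refine (abs_sum_le_sum_abs _ _).trans ?_
      simp only [mul_sum]
      rw [sum_comm]
      refine sum_le_sum fun A _ => ?_
      have h0 : ∀ X, 0 ≤ ind (Below X Z) * ((|c A| * ind (Below X A)) *
          (|c (A + Z)| * ind (Below (X + Z) (A + Z)))) := fun X =>
        mul_nonneg (ind_nonneg _) (mul_nonneg (mul_nonneg (abs_nonneg _) (ind_nonneg _))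
          (mul_nonneg (abs_nonneg _) (ind_nonneg _)))
      by_cases hs : ∀ u ∈ nb Z, u ∈ nb A → u ∈ nb (A + Z) → False
      · obtain ⟨X, a1, a2, a3⟩ := simple_pair hs
        refine le_trans (le_of_eq ?_) (single_le_sum (fun X _ => h0 X) (mem_univ X))
        rw [ind_pos hs, ind_pos a1, ind_pos a2, ind_pos a3, mul_one, abs_mul]
        ring
      · rw [ind_neg hs, mul_zero, abs_zero]
        exact sum_nonneg fun X _ => h0 X
    refine (pow_le_pow_left₀ (abs_nonneg _) h3 2).trans ((sum_mul_sq_le_sq_mul_sq _ _ _).trans ?_)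
    refine mul_le_mul (le_trans (sum_le_sum fun X _ => ?_) (sum_below hZ))
      (sum_le_sum fun X _ => ?_) (sum_nonneg fun _ _ => sq_nonneg _) hn
    · exact pow_le_of_le_one (ind_nonneg _) (ind_le_one _) two_ne_zero
    · refine (sum_mul_sq_le_sq_mul_sq _ _ _).trans (le_of_eq ?_)
      rw [hn']
      exact congrArg _ (Equiv.sum_comp (Equiv.addRight Z)
        fun A => (|c A| * ind (Below (X + Z) A)) ^ 2)
  refine (sum_le_sum fun Z _ => h2 Z).trans ?_
  have h4 : ∑ Z, ∑ X, n X * n (X + Z) = (∑ X, n X) ^ 2 := by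
    rw [sum_comm, sq, sum_mul]
    refine sum_congr rfl fun X _ => ?_
    rw [← mul_sum]
    exact congrArg _ (Equiv.sum_comp (Equiv.addLeft X) n)
  rw [← mul_sum, h4]
  have h5 := pow_le_pow_left₀ (sum_nonneg fun X _ => n0 X) h1 2
  calc n1 * (∑ X, n X) ^ 2 ≤ n1 * (n1 * ∑ A, c A ^ 2) ^ 2 := mul_le_mul_of_nonneg_left h5 hn
    _ = _ := by ring

end Vale.Agent.P325
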