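import Vale.Agent.P325.Four

/-! Global functions on matrix spaces: restrictions and Fourier multipliers. -/

namespace Vale.Agent.P325

open Finset Matrix
open scoped BigOperators

set_option linter.unusedSectionVars false

variable {ι κ : Type} [Fintype ι] [Fintype κ] [DecidableEq ι] [DecidableEq κ]

/-- Restriction to a coset of `{N | v ᵥ* N = 0}` (when `ξ ⬝ᵥ v = 1`). -/
def res (v ξ : ι → F2) (M0 : Matrix ι κ F2) (f : Matrix ι κ F2 → ℝ) (M : Matrix ι κ F2) : ℝ :=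
  f (M0 + (1 + vecMulVec ξ v) * M)

/-- Transposed function. -/
def tr (f : Matrix ι κ F2 → ℝ) (M : Matrix κ ι F2) : ℝ := f Mᵀ

/-- All restrictions by at most `s` vectors have mean square at most `γ`. -/
def Glob (γ : ℝ) : ℕ → ∀ {ι κ : Type} [Fintype ι] [Fintype κ] [DecidableEq ι] [DecidableEq κ],
    (Matrix ι κ F2 → ℝ) → Prop
  | 0, _, _, _, _, _, _, f => 𝔼 M, f M ^ 2 ≤ γ
  | s + 1, _, _, _, _, _, _, f => 𝔼 M, f M ^ 2 ≤ γ ∧
      (∀ v ξ M0, ξ ⬝ᵥ v = 1 → Glob γ s (res v ξ M0 f)) ∧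
      ∀ v ξ M0, ξ ⬝ᵥ v = 1 → Glob γ s (res v ξ M0 (tr f))

/-- Fourier multiplier. -/
noncomputable def mult (m : Matrix ι κ F2 → ℝ) (f : Matrix ι κ F2 → ℝ) (M : Matrix ι κ F2) : ℝ :=
  ∑ S, m S * hat f S * chi S M

theorem hat_mult (m f : Matrix ι κ F2 → ℝ) (S : Matrix ι κ F2) :
    hat (mult m f) S = m S * hat f S := hat_syn' _ _

/-- Transposition as an equivalence. -/
def trEquiv : Matrix ι κ F2 ≃ Matrix κ ι F2 :=
  ⟨transpose, transpose, transpose_transpose, transpose_transpose⟩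

lemma ex_tr (f : Matrix ι κ F2 → ℝ) : 𝔼 M : Matrix κ ι F2, f Mᵀ = 𝔼 M, f M :=
  ex_equiv trEquiv f

lemma tr_tr (f : Matrix ι κ F2 → ℝ) : tr (tr f) = f := by
  funext M; simp [tr]

theorem hat_tr (f : Matrix ι κ F2 → ℝ) (S : Matrix κ ι F2) : hat (tr f) S = hat f Sᵀ := by
  rw [hat, hat, ← ex_tr fun M => f M * chi Sᵀ M]
  simp only [tr, chi_transpose]

theorem tr_mult (m f : Matrix ι κ F2 → ℝ) : tr (mult m f) = mult (tr m) (tr f) := by
  funext M
  simp only [tr, mult]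
  rw [← (trEquiv (ι := κ) (κ := ι)).sum_comp]
  refine sum_congr rfl fun S _ => ?_
  rw [hat_tr, ← chi_transpose S M]
  rfl

theorem Glob.norm {γ : ℝ} {s : ℕ} {f : Matrix ι κ F2 → ℝ} (h : Glob γ s f) :
    𝔼 M, f M ^ 2 ≤ γ := by
  cases s with
  | zero => exact h
  | succ s => exact h.1

lemma Glob.nonneg {γ : ℝ} {s : ℕ} {f : Matrix ι κ F2 → ℝ} (h : Glob γ s f) : 0 ≤ γ :=
  (ex_nonneg fun _ => sq_nonneg _).trans h.norm

theorem Glob.tr {γ : ℝ} {s : ℕ} {f : Matrix ι κ F2 → ℝ} (h : Glob γ s f) : Glob γ s (tr f) := by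
  have hn : 𝔼 M, P325.tr f M ^ 2 ≤ γ := (ex_tr fun M => f M ^ 2).trans_le h.norm
  cases s with
  | zero => exact hn
  | succ s => exact ⟨hn, h.2.2, by rw [tr_tr]; exact h.2.1⟩

theorem res_eq (v ξ : ι → F2) (M0 : Matrix ι κ F2) (f : Matrix ι κ F2 → ℝ) :
    res v ξ M0 f = fun M => ∑ S, hat f S * chi S M0 * chi ((1 + vecMulVec v ξ) * S) M := by
  funext M
  rw [res, ← inversion f]
  refine sum_congr rfl fun S _ => ?_
  rw [chi_add, chi_mul_left, transpose_add, transpose_one, transpose_vecMulVec, mul_assoc]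

lemma vec_add_self (x : ι → F2) : x + x = 0 := Pairing.two x

lemma res_mulVec (v ξ : ι → F2) (S : Matrix ι κ F2) (x : κ → F2) :
    ((1 + vecMulVec v ξ) * S) *ᵥ x = S *ᵥ x + (ξ ⬝ᵥ S *ᵥ x) • v := by
  rw [← mulVec_mulVec, add_mulVec, one_mulVec, vecMulVec_mulVec]
  simp

lemma rank_add_ker (S : Matrix ι κ F2) :
    S.rank + Module.finrank F2 (LinearMap.ker S.mulVecLin) = Fintype.card κ := by
  rw [Matrix.rank, LinearMap.finrank_range_add_finrank_ker]
  simp

theorem rank_res_mem {v ξ : ι → F2} (h : ξ ⬝ᵥ v = 1) {S : Matrix ι κ F2} (hS : ∃ x, S *ᵥ x = v) :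
    ((1 + vecMulVec v ξ) * S).rank + 1 = S.rank := by
  obtain ⟨x0, hx0⟩ := hS
  have hv : v ≠ 0 := by rintro rfl; simp at h
  have hk : LinearMap.ker ((1 + vecMulVec v ξ) * S).mulVecLin
      = LinearMap.ker S.mulVecLin ⊔ Submodule.span F2 {x0} := by
    apply le_antisymm
    · intro x hx
      rw [LinearMap.mem_ker, mulVecLin_apply, res_mulVec, add_eq_zero_iff] at hx
      have : x = (x + (ξ ⬝ᵥ S *ᵥ x) • x0) + (ξ ⬝ᵥ S *ᵥ x) • x0 := by
        rw [add_assoc, vec_add_self, add_zero]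
      rw [this]
      refine Submodule.add_mem_sup ?_ (Submodule.smul_mem _ _ (Submodule.mem_span_singleton_self _))
      rw [LinearMap.mem_ker, mulVecLin_apply, mulVec_add, mulVec_smul, hx0, ← hx, vec_add_self]
    · refine sup_le (fun x hx => ?_) ((Submodule.span_singleton_le_iff_mem _ _).2 ?_)
      · rw [LinearMap.mem_ker, mulVecLin_apply] at hx
        rw [LinearMap.mem_ker, mulVecLin_apply, res_mulVec, hx]
        simp
      · rw [LinearMap.mem_ker, mulVecLin_apply, res_mulVec, hx0, h, one_smul, vec_add_self]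
  have h1 := rank_add_ker ((1 + vecMulVec v ξ) * S)
  have h2 := rank_add_ker S
  rw [hk, Submodule.finrank_sup_span_singleton (by
    rw [LinearMap.mem_ker, mulVecLin_apply, hx0]; exact hv)] at h1
  omega

theorem rank_res_not_mem {v ξ : ι → F2} (h : ξ ⬝ᵥ v = 1) {S : Matrix ι κ F2}
    (hS : ¬ ∃ x, S *ᵥ x = v) : ((1 + vecMulVec v ξ) * S).rank = S.rank := by
  have hk : LinearMap.ker ((1 + vecMulVec v ξ) * S).mulVecLin = LinearMap.ker S.mulVecLin := by
    ext x
    rw [LinearMap.mem_ker, LinearMap.mem_ker, mulVecLin_apply, mulVecLin_apply, res_mulVec]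
    constructor
    · intro hx
      rw [add_eq_zero_iff] at hx
      rcases F2.cases (ξ ⬝ᵥ S *ᵥ x) with h0 | h0
      · rw [hx, h0, zero_smul]
      · rw [h0, one_smul] at hx
        exact absurd ⟨x, hx⟩ hS
    · intro hx
      rw [hx]; simp
  have h1 := rank_add_ker ((1 + vecMulVec v ξ) * S)
  have h2 := rank_add_ker S
  have _ := h
  rw [hk] at h1
  omega

lemma chi_mulVec (S : Matrix ι κ F2) (y : ι → F2) (x : κ → F2) :
    chi y (S *ᵥ x) = chi (Sᵀ *ᵥ y) x := by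
  rw [chi, chi, B_vec, B_vec, dotProduct_mulVec, mulVec_transpose]

lemma ex_chi_ker (S : Matrix ι κ F2) (w : κ → F2) :
    𝔼 x, chi w x * ind (S *ᵥ x = 0) = 𝔼 y, ind (Sᵀ *ᵥ y = w) := by
  simp only [← ex_chi', ← ex_mul]
  rw [ex_comm]
  refine congrArg _ (funext fun y => ?_)
  simp only [chi_mulVec]
  rw [ex_chi_mul]
  exact ind_congr eq_comm

/-- A vector orthogonal to the kernel is in the row space. -/
theorem mem_row {S : Matrix ι κ F2} {w : κ → F2} (h : ∀ x, S *ᵥ x = 0 → w ⬝ᵥ x = 0) :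
    ∃ y, Sᵀ *ᵥ y = w := by
  by_contra hc
  have h1 := ex_chi_ker S w
  have h2 : 𝔼 y, ind (Sᵀ *ᵥ y = w) = 0 := by
    simp only [fun y => ind_neg (fun hy : Sᵀ *ᵥ y = w => hc ⟨y, hy⟩)]
    simp
  have h3 : ∀ x, chi w x * ind (S *ᵥ x = 0) = ind (S *ᵥ x = 0) := by
    intro x
    by_cases hx : S *ᵥ x = 0
    · rw [chi, B_vec, h x hx, sgn_zero, one_mul]
    · rw [ind_neg hx, mul_zero]
  simp only [h3, h2] at h1
  rw [ex_eq, div_eq_zero_iff] at h1
  rcases h1 with h1 | h1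
  · have := single_le_sum (f := fun x => ind (S *ᵥ x = 0)) (fun _ _ => ind_nonneg _)
      (mem_univ (0 : κ → F2))
    simp only [mulVec_zero] at this
    rw [ind_pos trivial] at this
    linarith
  · exact absurd h1 (Nat.cast_ne_zero.2 Fintype.card_ne_zero)

lemma Glob.mono {γ γ' : ℝ} (hγ : γ ≤ γ') {s : ℕ} {f : Matrix ι κ F2 → ℝ} (h : Glob γ s f) :
    Glob γ' s f := by
  induction s generalizing ι κ with
  | zero => exact le_trans h hγ
  | succ s ih =>
    exact ⟨h.1.trans hγ, fun v ξ M0 hv => ih (h.2.1 v ξ M0 hv), fun v ξ M0 hv => ih (h.2.2 v ξ M0 hv)⟩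

lemma Glob.pred {γ : ℝ} {s : ℕ} {f : Matrix ι κ F2 → ℝ} (h : Glob γ (s + 1) f) : Glob γ s f := by
  induction s generalizing ι κ with
  | zero => exact h.1
  | succ s ih =>
    exact ⟨h.1, fun v ξ M0 hv => ih (h.2.1 v ξ M0 hv), fun v ξ M0 hv => ih (h.2.2 v ξ M0 hv)⟩

lemma Glob.add {γ γ' : ℝ} {s : ℕ} {f g : Matrix ι κ F2 → ℝ} (h : Glob γ s f) (h' : Glob γ' s g) :
    Glob (2 * γ + 2 * γ') s (fun M => f M + g M) := by
  have hn : ∀ {ι κ : Type} [Fintype ι] [Fintype κ] [DecidableEq ι] [DecidableEq κ]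
      {f g : Matrix ι κ F2 → ℝ}, 𝔼 M, f M ^ 2 ≤ γ → 𝔼 M, g M ^ 2 ≤ γ' →
      𝔼 M, (f M + g M) ^ 2 ≤ 2 * γ + 2 * γ' := by
    intro ι κ _ _ _ _ f g h h'
    have : 𝔼 M, (f M + g M) ^ 2 ≤ 𝔼 M, (2 * f M ^ 2 + 2 * g M ^ 2) :=
      ex_mono fun M => by nlinarith [sq_nonneg (f M - g M)]
    rw [ex_add, ex_mul, ex_mul] at this
    linarith
  induction s generalizing ι κ with
  | zero => exact hn h h'
  | succ s ih =>
    exact ⟨hn h.1 h'.1, fun v ξ M0 hv => ih (h.2.1 v ξ M0 hv) (h'.2.1 v ξ M0 hv),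
      fun v ξ M0 hv => ih (h.2.2 v ξ M0 hv) (h'.2.2 v ξ M0 hv)⟩

lemma Glob.smul {γ : ℝ} (c : ℝ) {s : ℕ} {f : Matrix ι κ F2 → ℝ} (h : Glob γ s f) :
    Glob (c ^ 2 * γ) s (fun M => c * f M) := by
  have hn : ∀ {ι κ : Type} [Fintype ι] [Fintype κ] [DecidableEq ι] [DecidableEq κ]
      {f : Matrix ι κ F2 → ℝ}, 𝔼 M, f M ^ 2 ≤ γ → 𝔼 M, (c * f M) ^ 2 ≤ c ^ 2 * γ := by
    intro ι κ _ _ _ _ f h
    simp only [mul_pow, ex_mul]
    exact mul_le_mul_of_nonneg_left h (sq_nonneg _)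
  induction s generalizing ι κ with
  | zero => exact hn h
  | succ s ih =>
    exact ⟨hn h.1, fun v ξ M0 hv => ih (h.2.1 v ξ M0 hv), fun v ξ M0 hv => ih (h.2.2 v ξ M0 hv)⟩

lemma glob_ex {α : Type} [Fintype α] [Nonempty α] {γ : ℝ} {s : ℕ} {f : α → Matrix ι κ F2 → ℝ}
    (h : ∀ a, Glob γ s (f a)) : Glob γ s (fun M => 𝔼 a, f a M) := by
  have hn : ∀ {ι κ : Type} [Fintype ι] [Fintype κ] [DecidableEq ι] [DecidableEq κ]
      {f : α → Matrix ι κ F2 → ℝ}, (∀ a, 𝔼 M, f a M ^ 2 ≤ γ) → 𝔼 M, (𝔼 a, f a M) ^ 2 ≤ γ := by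
    intro ι κ _ _ _ _ f h
    refine (ex_mono fun M => ex_sq_le fun a => f a M).trans ?_
    rw [ex_comm]
    exact ex_le h
  induction s generalizing ι κ with
  | zero => exact hn h
  | succ s ih =>
    exact ⟨hn fun a => (h a).1, fun v ξ M0 hv => ih fun a => (h a).2.1 v ξ M0 hv,
      fun v ξ M0 hv => ih fun a => (h a).2.2 v ξ M0 hv⟩

lemma Glob.shift {γ : ℝ} {s : ℕ} {f : Matrix ι κ F2 → ℝ} (h : Glob γ s f) (N : Matrix ι κ F2) :
    Glob γ s (fun M => f (M + N)) := by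
  have hn : 𝔼 M, f (M + N) ^ 2 ≤ γ := (ex_shift N fun M => f M ^ 2).trans_le h.norm
  cases s with
  | zero => exact hn
  | succ s =>
    refine ⟨hn, fun v ξ M0 hv => ?_, fun v ξ M0 hv => ?_⟩
    · have : res v ξ M0 (fun M => f (M + N)) = res v ξ (M0 + N) f := by
        funext M; simp only [res]; rw [add_right_comm]
      rw [this]; exact h.2.1 v ξ _ hv
    · have : res v ξ M0 (P325.tr fun M => f (M + N)) = res v ξ (M0 + Nᵀ) (P325.tr f) := by
        funext M; simp only [res, P325.tr]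
        rw [add_right_comm, transpose_add _ Nᵀ, transpose_transpose]
      rw [this]; exact h.2.2 v ξ _ hv

lemma mult_mult (m m' f : Matrix ι κ F2 → ℝ) :
    mult m (mult m' f) = mult (fun S => m S * m' S) f := by
  funext M
  simp only [mult.eq_1 m, hat_mult, mult.eq_1 (fun S => m S * m' S), mul_assoc]

lemma mult_one' (f : Matrix ι κ F2 → ℝ) : mult (fun _ => 1) f = f := by
  funext M
  simp only [mult, one_mul, inversion]

lemma mult_congr {m m' f : Matrix ι κ F2 → ℝ} (h : ∀ S, hat f S ≠ 0 → m S = m' S) :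
    mult m f = mult m' f := by
  funext M
  refine sum_congr rfl fun S _ => ?_
  by_cases h0 : hat f S = 0
  · rw [h0]; simp
  · rw [h S h0]

/-- The multiplier of the averaging operator. -/
noncomputable def avgM (v : ι → F2) (S : Matrix ι κ F2) : ℝ :=
  𝔼 ξ, (1 - chi v ξ) * ind (Sᵀ *ᵥ ξ = 0)

lemma avgM_glob (v : ι → F2) {γ : ℝ} {s : ℕ} {f : Matrix ι κ F2 → ℝ} (h : Glob γ s f) :
    Glob (4 * γ) s (mult (avgM v) f) := by
  have h1 : mult (avgM v) f = fun M => 𝔼 ξ : ι → F2, 𝔼 y : κ → F2,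
      (1 - chi v ξ) * f (M + vecMulVec ξ y) := by
    funext M
    have h2 : ∀ (ξ : ι → F2) (y : κ → F2), (1 - chi v ξ) * f (M + vecMulVec ξ y)
        = ∑ S, ((1 - chi v ξ) * (hat f S * chi S M)) * chi (Sᵀ *ᵥ ξ) y := by
      intro ξ y
      rw [← inversion f, mul_sum]
      refine sum_congr rfl fun S _ => ?_
      rw [chi_add, chi_vecMulVec, chi_mulVec]
      ring
    simp only [h2, ex_sum, ex_mul, ex_chi, mult, avgM]
    refine sum_congr rfl fun S _ => ?_
    rw [mul_assoc, ← ex_mul']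
    exact congrArg _ (funext fun ξ => by ring)
  rw [h1]
  refine glob_ex fun ξ => glob_ex fun y => ((h.shift _).smul _).mono ?_
  refine mul_le_mul_of_nonneg_right ?_ h.nonneg
  have h2 := abs_le.1 (abs_chi v ξ).le
  nlinarith [h2.1, h2.2]

lemma avgM_eq (v : ι → F2) (S : Matrix ι κ F2) :
    avgM v S = 𝔼 x, ind (S *ᵥ x = 0) - 𝔼 x, ind (S *ᵥ x = v) := by
  have h1 := ex_chi_ker Sᵀ 0
  have h2 := ex_chi_ker Sᵀ v
  rw [transpose_transpose] at h1 h2
  rw [← h1, ← h2, ← ex_sub, avgM]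
  exact congrArg _ (funext fun ξ => by rw [chi_zero']; ring)

lemma avgM_mem {v : ι → F2} {S : Matrix ι κ F2} (h : ∃ x, S *ᵥ x = v) : avgM v S = 0 := by
  obtain ⟨x0, hx0⟩ := h
  rw [avgM_eq, ← ex_shift x0 fun x => ind (S *ᵥ x = v)]
  simp only [mulVec_add, hx0, add_eq_right, sub_self]

lemma avgM_not_mem {v : ι → F2} {S : Matrix ι κ F2} (h : ¬ ∃ x, S *ᵥ x = v) :
    2 ^ S.rank * avgM v S = 1 := by
  classical
  have h2 : 𝔼 x, ind (S *ᵥ x = v) = 0 := by
    simp only [fun y => ind_neg (fun hy : S *ᵥ y = v => h ⟨y, hy⟩)]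
    simp
  have h3 : (univ.filter fun x => S *ᵥ x = 0).card
      = 2 ^ Module.finrank F2 (LinearMap.ker S.mulVecLin) := by
    rw [← Fintype.card_subtype]
    have := Module.card_eq_pow_finrank (K := F2) (V := LinearMap.ker S.mulVecLin)
    rw [ZMod.card] at this
    rw [← this]
    exact Fintype.card_congr (Equiv.subtypeEquivRight fun x => by simp)
  rw [avgM_eq, h2, sub_zero, ex_ind, h3, Fintype.card_fun, ZMod.card, ← rank_add_ker S]
  push_cast
  field_simp
  ring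

/-- On low rank, the projection to characters with `v` in the column space preserves globalness. -/
theorem exists_lam (r : ℕ) : ∃ C : ℝ, 1 ≤ C ∧ ∀ (ι κ : Type) [Fintype ι] [Fintype κ]
    [DecidableEq ι] [DecidableEq κ] (v : ι → F2), v ≠ 0 → ∃ m : Matrix ι κ F2 → ℝ,
      (∀ S, (∃ x, S *ᵥ x = v) → m S = 1) ∧ (∀ S, (¬ ∃ x, S *ᵥ x = v) → S.rank < r → m S = 0) ∧
      ∀ (γ : ℝ) (s : ℕ) (f : Matrix ι κ F2 → ℝ), Glob γ s f → Glob (C * γ) s (mult m f) := by
  induction r with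
  | zero =>
    refine ⟨1, le_rfl, fun ι κ _ _ _ _ v _ => ⟨fun _ => 1, fun _ _ => rfl,
      fun _ _ h => absurd h (Nat.not_lt_zero _), fun γ s f h => ?_⟩⟩
    rwa [mult_one', one_mul]
  | succ r ih =>
    obtain ⟨C, hC, ih⟩ := ih
    have h4 : (0 : ℝ) ≤ (-(2 : ℝ) ^ r) ^ 2 := sq_nonneg _
    refine ⟨(2 + 8 * (-(2 : ℝ) ^ r) ^ 2) * C, by nlinarith, fun ι κ _ _ _ _ v hv => ?_⟩
    obtain ⟨m, h1, h2, h3⟩ := ih ι κ v hv
    refine ⟨fun S => (1 - 2 ^ r * avgM v S) * m S, fun S hS => ?_, fun S hS hr => ?_,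
      fun γ s f h => ?_⟩
    · simp only [avgM_mem hS, h1 S hS]; ring
    · rcases Nat.lt_succ_iff_lt_or_eq.1 hr with hr | hr
      · simp only [h2 S hS hr, mul_zero]
      · simp only [← hr, avgM_not_mem hS, sub_self, zero_mul]
    · have h5 := (h3 γ s f h).add ((avgM_glob v (h3 γ s f h)).smul (-(2 : ℝ) ^ r))
      have h6 : mult (fun S => (1 - 2 ^ r * avgM v S) * m S) f
          = fun M => mult m f M + -(2 : ℝ) ^ r * mult (avgM v) (mult m f) M := by
        funext M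
        rw [mult_mult]
        simp only [mult, mul_sum, ← sum_add_distrib]
        exact sum_congr rfl fun S _ => by ring
      rw [h6]
      exact h5.mono (le_of_eq (by ring))

lemma mult_syn {α : Type} [Fintype α] (m : Matrix ι κ F2 → ℝ) (c : α → ℝ)
    (φ : α → Matrix ι κ F2) :
    mult m (fun M => ∑ a, c a * chi (φ a) M) = fun M => ∑ a, m (φ a) * c a * chi (φ a) M := by
  funext M
  simp only [mult, hat_syn, mul_sum, sum_mul]
  rw [sum_comm]
  refine sum_congr rfl fun a _ => ?_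
  rw [sum_eq_single (φ a) (fun S _ hS => by rw [ind_neg (Ne.symm hS)]; simp) (by simp),
    ind_pos rfl, mul_one]

lemma norm_mult_le {m f : Matrix ι κ F2 → ℝ} (hm : ∀ S, m S ^ 2 ≤ 1) :
    𝔼 M, mult m f M ^ 2 ≤ 𝔼 M, f M ^ 2 := by
  rw [parseval, parseval]
  refine sum_le_sum fun S _ => ?_
  rw [hat_mult, mul_pow]
  exact mul_le_of_le_one_left (sq_nonneg _) (hm S)

lemma ind_sq_le (p : Prop) : ind p ^ 2 ≤ 1 := pow_le_one₀ (ind_nonneg p) (ind_le_one p)

lemma tr_low (r : ℕ) (f : Matrix ι κ F2 → ℝ) :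
    tr (mult (fun S => ind (S.rank < r)) f) = mult (fun S => ind (S.rank < r)) (tr f) := by
  rw [tr_mult]
  refine mult_congr fun S _ => ?_
  simp only [tr, rank_transpose]

lemma glob_zero (s : ℕ) : Glob 0 s (fun _ : Matrix ι κ F2 => (0 : ℝ)) := by
  induction s generalizing ι κ with
  | zero => exact le_of_eq (by simp)
  | succ s ih => exact ⟨le_of_eq (by simp), fun _ _ _ _ => ih, fun _ _ _ _ => ih⟩

/-- The low rank part of a global function is global. -/
theorem low_glob (s r : ℕ) : ∃ C : ℝ, 0 ≤ C ∧ ∀ (ι κ : Type) [Fintype ι] [Fintype κ]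
    [DecidableEq ι] [DecidableEq κ] (γ : ℝ) (f : Matrix ι κ F2 → ℝ), Glob γ s f →
      Glob (C * γ) s (mult (fun S => ind (S.rank < r)) f) := by
  induction s generalizing r with
  | zero =>
    refine ⟨1, zero_le_one, fun ι κ _ _ _ _ γ f h => ?_⟩
    rw [one_mul]
    exact (norm_mult_le fun S => ind_sq_le _).trans h
  | succ s ih =>
    cases r with
    | zero =>
      refine ⟨0, le_rfl, fun ι κ _ _ _ _ γ f _ => ?_⟩
      have : mult (fun S : Matrix ι κ F2 => ind (S.rank < 0)) f = fun _ => 0 := by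
        funext M
        simp [mult, ind]
      rw [this, zero_mul]
      exact glob_zero _
    | succ r =>
      obtain ⟨C, hC, hl⟩ := exists_lam (r + 1)
      obtain ⟨C1, hC1, ih1⟩ := ih r
      obtain ⟨C2, hC2, ih2⟩ := ih (r + 1)
      have hK : 0 ≤ 2 * (C1 * C) + 2 * (C2 * (2 + 2 * C)) := by positivity
      have key : ∀ (ι κ : Type) [Fintype ι] [Fintype κ] [DecidableEq ι] [DecidableEq κ] (γ : ℝ)
          (f : Matrix ι κ F2 → ℝ), Glob γ (s + 1) f → ∀ v ξ M0, ξ ⬝ᵥ v = 1 →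
          Glob ((1 + (2 * (C1 * C) + 2 * (C2 * (2 + 2 * C)))) * γ) s
            (res v ξ M0 (mult (fun S => ind (S.rank < r + 1)) f)) := by
        intro ι κ _ _ _ _ γ f h v ξ M0 hv
        have hv0 : v ≠ 0 := by rintro rfl; simp at hv
        obtain ⟨m, h1, h2, h3⟩ := hl ι κ v hv0
        have hL := h3 γ _ f h
        have hD := h.add (hL.smul (-1))
        have h4 := (ih1 ι κ _ _ (hL.2.1 v ξ M0 hv)).add (ih2 ι κ _ _ (hD.2.1 v ξ M0 hv))
        have h5 : (fun M => f M + -1 * mult m f M) = mult (fun S => 1 - m S) f := by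
          funext M
          rw [← inversion f M]
          simp only [mult, mul_sum, ← sum_add_distrib]
          exact sum_congr rfl fun S _ => by ring
        have h6 : res v ξ M0 (mult (fun S => ind (S.rank < r + 1)) f)
            = fun M => mult (fun S => ind (S.rank < r)) (res v ξ M0 (mult m f)) M
              + mult (fun S => ind (S.rank < r + 1))
                (res v ξ M0 fun M => f M + -1 * mult m f M) M := by
          rw [h5, res_eq, res_eq, res_eq, mult_syn, mult_syn]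
          funext M
          rw [← sum_add_distrib]
          refine sum_congr rfl fun S _ => ?_
          simp only [hat_mult]
          by_cases hS : ∃ x, S *ᵥ x = v
          · rw [h1 S hS, ← rank_res_mem hv hS, ind_congr (Nat.add_lt_add_iff_right (k := 1))]
            ring
          · rw [rank_res_not_mem hv hS]
            by_cases hr : S.rank < r + 1
            · rw [h2 S hS hr]; ring
            · rw [ind_neg hr, ind_neg (fun h => hr (Nat.lt_succ_of_lt h))]; ring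
        rw [h6]
        refine h4.mono ?_
        have := h.nonneg
        nlinarith
      refine ⟨_, by positivity, fun ι κ _ _ _ _ γ f h => ⟨?_, key ι κ γ f h, ?_⟩⟩
      · refine ((norm_mult_le fun S => ind_sq_le _).trans h.1).trans ?_
        have := h.nonneg
        nlinarith
      · rw [tr_low]
        exact key κ ι γ _ h.tr

lemma exists_ginv (P : Matrix ι ι F2) : ∃ G : Matrix ι ι F2, P * G * P = P := by
  obtain ⟨g0, hg0⟩ := LinearMap.exists_rightInverse_of_surjective P.mulVecLin.rangeRestrict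
    (LinearMap.range_rangeRestrict _)
  obtain ⟨g, hg⟩ := LinearMap.exists_extend g0
  refine ⟨LinearMap.toMatrix' g, Matrix.ext_iff_mulVec.2 fun x => ?_⟩
  rw [← mulVec_mulVec, ← mulVec_mulVec, LinearMap.toMatrix'_mulVec]
  have h1 := LinearMap.congr_fun hg ⟨P *ᵥ x, x, rfl⟩
  have h2 := congrArg Subtype.val (LinearMap.congr_fun hg0 ⟨P *ᵥ x, x, rfl⟩)
  simp only [LinearMap.comp_apply, Submodule.subtype_apply] at h1
  rw [h1]
  exact h2

lemma idem_compl {E : Matrix ι ι F2} (hE : E * E = E) :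
    (1 + E) * (1 + E) = 1 + E ∧ (1 + E).rank + E.rank ≤ Fintype.card ι ∧ 1 + (1 + E) = E := by
  have h1 : (1 + E) * E = 0 := by rw [add_mul, one_mul, hE, mat_add_self]
  refine ⟨by rw [mul_add, mul_one, h1, add_zero], rank_add_rank_le_card_of_mul_eq_zero h1, ?_⟩
  rw [← add_assoc, mat_add_self, zero_add]

/-- All two sided restrictions of small corank have small mean square. -/
def Zoom (γ : ℝ) (s : ℕ) (f : Matrix ι κ F2 → ℝ) : Prop :=
  ∀ (P : Matrix ι ι F2) (R : Matrix κ κ F2) (M0 : Matrix ι κ F2), Fintype.card ι ≤ P.rank + s →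
    Fintype.card κ ≤ R.rank + s → 𝔼 M : Matrix ι κ F2, f (M0 + P * M * R) ^ 2 ≤ γ

lemma Zoom.tr {γ : ℝ} {s : ℕ} {f : Matrix ι κ F2 → ℝ} (h : Zoom γ s f) : Zoom γ s (tr f) := by
  intro P R M0 hP hR
  have := h Rᵀ Pᵀ M0ᵀ (by rwa [rank_transpose]) (by rwa [rank_transpose])
  rw [← ex_tr fun M => f (M0ᵀ + Rᵀ * M * Pᵀ) ^ 2] at this
  simpa only [P325.tr, transpose_add, transpose_mul, Matrix.mul_assoc] using this

lemma Zoom.res {γ : ℝ} {s : ℕ} {f : Matrix ι κ F2 → ℝ} (h : Zoom γ (s + 1) f) {v ξ : ι → F2}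
    (M0 : Matrix ι κ F2) (hv : ξ ⬝ᵥ v = 1) : Zoom γ s (res v ξ M0 f) := by
  intro P R M1 hP hR
  have hv' : v ⬝ᵥ ξ = 1 := by rwa [dotProduct_comm]
  have h1 : P.rank ≤ ((1 + vecMulVec ξ v) * P).rank + 1 := by
    by_cases hS : ∃ x, P *ᵥ x = ξ
    · exact (rank_res_mem hv' hS).ge
    · rw [rank_res_not_mem hv' hS]; omega
  have := h ((1 + vecMulVec ξ v) * P) R (M0 + (1 + vecMulVec ξ v) * M1) (by omega) (by omega)
  simpa only [P325.res, Matrix.mul_add, Matrix.mul_assoc, add_assoc] using this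

lemma Zoom.glob {γ : ℝ} {s : ℕ} {f : Matrix ι κ F2 → ℝ} (h : Zoom γ s f) : Glob γ s f := by
  have hn : ∀ {ι κ : Type} [Fintype ι] [Fintype κ] [DecidableEq ι] [DecidableEq κ] {s : ℕ}
      {f : Matrix ι κ F2 → ℝ}, Zoom γ s f → 𝔼 M, f M ^ 2 ≤ γ := by
    intro ι κ _ _ _ _ s f h
    simpa using h 1 1 0 (by simp) (by simp)
  induction s generalizing ι κ with
  | zero => exact hn h
  | succ s ih => exact ⟨hn h, fun v ξ M0 hv => ih (h.res M0 hv), fun v ξ M0 hv => ih (h.tr.res M0 hv)⟩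

theorem glob_of_zoom {γ : ℝ} {s : ℕ} {f : Matrix ι κ F2 → ℝ}
    (h : ∀ (P : Matrix ι ι F2) (T : Matrix κ κ F2) (M0 : Matrix ι κ F2), P * P = P → T * T = T →
      P.rank ≤ s → T.rank ≤ s → 𝔼 M : Matrix ι κ F2, f (M0 + (1 + P) * M * (1 + T)) ^ 2 ≤ γ) :
    Glob γ s f := by
  refine Zoom.glob fun P R M0 hP hR => ?_
  obtain ⟨G, hG⟩ := exists_ginv P
  obtain ⟨H, hH⟩ := exists_ginv R
  obtain ⟨a1, a2, a3⟩ := idem_compl (E := P * G) (by rw [← Matrix.mul_assoc, hG])
  obtain ⟨b1, b2, b3⟩ := idem_compl (E := H * R)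
    (by rw [Matrix.mul_assoc, ← Matrix.mul_assoc R, hH])
  have a4 : P.rank ≤ (P * G).rank := by
    conv_lhs => rw [← hG]
    exact rank_mul_le_left _ _
  have b4 : R.rank ≤ (H * R).rank := by
    conv_lhs => rw [← hH, Matrix.mul_assoc]
    exact rank_mul_le_right _ _
  have h1 := h (1 + P * G) (1 + H * R) M0 a1 b1 (by omega) (by omega)
  rw [a3, b3] at h1
  refine le_trans (le_of_eq ?_) h1
  refine ex_range (φ := fun M : Matrix ι κ F2 => P * M * R)
    (ψ := fun M : Matrix ι κ F2 => P * G * M * (H * R))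
    (fun x y => by rw [Matrix.mul_add, Matrix.add_mul])
    (fun x y => by rw [Matrix.mul_add, Matrix.add_mul]) (fun M => ⟨P * M * R, ?_⟩)
    (fun N => ⟨G * N * H, ?_⟩) fun N => f (M0 + N) ^ 2
  · calc P * G * (P * M * R) * (H * R) = P * G * P * M * (R * H * R) := by
          simp only [Matrix.mul_assoc]
      _ = _ := by rw [hG, hH]
  · simp only [Matrix.mul_assoc]

end Vale.Agent.P325
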