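import Vale.Agent.P325.GadA

/-! The rank loss in one step of the gadget. -/

namespace Vale.Agent.P325

open Finset Matrix
open scoped BigOperators

set_option linter.unusedSectionVars false

namespace Gad

noncomputable instance fintypeHom {K D : Type} [AddCommGroup K] [Module F2 K] [Finite K]
    [AddCommGroup D] [Module F2 D] [Finite D] : Fintype (K →ₗ[F2] D) :=
  @Fintype.ofFinite _ (DFunLike.finite _)

lemma H_drop {ρ r k : ℕ} (hρ : ρ ≤ r) (U : Submodule F2 (Fin ρ → F2))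
    (hU : Module.finrank F2 U ≤ k) (p : (Fin ρ → F2) → Prop)
    (hp : ∀ c, (∀ u ∈ U, c ⬝ᵥ u = 0) → p c) :
    H ρ - H (min r k) ≤ 1 / (3 * (ρ : ℝ) + 1) * ind (∃ c, c ≠ 0 ∧ p c) +
      H r * ind (∃ c c', c ≠ c' ∧ (c ≠ 0 ∧ p c) ∧ c' ≠ 0 ∧ p c') := by
  have h1 : 0 ≤ 1 / (3 * (ρ : ℝ) + 1) * ind (∃ c, c ≠ 0 ∧ p c) :=
    mul_nonneg (by positivity) (ind_nonneg _)
  have h2 : 0 ≤ H r * ind (∃ c c', c ≠ c' ∧ (c ≠ 0 ∧ p c) ∧ c' ≠ 0 ∧ p c') :=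
    mul_nonneg (H_nonneg _) (ind_nonneg _)
  by_cases h3 : ρ ≤ k
  · have := H_mono (le_min hρ h3)
    linarith
  by_cases h4 : ρ = k + 1
  · obtain ⟨c, -, hc⟩ := exists_perp (j := 1) U (by omega)
    rw [ind_pos ⟨c 0, (hc 0).1, hp _ (hc 0).2⟩, min_eq_right (by omega)]
    subst h4
    rw [H_succ]
    push_cast
    have : 3 * ((k : ℝ) + 1) + 1 = 3 * k + 4 := by ring
    rw [this]
    linarith
  · obtain ⟨c, hi, hc⟩ := exists_perp (j := 2) U (by omega)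
    rw [ind_pos (p := ∃ c c', c ≠ c' ∧ (c ≠ 0 ∧ p c) ∧ c' ≠ 0 ∧ p c')
      ⟨c 0, c 1, fun h => absurd (hi h) (by decide), ⟨(hc 0).1, hp _ (hc 0).2⟩, (hc 1).1,
        hp _ (hc 1).2⟩]
    have h5 := H_mono hρ
    have h6 := H_nonneg (min r k)
    linarith

variable {F : Type} [Field F] [Algebra F2 F] [Fintype F] [DecidableEq F]

/-- The necessary conditions for a functional to vanish on the new image. -/
def Kil {ρ : ℕ} (a b : Fin ρ → Fin 3 → F) (x : Fin 3 → F) (c : Fin ρ → F2) : Prop :=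
  cr x (comb c a) = 0 ∧ comb c a ⬝ᵥ Q x = (comb c b ⬝ᵥ x) ^ 2

lemma card_C (ρ : ℕ) : (Fintype.card (Fin ρ → F2) : ℝ) = 2 ^ ρ := by simp

lemma ex_one {ρ : ℕ} (a b : Fin ρ → Fin 3 → F) :
    𝔼 x : Fin 3 → F, ind (∃ c, c ≠ 0 ∧ Kil a b x c) ≤ 1 / (Fintype.card F : ℝ) ^ 3 +
      ∑ c : Fin ρ → F2, ind (c ≠ 0) * ind (comb c a = 0) +
      1 / (Fintype.card F : ℝ) ^ 2 * (univ.filter fun c : Fin ρ → F2 => c ≠ 0 ∧
        ((∑ i, c i • b i) ⬝ᵥ ∑ i, c i • a i) ^ 2 = ∏ j, (∑ i, c i • a i) j).card := by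
  have h1 : ∀ x : Fin 3 → F, ind (∃ c, c ≠ 0 ∧ Kil a b x c) ≤ ind (x = 0) +
      ∑ c : Fin ρ → F2, ind (c ≠ 0) * ind (comb c a = 0) +
      ∑ c : Fin ρ → F2, ind (c ≠ 0 ∧ (comb c b ⬝ᵥ comb c a) ^ 2 = ∏ j, comb c a j) *
        ind (comb c a ≠ 0 ∧ ∃ s : F, x = s • comb c a) := by
    intro x
    simp only [← ind_and]
    refine le_trans ?_ (add_le_add (add_le_add le_rfl (ind_exists_le _)) (ind_exists_le _))
    refine le_trans (ind_mono ?_) ((ind_or_le _ _).trans (add_le_add (ind_or_le _ _) le_rfl))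
    rintro ⟨c, hc, h1, h2⟩
    by_cases hx : x = 0
    · exact .inl (.inl hx)
    by_cases ha : comb c a = 0
    · exact .inl (.inr ⟨c, hc, ha⟩)
    obtain ⟨t, ht⟩ := par_of_cr hx h1
    have ht0 : t ≠ 0 := fun h => ha (by rw [ht, h, zero_smul])
    have h3 : x = t⁻¹ • comb c a := by rw [ht, smul_smul, inv_mul_cancel₀ ht0, one_smul]
    refine .inr ⟨c, ⟨hc, ?_⟩, ha, _, h3⟩
    rw [h3, dot_Q, dotProduct_smul, smul_eq_mul, mul_pow] at h2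
    exact (mul_left_cancel₀ (pow_ne_zero 2 (inv_ne_zero ht0)) h2).symm
  refine (ex_mono h1).trans ?_
  rw [ex_add, ex_add, ex_zero, Fintype.expect_const, ex_sum, card_filter, Nat.cast_sum, mul_sum]
  refine add_le_add le_rfl (sum_le_sum fun c _ => ?_)
  rw [ex_mul, mul_comm]
  refine mul_le_mul ?_ (le_of_eq ?_) (ind_nonneg _) (by positivity)
  · by_cases ha : comb c a = 0
    · refine ex_le fun x => ?_
      rw [ind_neg fun h => h.1 ha]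
      positivity
    · rw [← ex_line ha]
      exact ex_mono fun x => ind_mono fun h => h.2
  · rw [Nat.cast_ite, Nat.cast_one, Nat.cast_zero, ← ind_eq_ite]
    rfl

lemma ex_one' {ρ : ℕ} {Dm : ℝ} (few : 𝔼 a : Fin ρ → Fin 3 → F, ind (∃ b : Fin ρ → Fin 3 → F,
      3 * ρ < (univ.filter fun c : Fin ρ → F2 => c ≠ 0 ∧
        ((∑ i, c i • b i) ⬝ᵥ ∑ i, c i • a i) ^ 2 = ∏ j, (∑ i, c i • a i) j).card) ≤
      Dm / Fintype.card F) {G : Type} [Fintype G] [Nonempty G] (a b : G → Fin ρ → Fin 3 → F)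
    (ha : ∀ f : (Fin ρ → Fin 3 → F) → ℝ, 𝔼 g, f (a g) = 𝔼 y, f y) :
    𝔼 g, 𝔼 x : Fin 3 → F, ind (∃ c, c ≠ 0 ∧ Kil (a g) (b g) x c) ≤
      (1 + 2 ^ ρ) / (Fintype.card F : ℝ) ^ 3 +
        1 / (Fintype.card F : ℝ) ^ 2 * (3 * ρ + 2 ^ ρ * (Dm / Fintype.card F)) := by
  refine (ex_mono fun g => ex_one (a g) (b g)).trans ?_
  rw [ex_add, ex_add, Fintype.expect_const, ex_mul, add_div]
  refine add_le_add (add_le_add le_rfl ?_) (mul_le_mul_of_nonneg_left ?_ (by positivity))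
  · rw [ha fun y => ∑ c : Fin ρ → F2, ind (c ≠ 0) * ind (comb c y = 0), ex_sum]
    refine (sum_le_sum (g := fun _ => 1 / (Fintype.card F : ℝ) ^ 3) fun c _ => ?_).trans
      (le_of_eq ?_)
    · rw [ex_mul]
      by_cases hc : c = 0
      · rw [ind_neg (not_not.mpr hc), zero_mul]; positivity
      · rw [ind_pos hc, one_mul, ex_comb hc fun y => ind (y = 0), ex_zero]
    · rw [sum_const, card_univ, nsmul_eq_mul, card_C, mul_one_div]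
  · rw [← ha] at few
    refine le_trans (ex_mono (g := fun g => 3 * (ρ : ℝ) + 2 ^ ρ * ind (∃ b : Fin ρ → Fin 3 → F,
      3 * ρ < (univ.filter fun c : Fin ρ → F2 => c ≠ 0 ∧ ((∑ i, c i • b i) ⬝ᵥ
        ∑ i, c i • a g i) ^ 2 = ∏ j, (∑ i, c i • a g i) j).card)) fun g => ?_) (by
      rw [ex_add, Fintype.expect_const, ex_mul]
      exact add_le_add le_rfl (mul_le_mul_of_nonneg_left few (by positivity)))
    by_cases h : 3 * ρ < (univ.filter fun c : Fin ρ → F2 => c ≠ 0 ∧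
        ((∑ i, c i • b g i) ⬝ᵥ ∑ i, c i • a g i) ^ 2 = ∏ j, (∑ i, c i • a g i) j).card
    · rw [ind_pos ⟨b g, h⟩, mul_one, ← card_C]
      exact le_add_of_nonneg_of_le (by positivity) (Nat.cast_le.mpr (card_le_univ _))
    · refine le_add_of_le_of_nonneg ?_ (mul_nonneg (by positivity) (ind_nonneg _))
      exact_mod_cast not_lt.mp h

lemma ex_two {ρ : ℕ} {G : Type} [Fintype G] [Nonempty G] (a b : G → Fin ρ → Fin 3 → F)
    (ha : ∀ f : (Fin ρ → Fin 3 → F) → ℝ, 𝔼 g, f (a g) = 𝔼 y, f y) :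
    𝔼 g, 𝔼 x : Fin 3 → F, ind (∃ c c', c ≠ c' ∧ (c ≠ 0 ∧ Kil (a g) (b g) x c) ∧ c' ≠ 0 ∧
      Kil (a g) (b g) x c') ≤
      1 / (Fintype.card F : ℝ) ^ 3 + 4 ^ ρ * (1 / (Fintype.card F : ℝ) ^ 2) ^ 2 := by
  have h1 : ∀ g (x : Fin 3 → F), ind (∃ c c', c ≠ c' ∧ (c ≠ 0 ∧ Kil (a g) (b g) x c) ∧ c' ≠ 0 ∧
      Kil (a g) (b g) x c') ≤ ind (x = 0) + ∑ p : (Fin ρ → F2) × (Fin ρ → F2),
        ind (x ≠ 0 ∧ p.1 ≠ 0 ∧ p.2 ≠ 0 ∧ p.1 ≠ p.2) *
          (ind (∃ s : F, comb p.1 (a g) = s • x) * ind (∃ s : F, comb p.2 (a g) = s • x)) := by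
    intro g x
    simp only [← ind_and]
    refine le_trans ?_ (add_le_add le_rfl (ind_exists_le _))
    refine le_trans (ind_mono ?_) (ind_or_le _ _)
    rintro ⟨c, c', h0, ⟨hc, h1, -⟩, hc', h2, -⟩
    by_cases hx : x = 0
    · exact .inl hx
    · exact .inr ⟨(c, c'), ⟨hx, hc, hc', h0⟩, par_of_cr hx h1, par_of_cr hx h2⟩
  rw [ex_comm]
  refine (ex_mono fun x => ex_mono fun g => h1 g x).trans ?_
  simp only [ex_add, Fintype.expect_const, ex_zero]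
  refine add_le_add le_rfl (ex_le fun x => ?_)
  rw [ex_sum]
  refine (sum_le_sum (g := fun _ => (1 / (Fintype.card F : ℝ) ^ 2) ^ 2) fun p _ => ?_).trans
    (le_of_eq ?_)
  · rw [ex_mul]
    by_cases h : x ≠ 0 ∧ p.1 ≠ 0 ∧ p.2 ≠ 0 ∧ p.1 ≠ p.2
    · rw [ind_pos h, one_mul, ha fun y => ind (∃ s : F, comb p.1 y = s • x) *
        ind (∃ s : F, comb p.2 y = s • x), ex_comb2 h.2.1 h.2.2.1 h.2.2.2
        (fun y => ind (∃ s : F, y = s • x)) fun y => ind (∃ s : F, y = s • x), ex_line h.1]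
      exact (sq _).ge
    · rw [ind_neg h, zero_mul]; positivity
  · rw [sum_const, card_univ, nsmul_eq_mul, Fintype.card_prod, Nat.cast_mul, card_C, ← mul_pow]
    norm_num

theorem loss {ρ r : ℕ} (hρ : ρ ≤ r) {Dm : ℝ} (hD : 0 ≤ Dm)
    (few : 𝔼 a : Fin ρ → Fin 3 → F, ind (∃ b : Fin ρ → Fin 3 → F,
      3 * ρ < (univ.filter fun c : Fin ρ → F2 => c ≠ 0 ∧
        ((∑ i, c i • b i) ⬝ᵥ ∑ i, c i • a i) ^ 2 = ∏ j, (∑ i, c i • a i) j).card) ≤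
      Dm / Fintype.card F)
    (hq : 1 + 2 ^ r + 2 ^ r * Dm + H r * (1 + 4 ^ r) ≤ Fintype.card F)
    {D : Type} [AddCommGroup D] [Module F2 D] [Fintype D] (T0 : D →ₗ[F2] (Fin ρ → F2))
    (hT : Function.Surjective T0)
    (T1 : ((Fin 3 → F) →ₗ[F2] D) → (Fin 3 → F) →ₗ[F2] (Fin ρ → F2))
    (rk : ((Fin 3 → F) →ₗ[F2] D) → (Fin 3 → F) → ℕ)
    (hrk : ∀ g x, ∃ U : Submodule F2 (Fin ρ → F2), Module.finrank F2 U ≤ rk g x ∧
      ∀ (l : F) u, T0 (g (l ^ 2 • Q x + cr x u)) + T1 g (l • x) ∈ U) :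
    H ρ - 2 * (1 / (Fintype.card F : ℝ) ^ 2) ≤ 𝔼 g, 𝔼 x, H (min r (rk g x)) := by
  obtain ⟨ψ, hψ⟩ := exists_psi (F := F)
  have hψ2 := psi_sq_ne hψ
  choose a ha using fun (g : (Fin 3 → F) →ₗ[F2] D) (i : Fin ρ) =>
    exists_rep hψ ((LinearMap.proj i : (Fin ρ → F2) →ₗ[F2] F2) ∘ₗ T0 ∘ₗ g)
  choose b hb using fun (g : (Fin 3 → F) →ₗ[F2] D) (i : Fin ρ) =>
    exists_rep hψ2 ((LinearMap.proj i : (Fin ρ → F2) →ₗ[F2] F2) ∘ₗ T1 g)
  have ha' : ∀ g x, T0 (g x) = fun i => ψ (a g i ⬝ᵥ x) := fun g x => funext fun i => ha g i x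
  have hb' : ∀ g x, T1 g x = fun i => (ψ ∘ₗ sqL) (b g i ⬝ᵥ x) := fun g x =>
    funext fun i => hb g i x
  have huniq : ∀ y y' : Fin 3 → F, (∀ x, ψ (y ⬝ᵥ x) = ψ (y' ⬝ᵥ x)) → y = y' := fun y y' h =>
    eq_of_add (vec_zero hψ fun x => by rw [add_dotProduct, map_add, h, add_self'])
  have hunif : ∀ f : (Fin ρ → Fin 3 → F) → ℝ, 𝔼 g, f (a g) = 𝔼 y, f y := by
    refine ex_hom (fun g g' => funext fun i => huniq _ _ fun x => ?_) fun y => ?_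
    · rw [Pi.add_apply, add_dotProduct, map_add, ← ha, ← ha, ← ha]
      simp only [LinearMap.comp_apply, LinearMap.add_apply, map_add]
    · obtain ⟨s, hs⟩ := T0.exists_rightInverse_of_surjective (LinearMap.range_eq_top.mpr hT)
      refine ⟨s ∘ₗ LinearMap.pi fun i => fn ψ (y i), funext fun i => huniq _ _ fun x => ?_⟩
      rw [← ha]
      exact congrFun (LinearMap.congr_fun hs _) i
  have hpt : ∀ g x, H ρ - H (min r (rk g x)) ≤
      1 / (3 * (ρ : ℝ) + 1) * ind (∃ c, c ≠ 0 ∧ Kil (a g) (b g) x c) +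
      H r * ind (∃ c c', c ≠ c' ∧ (c ≠ 0 ∧ Kil (a g) (b g) x c) ∧ c' ≠ 0 ∧
        Kil (a g) (b g) x c') := by
    intro g x
    obtain ⟨U, hU, hU'⟩ := hrk g x
    refine H_drop hρ U hU _ fun c hc => ?_
    have h1 : ∀ (l : F) u, ψ (comb c (a g) ⬝ᵥ (l ^ 2 • Q x + cr x u)) +
        ψ ((comb c (b g) ⬝ᵥ l • x) ^ 2) = 0 := fun l u => by
      have := hc _ (hU' l u)
      rwa [dotProduct_add, ha', hb', dot_rep, dot_rep] at this
    refine ⟨vec_zero hψ fun u => ?_, eq_of_add (scalar_zero hψ fun y => ?_)⟩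
    · simpa [dot_cr] using h1 0 u
    · obtain ⟨l, rfl⟩ := sq_surj y
      have := h1 l 0
      rw [cr_zero, add_zero, ← map_add, dotProduct_smul, dotProduct_smul, smul_eq_mul,
        smul_eq_mul] at this
      rw [← this]
      congr 1
      ring
  have h1 := ex_mono fun g => ex_mono (hpt g)
  simp only [ex_sub, ex_add, ex_mul, Fintype.expect_const] at h1
  have h2 := ex_one' few a b hunif
  have h3 := ex_two a b hunif
  set q : ℝ := ((Fintype.card F : ℕ) : ℝ) with hqd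
  have hq1 : 1 ≤ q := Nat.one_le_cast.mpr Fintype.card_pos
  have hq0 : 0 < q := by linarith
  have hHr := H_nonneg r
  have p2 : (2 : ℝ) ^ ρ ≤ 2 ^ r := pow_le_pow_right₀ (by norm_num) hρ
  have p4 : (4 : ℝ) ^ ρ ≤ 4 ^ r := pow_le_pow_right₀ (by norm_num) hρ
  have hρ0 : (0 : ℝ) ≤ ρ := Nat.cast_nonneg ρ
  have h4 : 1 / (3 * (ρ : ℝ) + 1) * ((1 + 2 ^ ρ) / q ^ 3 + 1 / q ^ 2 * (3 * ρ + 2 ^ ρ * (Dm / q)))
      ≤ 1 / q ^ 2 + (1 + 2 ^ r + 2 ^ r * Dm) / q ^ 3 := by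
    have e1 : (1 + 2 ^ ρ) / q ^ 3 + 1 / q ^ 2 * (3 * ρ + 2 ^ ρ * (Dm / q)) =
        3 * ρ * (1 / q ^ 2) + (1 + 2 ^ ρ + 2 ^ ρ * Dm) / q ^ 3 := by field_simp; ring
    have e2 : (1 + 2 ^ ρ + 2 ^ ρ * Dm) / q ^ 3 ≤ (1 + 2 ^ r + 2 ^ r * Dm) / q ^ 3 := by gcongr
    have e3 : 0 ≤ (1 + 2 ^ r + 2 ^ r * Dm) / q ^ 3 := by positivity
    have e4 : 0 ≤ 1 / q ^ 2 := by positivity
    rw [e1, one_div_mul_eq_div, div_le_iff₀ (by positivity)]
    nlinarith [mul_nonneg hρ0 e3]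
  have h5 : H r * (1 / q ^ 3 + 4 ^ ρ * (1 / q ^ 2) ^ 2) ≤ H r * (1 + 4 ^ r) / q ^ 3 := by
    rw [mul_div_assoc, add_div]
    refine mul_le_mul_of_nonneg_left (add_le_add le_rfl ?_) hHr
    rw [div_pow, one_pow, mul_one_div, ← pow_mul]
    gcongr
    norm_num
  have h6 : (1 + 2 ^ r + 2 ^ r * Dm) / q ^ 3 + H r * (1 + 4 ^ r) / q ^ 3 ≤ 1 / q ^ 2 := by
    rw [← add_div, div_le_div_iff₀ (by positivity) (by positivity)]
    nlinarith [mul_le_mul_of_nonneg_right hq (sq_nonneg q)]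
  have h7 := mul_le_mul_of_nonneg_left h2 (show 0 ≤ 1 / (3 * (ρ : ℝ) + 1) by positivity)
  have h8 := mul_le_mul_of_nonneg_left h3 hHr
  linarith

end Gad

end Vale.Agent.P325
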