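import Vale.Agent.P325.Few
import Vale.Agent.P325.GadB

/-! The gadget: a noise that rarely changes an equivariant map but changes all linear maps of
large rank. -/

namespace Vale.Agent.P325

open Finset Matrix Module
open scoped BigOperators

set_option linter.unusedSectionVars false

namespace Gad

section step

variable {A W D Om : Type} [AddCommGroup A] [Module F2 A] [AddCommGroup W] [Module F2 W]
  [Fintype W] [AddCommGroup D] [Module F2 D] [Fintype D] [Fintype Om] [Nonempty Om]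

/-- How often the noise changes the map. -/
noncomputable def nl (C : W → A) (J : Om → D →ₗ[F2] W) : ℝ :=
  𝔼 y, 𝔼 w, 𝔼 z, ind (C (y + J w z) ≠ C y)

/-- The noise nearly keeps ranks. -/
def Inv (r : ℕ) (t : ℝ) (ι : A →ₗ[F2] W) (J : Om → D →ₗ[F2] W) : Prop :=
  ∀ (Z : Type) [AddCommGroup Z] [Module F2 Z] (T : W →ₗ[F2] Z),
    H (min r (finrank F2 (LinearMap.range (T ∘ₗ ι)))) - t ≤
      𝔼 w, H (min r (finrank F2 (LinearMap.range (T ∘ₗ J w))))

variable {F : Type} [Field F] [Algebra F2 F] [Fintype F] [DecidableEq F]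
  [DecidableEq (Om × ((Fin 3 → F) →ₗ[F2] D))]

/-- The next map. -/
noncomputable def C1 (C : W → A) (J : Om → D →ₗ[F2] W)
    (p : W × (Om × ((Fin 3 → F) →ₗ[F2] D) → Fin 3 → F)) : A :=
  C (p.1 + ∑ i : Om × ((Fin 3 → F) →ₗ[F2] D), J i.1 (i.2 (Q (p.2 i))))

/-- The next noise. -/
def J1 (J : Om → D →ₗ[F2] W) (w : Om × ((Fin 3 → F) →ₗ[F2] D) × (Fin 3 → F)) :
    F × (Fin 3 → F) →ₗ[F2] W × (Om × ((Fin 3 → F) →ₗ[F2] D) → Fin 3 → F) :=
  AddMonoidHom.toZModLinearMap 2 (AddMonoidHom.mk' (fun z =>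
    (J w.1 (w.2.1 (z.1 ^ 2 • Q w.2.2 + cr w.2.2 z.2)), Pi.single (w.1, w.2.1) (z.1 • w.2.2)))
    fun z z' => by
      rw [Prod.fst_add, Prod.snd_add, Prod.mk_add_mk, ← map_add, ← map_add, ← Pi.single_add,
        add_sq', add_smul, add_smul, cr_add, add_add_add_comm])

lemma J1_apply (J : Om → D →ₗ[F2] W) (w : Om) (g : (Fin 3 → F) →ₗ[F2] D) (a u : Fin 3 → F)
    (l : F) : J1 J (w, g, a) (l, u) =
      (J w (g (l ^ 2 • Q a + cr a u)), Pi.single (w, g) (l • a)) := rfl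

lemma C1_J1 (C : W → A) (J : Om → D →ₗ[F2] W) (y : W)
    (x : Om × ((Fin 3 → F) →ₗ[F2] D) → Fin 3 → F) (w : Om) (g : (Fin 3 → F) →ₗ[F2] D)
    (a u : Fin 3 → F) (l : F) : C1 C J ((y, x) + J1 J (w, g, a) (l, u)) =
      C (y + ∑ i : Om × ((Fin 3 → F) →ₗ[F2] D), J i.1 (i.2 (Q (x i))) +
        J w (g (cr a (u + l • x (w, g))))) := by
  have h1 : ∀ i, Q ((x + Pi.single (w, g) (l • a) : _ → Fin 3 → F) i) = Q (x i) +
      (Pi.single (w, g) (l ^ 2 • Q a + cr a (l • x (w, g))) : _ → Fin 3 → F) i := fun i => by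
    by_cases h : i = (w, g)
    · rw [h, Pi.add_apply, Pi.single_eq_same, Pi.single_eq_same, Q_add, add_assoc]
    · rw [Pi.add_apply, Pi.single_eq_of_ne h, Pi.single_eq_of_ne h, add_zero, add_zero]
  have h2 : ∑ i : Om × ((Fin 3 → F) →ₗ[F2] D), J i.1 (i.2 ((Pi.single (w, g)
      (l ^ 2 • Q a + cr a (l • x (w, g))) : _ → Fin 3 → F) i)) =
      J w (g (l ^ 2 • Q a + cr a (l • x (w, g)))) := by
    rw [sum_eq_single (w, g) (fun i _ h => by rw [Pi.single_eq_of_ne h, map_zero, map_zero])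
      (by simp), Pi.single_eq_same]
  rw [J1_apply, Prod.mk_add_mk, C1]
  simp only [h1, map_add, sum_add_distrib, h2, cr_add]
  rw [add_add_add_comm, add_add_add_comm (J w _), add_self', zero_add]

lemma nl_step (C : W → A) (J : Om → D →ₗ[F2] W) :
    nl (C1 (F := F) C J) (J1 J) ≤ (1 - 1 / (Fintype.card F : ℝ) ^ 2) * nl C J := by
  have h1 : ∀ (f : D → ℝ) (v : Fin 3 → F), f 0 = 0 →
      𝔼 g : (Fin 3 → F) →ₗ[F2] D, f (g v) = (1 - ind (v = 0)) * 𝔼 z, f z := fun f v hf => by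
    by_cases hv : v = 0
    · simp [hv, hf, ind]
    · obtain ⟨φ, hφ⟩ := not_forall.mp (mt (Module.forall_dual_apply_eq_zero_iff F2 v).mp hv)
      rw [ind_neg hv, sub_zero, one_mul]
      exact ex_hom (φ := fun g : (Fin 3 → F) →ₗ[F2] D => g v) (fun _ _ => rfl) (fun z =>
        ⟨φ.smulRight z, by simp [(F2.cases _).resolve_left hφ]⟩) f
  have h2 : ∀ (y : W) (w : Om), 𝔼 g : (Fin 3 → F) →ₗ[F2] D, 𝔼 a : Fin 3 → F, 𝔼 u : Fin 3 → F,
      ind (C (y + J w (g (cr a u))) ≠ C y) ≤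
      (1 - 1 / (Fintype.card F : ℝ) ^ 2) * 𝔼 z, ind (C (y + J w z) ≠ C y) := fun y w => by
    rw [ex_comm]
    refine ex_le fun a => ?_
    rw [ex_comm]
    simp only [h1 (fun z => ind (C (y + J w z) ≠ C y)) _ (ind_neg (by simp))]
    rw [ex_mul', ex_sub, Fintype.expect_const]
    exact mul_le_mul_of_nonneg_right (sub_le_sub_left (ex_cr a) _) (ex_nonneg fun _ => ind_nonneg _)
  rw [nl, ex_prod, ex_comm]
  refine ex_le fun x => ?_
  rw [nl, ← ex_mul, ← ex_shift (∑ i : Om × ((Fin 3 → F) →ₗ[F2] D), J i.1 (i.2 (Q (x i))))]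
  refine ex_mono fun y => ?_
  rw [ex_prod, ← ex_mul]
  refine ex_mono fun w => le_trans (le_of_eq ?_) (h2 _ w)
  rw [ex_prod]
  refine expect_congr rfl fun g _ => expect_congr rfl fun a _ => ?_
  rw [ex_prod, ← Fintype.expect_const (ι := F) (𝔼 u : Fin 3 → F, _)]
  refine expect_congr rfl fun l _ => ?_
  rw [← ex_shift (l • x (w, g))]
  simp only [C1_J1]
  simp only [C1, add_assoc _ _ (l • _), add_assoc y, add_self', add_zero]

lemma inv_step {r : ℕ} {Dm t : ℝ} (hD : 0 ≤ Dm)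
    (few : ∀ ρ ≤ r, 𝔼 a : Fin ρ → Fin 3 → F, ind (∃ b : Fin ρ → Fin 3 → F,
      3 * ρ < (univ.filter fun c : Fin ρ → F2 => c ≠ 0 ∧
        ((∑ i, c i • b i) ⬝ᵥ ∑ i, c i • a i) ^ 2 = ∏ j, (∑ i, c i • a i) j).card) ≤
      Dm / Fintype.card F)
    (hq : 1 + 2 ^ r + 2 ^ r * Dm + H r * (1 + 4 ^ r) ≤ Fintype.card F) {ι : A →ₗ[F2] W}
    {J : Om → D →ₗ[F2] W} (h : Inv r t ι J) :
    Inv r (t + 2 * (1 / (Fintype.card F : ℝ) ^ 2)) (LinearMap.inl F2 _ _ ∘ₗ ι)
      (J1 (F := F) J) := by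
  intro Z _ _ T
  have h1 := h Z (T ∘ₗ LinearMap.inl F2 _ _)
  rw [LinearMap.comp_assoc] at h1
  rw [← sub_sub, ex_prod]
  refine (sub_le_sub_right h1 _).trans ?_
  rw [← Fintype.expect_const (ι := Om) (2 * _), ← ex_sub]
  refine ex_mono fun w => ?_
  obtain ⟨P, hP⟩ := exists_onto ((T ∘ₗ LinearMap.inl F2 _ _) ∘ₗ J w) (min_le_right r _)
  rw [ex_prod]
  refine loss (min_le_left _ _) hD (few _ (min_le_left _ _)) hq _ hP
    (fun g => P ∘ₗ T ∘ₗ LinearMap.inr F2 _ _ ∘ₗ LinearMap.single F2 (fun _ => Fin 3 → F) (w, g))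
    (fun g x => finrank F2 (LinearMap.range (T ∘ₗ J1 J (w, g, x)))) fun g x =>
    ⟨_, Submodule.finrank_map_le P _, fun l u => ⟨_, ⟨(l, u), rfl⟩, ?_⟩⟩
  simp only [LinearMap.comp_apply, J1_apply, ← map_add]
  simp

end step

/-- A level of the gadget exists. -/
def Good (A : Type) [AddCommGroup A] [Module F2 A] (r : ℕ) (η t : ℝ) : Prop :=
  ∃ (W D Om : Type) (_ : AddCommGroup W) (_ : Module F2 W) (_ : Fintype W) (_ : AddCommGroup D)
    (_ : Module F2 D) (_ : Fintype D) (_ : Fintype Om) (_ : Nonempty Om) (ι : A →ₗ[F2] W)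
    (C : W → A) (J : Om → D →ₗ[F2] W), (∀ y t, C (y + ι t) = C y + t) ∧ nl C J ≤ η ∧ Inv r t ι J

lemma good_all (r m : ℕ) (A : Type) [AddCommGroup A] [Module F2 A] [Fintype A] :
    Good A r (Real.exp (-m)) (2 * m) := by
  classical
  choose Dm hDm using few_good
  obtain ⟨e, he⟩ := pow_unbounded_of_one_lt
    (1 + 2 ^ r + 2 ^ r * ((∑ ρ ∈ range (r + 1), Dm ρ : ℕ) : ℝ) + H r * (1 + 4 ^ r)) one_lt_two
  let F := GaloisField 2 (e + 1)
  let _ : Fintype F := Fintype.ofFinite F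
  have hF : Fintype.card F = 2 ^ (e + 1) := by
    rw [← Nat.card_eq_fintype_card, GaloisField.card 2 _ e.succ_ne_zero]
  have hq : (1 : ℝ) ≤ (Fintype.card F : ℝ) ^ 2 :=
    one_le_pow₀ (Nat.one_le_cast.mpr Fintype.card_pos)
  have hθ : 0 ≤ 1 - 1 / (Fintype.card F : ℝ) ^ 2 :=
    sub_nonneg.mpr (div_le_one_of_le₀ hq (by positivity))
  have key : ∀ n : ℕ, Good A r ((1 - 1 / (Fintype.card F : ℝ) ^ 2) ^ n)
      (n * (2 * (1 / (Fintype.card F : ℝ) ^ 2))) := fun n => by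
    induction n with
    | zero =>
      refine ⟨A, A, Unit, _, _, _, _, _, _, inferInstance, inferInstance, .id, id, fun _ => .id,
        fun _ _ => rfl, ex_le fun _ => ex_le fun _ => ex_le fun _ => ind_le_one _, ?_⟩
      intro Z _ _ T
      simp
    | succ n ih =>
      obtain ⟨W, D, Om, _, _, _, _, _, _, _, _, ι, C, J, h1, h2, h3⟩ := ih
      refine ⟨_, _, _, _, _, _, _, _, _, _, inferInstance, LinearMap.inl F2 _ _ ∘ₗ ι,
        C1 (F := F) C J, J1 J, fun y t => ?_, (nl_step C J).trans ?_, ?_⟩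
      · simp only [C1, LinearMap.comp_apply, LinearMap.inl_apply, Prod.fst_add, Prod.snd_add,
          add_zero]
        rw [add_right_comm, h1]
      · rw [pow_succ' _ n]
        exact mul_le_mul_of_nonneg_left h2 hθ
      · rw [Nat.cast_succ, add_mul, one_mul]
        refine inv_step (Nat.cast_nonneg _) (fun ρ hρ => (hDm ρ F).trans ?_) (he.le.trans ?_) h3
        · exact div_le_div_of_nonneg_right (Nat.cast_le.mpr (single_le_sum
            (fun _ _ => Nat.zero_le _) (mem_range.mpr (Nat.lt_succ_of_le hρ)))) (Nat.cast_nonneg _)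
        · rw [hF, Nat.cast_pow, Nat.cast_ofNat]
          exact pow_le_pow_right₀ one_le_two e.le_succ
  obtain ⟨W, D, Om, _, _, _, _, _, _, _, _, ι, C, J, h1, h2, h3⟩ := key (m * Fintype.card F ^ 2)
  have hm : ((m * Fintype.card F ^ 2 : ℕ) : ℝ) * (1 / (Fintype.card F : ℝ) ^ 2) = m := by
    rw [Nat.cast_mul, Nat.cast_pow, mul_one_div, mul_div_cancel_right₀ _ (by linarith)]
  refine ⟨W, D, Om, _, _, _, _, _, _, _, inferInstance, ι, C, J, h1, h2.trans ?_, ?_⟩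
  · rw [← hm, ← mul_neg, Real.exp_nat_mul]
    exact pow_le_pow_left₀ hθ
      (by linarith [Real.add_one_le_exp (-(1 / (Fintype.card F : ℝ) ^ 2))]) _
  · rwa [mul_left_comm, hm] at h3

lemma exists_coord {d : ℕ} {W : Type} [AddCommGroup W] [Module F2 W] [Fintype W]
    (ι : (Fin d → F2) →ₗ[F2] W) (h : Function.Injective ι) :
    ∃ (m : ℕ) (e : (Fin d ⊕ Fin m → F2) ≃ₗ[F2] W), ∀ t, e (inA t) = ι t := by
  obtain ⟨K, hK⟩ := (LinearMap.range ι).exists_isCompl
  refine ⟨finrank F2 K, (LinearEquiv.sumArrowLequivProdArrow _ _ F2 F2).trans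
    (((LinearEquiv.ofInjective ι h).prodCongr (finBasis F2 K).equivFun.symm).trans
      (Submodule.prodEquivOfIsCompl _ _ hK)), fun t => ?_⟩
  have : LinearEquiv.sumArrowLequivProdArrow _ _ F2 F2 (inA (μ := Fin (finrank F2 K)) t) =
    (t, 0) := rfl
  simp [this]

end Gad

open Gad in
theorem exists_gadget {ε lam : ℝ} (hε : 0 < ε) (hl : 0 < lam) : ∃ r : ℕ, ∀ d : ℕ,
    ∃ (m n N : ℕ) (C : (Fin d ⊕ Fin m → F2) → Fin d → F2)
      (J : Fin (N + 1) → Matrix (Fin n) (Fin d ⊕ Fin m) F2),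
      (∀ y t, C (y + inA t) = C y + t) ∧
      𝔼 y, 𝔼 ω, 𝔼 z : Fin n → F2, ind (C (y + z ᵥ* J ω) ≠ C y) ≤ ε ∧
      ∀ (ι : Type) [Fintype ι] (S : Matrix ι (Fin d ⊕ Fin m) F2), r ≤ S.toCols₁.rank →
        𝔼 ω, ind (S * (J ω)ᵀ = 0) ≤ lam := by
  obtain ⟨k, hk⟩ := exists_nat_ge (-Real.log ε)
  obtain ⟨r, hr⟩ := H_large (2 * k / lam + 1)
  refine ⟨r, fun d => ?_⟩
  obtain ⟨W, D, Om, _, _, _, _, _, _, _, _, ι, C, J, h1, h2, h3⟩ := good_all r k (Fin d → F2)
  obtain ⟨m, e, he⟩ := exists_coord ι ((injective_iff_map_eq_zero ι).mpr fun t ht => by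
    simpa [ht] using h1 0 t)
  let c := (finBasis F2 D).equivFun.symm
  obtain ⟨N, hN⟩ := Nat.exists_eq_succ_of_ne_zero (Fintype.card_ne_zero (α := Om))
  let o := (Fintype.equivFinOfCardEq hN).symm
  refine ⟨m, _, N, fun y => C (e y), fun ω => (LinearMap.toMatrix'
    (e.symm.toLinearMap ∘ₗ J (o ω) ∘ₗ c.toLinearMap))ᵀ, fun y t => by simp only [map_add, he, h1],
    le_trans (le_of_eq ?_) (h2.trans ?_), fun κ _ S hS => ?_⟩
  · rw [nl, ← ex_equiv e.toEquiv]
    refine expect_congr rfl fun y _ => ?_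
    rw [← ex_equiv o]
    refine expect_congr rfl fun w _ => ?_
    rw [← ex_equiv c.toEquiv]
    refine expect_congr rfl fun z _ => ?_
    rw [vecMul_transpose, LinearMap.toMatrix'_mulVec]
    simp
  · rw [← Real.exp_log hε]
    exact Real.exp_le_exp.mpr (by linarith)
  · have h4 := h3 _ (S.mulVecLin ∘ₗ e.symm.toLinearMap)
    have h5 : (S.mulVecLin ∘ₗ e.symm.toLinearMap) ∘ₗ ι = S.toCols₁.mulVecLin :=
      LinearMap.ext fun t => by
        rw [LinearMap.comp_apply, ← he, mulVecLin_apply, LinearMap.comp_apply,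
          LinearEquiv.coe_coe, e.symm_apply_apply, mulVecLin_apply, inA]
        conv_lhs => rw [← fromCols_toCols S]
        rw [fromCols_mulVec_sumElim, mulVec_zero, add_zero]
    rw [h5, ← Matrix.rank, min_eq_left hS, ← ex_equiv o] at h4
    have h6 := h4.trans (ex_mono (g := fun ω => H r - H r * ind (S * ((LinearMap.toMatrix'
      (e.symm.toLinearMap ∘ₗ J (o ω) ∘ₗ c.toLinearMap))ᵀ)ᵀ = 0)) fun ω => by
        by_cases h : S * ((LinearMap.toMatrix'
          (e.symm.toLinearMap ∘ₗ J (o ω) ∘ₗ c.toLinearMap))ᵀ)ᵀ = 0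
        · have h7 : (S.mulVecLin ∘ₗ e.symm.toLinearMap) ∘ₗ J (o ω) = 0 := LinearMap.ext fun z => by
            have := congrArg (· *ᵥ c.symm z) h
            simpa [← mulVec_mulVec, LinearMap.toMatrix'_mulVec] using this
          rw [h7, ind_pos h, LinearMap.range_zero, finrank_bot]
          simp [H_zero]
        · rw [ind_neg h, mul_zero, sub_zero]
          exact H_mono (min_le_left _ _))
    rw [ex_sub, Fintype.expect_const, ex_mul] at h6
    have h8 : 0 ≤ 2 * k / lam := by positivity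
    have h9 : 2 * k = 2 * k / lam * lam := (div_mul_cancel₀ _ hl.ne').symm
    refine le_of_mul_le_mul_left ?_ (show 0 < H r by linarith)
    nlinarith

end Vale.Agent.P325
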