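import Vale.Agent.P325.Four

/-! Algebra and counting for the gadget. -/

namespace Vale.Agent.P325

open Finset Matrix
open scoped BigOperators

set_option linter.unusedSectionVars false

namespace Gad

lemma add_self' {M : Type} [AddCommGroup M] [Module F2 M] (x : M) : x + x = 0 := by
  rw [← one_smul F2 x, ← add_smul, F2.add_self, zero_smul]

lemma eq_of_add {M : Type} [AddCommGroup M] [Module F2 M] {x y : M} (h : x + y = 0) : x = y :=
  add_right_cancel (h.trans (add_self' y).symm)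

/-- Harmonic weights. -/
noncomputable def H (ρ : ℕ) : ℝ := ∑ i ∈ range ρ, 1 / (3 * (i : ℝ) + 4)

lemma H_zero : H 0 = 0 := by simp [H]

lemma H_succ (ρ : ℕ) : H (ρ + 1) = H ρ + 1 / (3 * (ρ : ℝ) + 4) := sum_range_succ _ _

lemma H_mono : Monotone H := monotone_nat_of_le_succ fun n => by
  rw [H_succ]; exact le_add_of_nonneg_right (by positivity)

lemma H_nonneg (ρ : ℕ) : 0 ≤ H ρ := H_zero ▸ H_mono (Nat.zero_le ρ)

lemma H_large (x : ℝ) : ∃ r, x ≤ H r := by
  obtain ⟨r, hr⟩ := (Real.tendsto_sum_range_one_div_nat_succ_atTop.eventually_ge_atTop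
    (4 * x)).exists
  refine ⟨r, ?_⟩
  have : ∑ i ∈ range r, 1 / ((i : ℝ) + 1) ≤ 4 * H r := by
    rw [H, mul_sum]
    refine sum_le_sum fun i _ => ?_
    rw [mul_one_div, div_le_div_iff₀ (by positivity) (by positivity)]
    have : (0 : ℝ) ≤ i := Nat.cast_nonneg i
    linarith
  linarith

/-- Vectors orthogonal to a subspace of small rank. -/
lemma exists_perp {ρ j : ℕ} (U : Submodule F2 (Fin ρ → F2)) (h : Module.finrank F2 U + j ≤ ρ) :
    ∃ c : Fin j → Fin ρ → F2, Function.Injective c ∧ ∀ i, c i ≠ 0 ∧ ∀ u ∈ U, c i ⬝ᵥ u = 0 := by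
  have h1 := Subspace.finrank_add_finrank_dualAnnihilator_eq U
  rw [Module.finrank_fintype_fun_eq_card, Fintype.card_fin] at h1
  have h2 : j ≤ Module.finrank F2 U.dualAnnihilator := by omega
  let b := Module.finBasis F2 U.dualAnnihilator
  let φ : Fin j → Module.Dual F2 (Fin ρ → F2) := fun i => b (Fin.castLE h2 i)
  have h3 : ∀ i u, (fun k => φ i (Pi.single k 1)) ⬝ᵥ u = φ i u := fun i u => by
    rw [LinearMap.pi_apply_eq_sum_univ (φ i) u, dotProduct]
    refine sum_congr rfl fun k _ => ?_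
    rw [smul_eq_mul, mul_comm]
    congr 2
    funext l
    simp [Pi.single_apply, eq_comm]
  refine ⟨fun i k => φ i (Pi.single k 1), fun i i' hii => ?_, fun i => ⟨fun h0 => ?_, fun u hu => ?_⟩⟩
  · have h4 : φ i = φ i' := LinearMap.ext fun u => by
      rw [← h3, ← h3]; exact congrArg (· ⬝ᵥ u) hii
    exact Fin.castLE_injective h2 (b.injective (Subtype.ext h4))
  · have h4 : φ i = 0 := LinearMap.ext fun u => by
      rw [← h3]; exact (congrArg (· ⬝ᵥ u) h0).trans (zero_dotProduct u)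
    exact b.ne_zero _ (Subtype.ext h4)
  · rw [h3]
    exact (Submodule.mem_dualAnnihilator _).mp (b (Fin.castLE h2 i)).2 u hu

lemma exists_sep {ρ : ℕ} {c c' : Fin ρ → F2} (h0 : c ≠ 0) (h : c ≠ c') :
    ∃ v : Fin ρ → F2, c ⬝ᵥ v = 1 ∧ c' ⬝ᵥ v = 0 := by
  obtain ⟨j, hj⟩ := Function.ne_iff.mp h0
  obtain ⟨i, hi⟩ := Function.ne_iff.mp h
  have hj1 := (F2.cases (c j)).resolve_left hj
  rcases F2.cases (c' j) with h1 | h1
  · exact ⟨Pi.single j 1, by simp [hj1], by simp [h1]⟩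
  rcases F2.cases (c i) with h2 | h2
  · have h3 := (F2.cases (c' i)).resolve_left (fun h3 => hi (h2.trans h3.symm))
    refine ⟨Pi.single j 1 + Pi.single i 1, by simp [dotProduct_add, hj1, h2], ?_⟩
    simp [dotProduct_add, h1, h3, F2.add_self]
  · have h3 := (F2.cases (c' i)).resolve_right (fun h3 => hi (h2.trans h3.symm))
    exact ⟨Pi.single i 1, by simp [h2], by simp [h3]⟩

/-- A map onto a coordinate space that keeps a given part of the rank. -/
lemma exists_onto {D Z : Type} [AddCommGroup D] [Module F2 D] [Module.Finite F2 D]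
    [AddCommGroup Z] [Module F2 Z] (T : D →ₗ[F2] Z) {ρ : ℕ}
    (h : ρ ≤ Module.finrank F2 (LinearMap.range T)) :
    ∃ P : Z →ₗ[F2] (Fin ρ → F2), Function.Surjective (P ∘ₗ T) := by
  let b := Module.finBasis F2 (LinearMap.range T)
  obtain ⟨P, hP⟩ := LinearMap.exists_extend
    ((LinearMap.funLeft F2 F2 (Fin.castLE h)) ∘ₗ b.equivFun.toLinearMap)
  refine ⟨P, fun y => ?_⟩
  obtain ⟨y', hy'⟩ := LinearMap.funLeft_surjective_of_injective F2 F2 _
    (Fin.castLE_injective h) y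
  obtain ⟨⟨_, x, rfl⟩, hx⟩ := b.equivFun.surjective y'
  refine ⟨x, ?_⟩
  have := LinearMap.congr_fun hP ⟨T x, x, rfl⟩
  simp only [LinearMap.comp_apply, Submodule.subtype_apply, LinearEquiv.coe_coe] at this ⊢
  rw [this, hx, hy']

section field

variable {F : Type} [Field F] [Algebra F2 F]

/-- The quadratic map. -/
def Q (x : Fin 3 → F) : Fin 3 → F := ![x 1 * x 2, x 0 * x 2, x 0 * x 1]

/-- The cross product in characteristic two. -/
def cr (a x : Fin 3 → F) : Fin 3 → F :=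
  ![a 1 * x 2 + a 2 * x 1, a 0 * x 2 + a 2 * x 0, a 0 * x 1 + a 1 * x 0]

lemma Q_add (x a : Fin 3 → F) (l : F) : Q (x + l • a) = Q x + l ^ 2 • Q a + cr a (l • x) := by
  funext i; fin_cases i <;> simp [Q, cr] <;> ring

lemma cr_add (a x y : Fin 3 → F) : cr a (x + y) = cr a x + cr a y := by
  funext i; fin_cases i <;> simp [cr] <;> ring

lemma cr_zero (a : Fin 3 → F) : cr a 0 = 0 := by
  funext i; fin_cases i <;> simp [cr]

lemma zero_cr (a : Fin 3 → F) : cr 0 a = 0 := by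
  funext i; fin_cases i <;> simp [cr]

lemma cr_smul_self (a : Fin 3 → F) (l : F) : cr a (l • a) = 0 := by
  funext i
  fin_cases i
  · simp only [cr, Pi.smul_apply, smul_eq_mul, Fin.zero_eta, Matrix.cons_val_zero, Pi.zero_apply]
    linear_combination add_self' (l * (a 1 * a 2))
  · simp only [cr, Pi.smul_apply, smul_eq_mul, Fin.mk_one, Matrix.cons_val_one,
      Matrix.cons_val_zero, Pi.zero_apply]
    linear_combination add_self' (l * (a 0 * a 2))
  · simp only [cr, Pi.smul_apply, smul_eq_mul, Fin.reduceFinMk, Matrix.cons_val, Pi.zero_apply]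
    linear_combination add_self' (l * (a 0 * a 1))

lemma dot_cr (b a u : Fin 3 → F) : b ⬝ᵥ cr a u = cr a b ⬝ᵥ u := by
  simp [cr, dotProduct, Fin.sum_univ_three]; ring

lemma par_of_cr {a b : Fin 3 → F} (ha : a ≠ 0) (h : cr a b = 0) : ∃ s : F, b = s • a := by
  have h0 : a 1 * b 2 = a 2 * b 1 := eq_of_add (congrFun h 0)
  have h1 : a 0 * b 2 = a 2 * b 0 := eq_of_add (congrFun h 1)
  have h2 : a 0 * b 1 = a 1 * b 0 := eq_of_add (congrFun h 2)
  obtain ⟨i, hi⟩ := Function.ne_iff.mp ha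
  refine ⟨b i / a i, funext fun j => ?_⟩
  have hi' : a i ≠ 0 := hi
  rw [Pi.smul_apply, smul_eq_mul, div_mul_eq_mul_div, eq_div_iff hi']
  fin_cases i <;> fin_cases j <;> simp only [Fin.zero_eta, Fin.mk_one, Fin.reduceFinMk] <;>
    first | rfl | linear_combination h0 | linear_combination -h0 | linear_combination h1
          | linear_combination -h1 | linear_combination h2 | linear_combination -h2

lemma dot_Q (a : Fin 3 → F) (s : F) : a ⬝ᵥ Q (s • a) = s ^ 2 * ∏ j, a j := by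
  have h := add_self' (s ^ 2 * (a 0 * a 1 * a 2))
  simp only [Q, dotProduct, Fin.sum_univ_three, Fin.prod_univ_three, Pi.smul_apply, smul_eq_mul,
    Matrix.cons_val_zero, Matrix.cons_val_one, Matrix.cons_val]
  linear_combination h

lemma add_sq' (x y : F) : (x + y) ^ 2 = x ^ 2 + y ^ 2 := by
  linear_combination add_self' (x * y)

/-- Squaring as a linear map. -/
def sqL : F →ₗ[F2] F :=
  AddMonoidHom.toZModLinearMap 2 (AddMonoidHom.mk' (fun x => x ^ 2) add_sq')

lemma sqL_apply (x : F) : sqL x = x ^ 2 := rfl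

lemma sq_surj [Finite F] : Function.Surjective fun x : F => x ^ 2 := by
  refine Finite.injective_iff_surjective.mp fun x y h => eq_of_add ?_
  have h1 : x ^ 2 = y ^ 2 := h
  exact pow_eq_zero_iff (two_ne_zero) |>.mp (by rw [add_sq', h1, add_self'])

/-- The functional attached to a vector. -/
def fn (ψ : F →ₗ[F2] F2) (a : Fin 3 → F) : (Fin 3 → F) →ₗ[F2] F2 :=
  AddMonoidHom.toZModLinearMap 2 (AddMonoidHom.mk' (fun x => ψ (a ⬝ᵥ x)) fun x y => by
    rw [dotProduct_add, map_add])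

lemma fn_apply (ψ : F →ₗ[F2] F2) (a x : Fin 3 → F) : fn ψ a x = ψ (a ⬝ᵥ x) := rfl

lemma scalar_zero {ψ : F →ₗ[F2] F2} (hψ : ψ ≠ 0) {s : F} (h : ∀ y, ψ (s * y) = 0) : s = 0 := by
  by_contra hs
  refine hψ (LinearMap.ext fun y => ?_)
  rw [← mul_div_cancel₀ y hs, h]; rfl

lemma vec_zero {ψ : F →ₗ[F2] F2} (hψ : ψ ≠ 0) {a : Fin 3 → F} (h : ∀ x, ψ (a ⬝ᵥ x) = 0) :
    a = 0 := funext fun i => scalar_zero hψ fun y => by simpa using h (Pi.single i y)

lemma exists_rep [Finite F] {ψ : F →ₗ[F2] F2} (hψ : ψ ≠ 0) (φ : (Fin 3 → F) →ₗ[F2] F2) :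
    ∃ a, ∀ x, φ x = ψ (a ⬝ᵥ x) := by
  let β : (Fin 3 → F) →ₗ[F2] Module.Dual F2 (Fin 3 → F) :=
    AddMonoidHom.toZModLinearMap 2 (AddMonoidHom.mk' (fn ψ) fun a b => LinearMap.ext fun x => by
      rw [LinearMap.add_apply, fn_apply, fn_apply, fn_apply, add_dotProduct, map_add])
  have h1 : Function.Injective β := (injective_iff_map_eq_zero β).mpr fun a ha =>
    vec_zero hψ fun x => LinearMap.congr_fun ha x
  obtain ⟨a, ha⟩ := (LinearMap.injective_iff_surjective_of_finrank_eq_finrank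
    (Subspace.dual_finrank_eq (K := F2) (V := Fin 3 → F)).symm).mp h1 φ
  exact ⟨a, fun x => (LinearMap.congr_fun ha x).symm⟩

lemma exists_psi : ∃ ψ : F →ₗ[F2] F2, ψ ≠ 0 := by
  by_contra h
  push Not at h
  exact one_ne_zero ((Module.forall_dual_apply_eq_zero_iff F2 (1 : F)).mp fun φ => by
    rw [h φ]; rfl)

lemma psi_sq_ne [Finite F] {ψ : F →ₗ[F2] F2} (hψ : ψ ≠ 0) : ψ ∘ₗ sqL ≠ 0 := fun h =>
  hψ (LinearMap.ext fun y => by
    obtain ⟨x, rfl⟩ := sq_surj y
    exact LinearMap.congr_fun h x)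

/-- Combination of the rows. -/
def comb {ρ : ℕ} (c : Fin ρ → F2) (a : Fin ρ → Fin 3 → F) : Fin 3 → F := ∑ i, c i • a i

lemma comb_add {ρ : ℕ} (c : Fin ρ → F2) (a b : Fin ρ → Fin 3 → F) :
    comb c (a + b) = comb c a + comb c b := by
  simp only [comb, Pi.add_apply, smul_add, sum_add_distrib]

lemma comb_smul {ρ : ℕ} (c v : Fin ρ → F2) (y : Fin 3 → F) :
    comb c (fun i => v i • y) = (c ⬝ᵥ v) • y := by
  simp only [comb, smul_smul, dotProduct, sum_smul]

lemma dot_rep {ρ : ℕ} (ψ : F →ₗ[F2] F2) (c : Fin ρ → F2) (a : Fin ρ → Fin 3 → F)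
    (x : Fin 3 → F) : (c ⬝ᵥ fun i => ψ (a i ⬝ᵥ x)) = ψ (comb c a ⬝ᵥ x) := by
  rw [comb, sum_dotProduct, map_sum, dotProduct]
  refine sum_congr rfl fun i _ => ?_
  rw [smul_dotProduct, map_smul, smul_eq_mul]

variable [Fintype F] [DecidableEq F]

lemma card_K : (Fintype.card (Fin 3 → F) : ℝ) = (Fintype.card F : ℝ) ^ 3 := by simp

lemma ex_zero : 𝔼 a : Fin 3 → F, ind (a = 0) = 1 / (Fintype.card F : ℝ) ^ 3 := by
  rw [ex_ind, card_K, Finset.filter_eq', if_pos (mem_univ _), card_singleton, Nat.cast_one]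

lemma ex_line {a : Fin 3 → F} (ha : a ≠ 0) :
    𝔼 u : Fin 3 → F, ind (∃ s : F, u = s • a) = 1 / (Fintype.card F : ℝ) ^ 2 := by
  have hq : (Fintype.card F : ℝ) ≠ 0 := Nat.cast_ne_zero.mpr Fintype.card_ne_zero
  have h1 : (univ.filter fun u : Fin 3 → F => ∃ s : F, u = s • a) =
      univ.image fun s : F => s • a := by
    ext u; simp [eq_comm]
  rw [ex_ind, card_K, h1, card_image_of_injective _ (smul_left_injective F ha), card_univ]
  field_simp

lemma ex_cr (a : Fin 3 → F) :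
    1 / (Fintype.card F : ℝ) ^ 2 ≤ 𝔼 u : Fin 3 → F, ind (cr a u = 0) := by
  by_cases ha : a = 0
  · have hq : (1 : ℝ) ≤ Fintype.card F := Nat.one_le_cast.mpr Fintype.card_pos
    simp only [ha, zero_cr, ind_pos, Fintype.expect_const]
    rw [div_le_one (by positivity)]
    exact one_le_pow₀ hq
  · rw [← ex_line ha]
    exact ex_mono fun u => ind_mono fun ⟨s, hs⟩ => hs ▸ cr_smul_self a s

lemma ex_comb {ρ : ℕ} {c : Fin ρ → F2} (hc : c ≠ 0) (f : (Fin 3 → F) → ℝ) :
    𝔼 a : Fin ρ → Fin 3 → F, f (comb c a) = 𝔼 y, f y := by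
  obtain ⟨v, hv, -⟩ := exists_sep hc hc
  exact ex_hom (comb_add c) (fun y => ⟨fun i => v i • y, by rw [comb_smul, hv, one_smul]⟩) f

lemma ex_comb2 {ρ : ℕ} {c c' : Fin ρ → F2} (hc : c ≠ 0) (hc' : c' ≠ 0) (h : c ≠ c')
    (f f' : (Fin 3 → F) → ℝ) :
    𝔼 a : Fin ρ → Fin 3 → F, f (comb c a) * f' (comb c' a) = (𝔼 y, f y) * 𝔼 y, f' y := by
  obtain ⟨v, hv, hv'⟩ := exists_sep hc h
  obtain ⟨w, hw, hw'⟩ := exists_sep hc' h.symm
  have h1 := ex_hom (φ := fun a : Fin ρ → Fin 3 → F => (comb c a, comb c' a))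
    (fun a b => by rw [comb_add, comb_add]; rfl) (fun y => ⟨(fun i => v i • y.1) + fun i => w i • y.2,
      by simp only [comb_add, comb_smul, hv, hv', hw, hw', one_smul, zero_smul, add_zero,
        zero_add]⟩) fun y => f y.1 * f' y.2
  rw [h1, ex_prod]
  simp only [ex_mul, ex_mul']

end field

end Gad

end Vale.Agent.P325
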