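import Vale.Agent.P325.Four

/-! Analysis of the three-query long code test, and derandomisation of random labellings. -/

namespace Vale.Agent.P325.Lin

open Finset
open scoped BigOperators

set_option linter.unusedSectionVars false

/-- Choosing the best label at each vertex. -/
lemma best {E Λ : Type} [Fintype E] [Fintype Λ] [Nonempty Λ] (u : E → ℕ) {w : ℕ → Λ → ℝ} {K : ℝ}
    (w0 : ∀ x l, 0 ≤ w x l) (w1 : ∀ x, ∑ l, w x l ≤ K) {f : E → Λ → ℝ} (f0 : ∀ e l, 0 ≤ f e l) :
    ∃ A : ℕ → Λ, ∑ e, ∑ l, w (u e) l * f e l ≤ K * ∑ e, f e (A (u e)) := by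
  choose A hA using fun x => Finite.exists_max fun l => ∑ e with u e = x, f e l
  have m : ∀ e ∈ univ, u e ∈ univ.image u := fun e => mem_image_of_mem u
  refine ⟨A, ?_⟩
  rw [← sum_fiberwise_of_maps_to m, ← sum_fiberwise_of_maps_to m fun e => f e (A (u e)), mul_sum]
  refine sum_le_sum fun x _ => ?_
  calc _ = ∑ l, w x l * ∑ e with u e = x, f e l := by
        simp only [mul_sum]
        rw [sum_comm]
        exact sum_congr rfl fun l _ => sum_congr rfl fun e he => by rw [(mem_filter.1 he).2]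
    _ ≤ (∑ l, w x l) * ∑ e with u e = x, f e (A x) := by
        rw [sum_mul]
        exact sum_le_sum fun l _ => mul_le_mul_of_nonneg_left (hA x l) (w0 x l)
    _ ≤ K * ∑ e with u e = x, f e (A x) :=
        mul_le_mul_of_nonneg_right (w1 x) (sum_nonneg fun _ _ => f0 _ _)
    _ = _ := congrArg _ (sum_congr rfl fun e he => by rw [(mem_filter.1 he).2])

variable {L R : Type} [Fintype L] [Fintype R] [DecidableEq L] [DecidableEq R] {P : ℕ}

/-- The randomness of the test. -/
abbrev Tst (L R : Type) (P : ℕ) := F2 × (R → F2) × (L → Fin (P + 2)) × (L → F2)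

/-- The noise vector. -/
def noise (ρ : L → Fin (P + 2)) : L → F2 := fun s => if ρ s = 0 then 1 else 0

/-- The query to the right table. -/
def q0 (x : Tst L R P) : R → F2 := x.2.1 + fun _ => x.1

/-- The second query to the left table. -/
def q2 (π : L → R) (x : Tst L R P) : L → F2 := x.2.2.2 + (x.2.1 ∘ π + noise x.2.2.1)

/-- Projection of a set modulo two. -/
def push (π : L → R) (S : L → F2) : R → F2 := fun t => ∑ s with π s = t, S s

/-- The damping factor of the noise. -/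
noncomputable def th (P : ℕ) (S : L → F2) : ℝ := ((P : ℝ) / (P + 2)) ^ #{s | S s ≠ 0}

lemma chi_push (π : L → R) (S : L → F2) (ψ : R → F2) : chi S (ψ ∘ π) = chi (push π S) ψ := by
  refine congrArg sgn ?_
  change ∑ s, S s * ψ (π s) = ∑ t, (∑ s with π s = t, S s) * ψ t
  rw [← sum_fiberwise univ π]
  refine sum_congr rfl fun t _ => ?_
  rw [sum_mul]
  exact sum_congr rfl fun s hs => by rw [(mem_filter.1 hs).2]

lemma ex_noise (S : L → F2) : 𝔼 ρ : L → Fin (P + 2), chi S (noise ρ) = th P S := by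
  change 𝔼 ρ : L → Fin (P + 2), sgn (∑ s, S s * if ρ s = 0 then 1 else 0) = _
  simp only [sgn_sum]
  rw [ex_pi_prod fun s (r : Fin (P + 2)) => sgn (S s * if r = 0 then 1 else 0), th, ← prod_const,
    prod_filter]
  refine prod_congr rfl fun s _ => ?_
  rcases F2.cases (S s) with h | h
  · simp [h]
  · rw [h, ex_eq, Fin.sum_univ_succ]
    simp

lemma bias_eq (π : L → R) (a a' : (L → F2) → ℝ) (b : (R → F2) → ℝ) :
    𝔼 x : Tst L R P, sgn x.1 * b (q0 x) * (a x.2.2.2 * a' (q2 π x)) = ∑ S, hat a' S * (hat a S *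
      th P S * 𝔼 c : F2, sgn c * (hat b (push π S) * chi (push π S) fun _ => c)) := by
  have h1 : ∀ w, 𝔼 φ, a φ * a' (φ + w) = ∑ S, hat a S * (hat a' S * chi S w) := fun w => by
    rw [plancherel a fun φ => a' (φ + w)]
    simp only [hat_shift]
  have h2 : ∀ T w, 𝔼 ψ, b (ψ + w) * chi T ψ = hat b T * chi T w := fun T w => hat_shift b w T
  have h3 : ∀ x y z u v w : ℝ, x * y * (z * (u * (v * w))) = u * (z * w * (x * (y * v))) :=
    fun _ _ _ _ _ _ => by ring
  simp only [ex_prod, q0, q2, ex_mul, h1, chi_add, chi_push]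
  simp only [mul_sum, ex_sum]
  simp only [ex_mul, ex_noise]
  simp only [h3, ex_mul, h2]

/-- Left weights. -/
noncomputable def wl (P : ℕ) (a : (L → F2) → ℝ) (s : L) : ℝ :=
  ∑ S, (hat a S * th P S) ^ 2 * ind (S s ≠ 0)

/-- Right weights. -/
noncomputable def wr [Nonempty R] (b : (R → F2) → ℝ) (t : R) : ℝ :=
  ∑ T, hat b T ^ 2 * ind (Classical.epsilon (T · ≠ 0) = t)

lemma wl_nonneg (a : (L → F2) → ℝ) (s : L) : 0 ≤ wl P a s :=
  sum_nonneg fun _ _ => mul_nonneg (sq_nonneg _) (ind_nonneg _)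

lemma wr_nonneg [Nonempty R] (b : (R → F2) → ℝ) (t : R) : 0 ≤ wr b t :=
  sum_nonneg fun _ _ => mul_nonneg (sq_nonneg _) (ind_nonneg _)

lemma sum_hat (a : (L → F2) → F2) : ∑ S, hat (fun x => sgn (a x)) S ^ 2 = 1 := by
  simp only [← parseval, sgn_sq, Fintype.expect_const]

lemma sum_wr [Nonempty R] (b : (R → F2) → F2) : ∑ t, wr (fun x => sgn (b x)) t ≤ 1 := by
  simp only [wr]
  rw [sum_comm]
  simp [ind_eq_ite, sum_hat]

lemma exists_wl (P : ℕ) : ∃ K : ℝ, 0 < K ∧ ∀ (L : ℕ) (a : (Fin L → F2) → F2),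
    ∑ s, wl P (fun x => sgn (a x)) s ≤ K := by
  have h : (P : ℝ) / (P + 2) < 1 := by rw [div_lt_one (by positivity)]; linarith
  obtain ⟨K, hK⟩ := (tendsto_self_mul_const_pow_of_lt_one (sq_nonneg _)
    (pow_lt_one₀ (by positivity) h two_ne_zero)).bddAbove_range
  refine ⟨max K 1, by positivity, fun L a => le_trans ?_ (le_max_left _ _)⟩
  simp only [wl]
  rw [sum_comm, ← one_mul K, ← sum_hat a, sum_mul]
  refine sum_le_sum fun S _ => ?_
  rw [← mul_sum, mul_pow, mul_assoc]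
  refine mul_le_mul_of_nonneg_left (le_trans (le_of_eq ?_) (hK ⟨#{s | S s ≠ 0}, rfl⟩)) (sq_nonneg _)
  simp only [th, ind_eq_ite, sum_boole, pow_right_comm _ 2, mul_comm]

lemma bias_sq [Nonempty R] (π : L → R) (a a' : (L → F2) → F2) (b : (R → F2) → F2) :
    (𝔼 x : Tst L R P, sgn (b (q0 x) + a x.2.2.2 + a' (q2 π x) + x.1)) ^ 2 ≤
      ∑ s, wl P (fun x => sgn (a x)) s * wr (fun x => sgn (b x)) (π s) := by
  have h : ∀ x y z u : ℝ, x * y * z * u = u * x * (y * z) := fun _ _ _ _ => by ring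
  simp only [sgn_add, h]
  rw [bias_eq π (fun x => sgn (a x)) (fun x => sgn (a' x)) fun x => sgn (b x)]
  refine (sum_mul_sq_le_sq_mul_sq _ _ _).trans ?_
  simp only [sum_hat, one_mul, wl, sum_mul]
  rw [sum_comm]
  refine sum_le_sum fun S _ => ?_
  simp only [mul_assoc (_ ^ 2), ← mul_sum, mul_pow _ (𝔼 c : F2, _)]
  refine mul_le_mul_of_nonneg_left ?_ (sq_nonneg _)
  have n : ∀ s ∈ univ, 0 ≤ ind (S s ≠ 0) * wr (fun x => sgn (b x)) (π s) :=
    fun _ _ => mul_nonneg (ind_nonneg _) (wr_nonneg _ _)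
  by_cases h0 : push π S = 0
  · have : 𝔼 c : F2, sgn c = 0 := by simpa [chi, Pairing.B, ind] using ex_chi (1 : F2)
    simpa [h0, ex_mul', this] using sum_nonneg n
  · obtain ⟨s, hs, h1⟩ := exists_ne_zero_of_sum_ne_zero
      (Classical.epsilon_spec (p := (push π S · ≠ 0)) (Function.ne_iff.1 h0))
    refine (ex_sq_le _).trans (le_trans ?_ (single_le_sum n (mem_univ s)))
    simp only [mul_pow, sgn_sq, chi_sq, one_mul, mul_one, Fintype.expect_const, ind_pos h1, wr]
    refine le_trans (le_of_eq ?_) (single_le_sum (f := fun T => _ ^ 2 * ind _)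
      (fun _ _ => mul_nonneg (sq_nonneg _) (ind_nonneg _)) (mem_univ (push π S)))
    rw [ind_pos (mem_filter.1 hs).2.symm, mul_one]

end Vale.Agent.P325.Lin
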