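import Vale.Agent.P325.Code
import Vale.Agent.P325.Lin3A
import Vale.Agent.Lib.PCP.Main

/-! Hardness of linear equations with three variables. -/

namespace Vale.Agent.P325

open Finset Vale.Agent.Lib.TM Vale.Agent.Lib.PCP
open scoped BigOperators

namespace Lin

variable {L R P : ℕ} (d : Fin R)

/-- The projection of a constraint. -/
def prj (e : ℕ × ℕ × List ℕ) (s : Fin L) : Fin R :=
  if h : e.2.2.getD s 0 < R then ⟨_, h⟩ else d

/-- The equation tested on a constraint. -/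
noncomputable def eqn (e : ℕ × ℕ × List ℕ) (x : Tst (Fin L) (Fin R) P) : Eqn :=
  (Nat.pair e.2.1 (num (q0 x)), Nat.pair e.1 (num x.2.2.2), Nat.pair e.1 (num (q2 (prj d e) x)),
    decide (x.1 = 1))

lemma ct_eqn (x : Tst (Fin L) (Fin R) P) : CT 0 fun e => eqn d e x :=
  (ct_pair CT.id.snd.fst (CT.const _)).mk ((ct_pair CT.id.fst (CT.const _)).mk
    ((ct_pair CT.id.fst (CTF.pi (c := prj d) (fun s => CTF.fin (CT.id.snd.snd.getD
      (CT.const (s : ℕ)) (CT.const 0)) d) ℕ fun π => num (q2 π x))).mk (CT.const _)))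

lemma eqn_ok (σ : Fin 3 → ℕ → F2) (e : ℕ × ℕ × List ℕ) (x : Tst (Fin L) (Fin R) P) :
    (eqn d e x).Ok σ ↔ σ 0 (Nat.pair e.2.1 (num (q0 x))) + σ 1 (Nat.pair e.1 (num x.2.2.2)) +
      σ 2 (Nat.pair e.1 (num (q2 (prj d e) x))) + x.1 = 0 := by
  have : (eqn d e x).rhs = x.1 := by
    rcases F2.cases x.1 with h | h <;> simp [Eqn.rhs, eqn, h]
  rw [add_eq_zero_iff, Eqn.Ok, Fin.sum_univ_three, this]
  rfl

lemma prj_val {G : LC} (h : G.WF L R) {e : ℕ × ℕ × List ℕ} (he : e ∈ G.2.2) (s : Fin L) :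
    (prj d e s : ℕ) = e.2.2.getD s 0 := by
  obtain ⟨-, -, h1, h2⟩ := h.2 e he
  have : (s : ℕ) < e.2.2.length := h1 ▸ s.2
  rw [prj, dif_pos (by rw [List.getD_eq_getElem _ _ this]; exact h2 _ (List.getElem_mem _))]

/-- The system of equations of a projection game. -/
noncomputable def sys (L P : ℕ) (G : LC) : List Eqn :=
  G.2.2.flatMap fun e => (univ : Finset (Tst (Fin L) (Fin R) P)).toList.map (eqn d e)

/-- Long codes. -/
noncomputable def dict {n : ℕ} (A : ℕ → Fin n) (v : ℕ) : F2 :=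
  Function.invFun (num : (Fin n → F2) → ℕ) v.unpair.2 (A v.unpair.1)

lemma dict_pair {n : ℕ} (A : ℕ → Fin n) (u : ℕ) (φ : Fin n → F2) :
    dict A (Nat.pair u (num φ)) = φ (A u) := by
  rw [dict, Nat.unpair_pair, Function.leftInverse_invFun fun _ _ => num_inj.1]

lemma sys_complete {G : LC} (h : G.WF L R) (hG : G.Perfect L R) :
    ∃ σ, 𝔼 i, ind (¬ ((sys d L P G).get i).Ok σ) ≤ 1 / (P + 2) := by
  obtain ⟨A, B, hA, hB, hG⟩ := hG
  have : Nonempty (Fin G.2.2.length) := ⟨⟨0, List.length_pos_iff.2 h.1⟩⟩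
  refine ⟨![dict fun v => ⟨B v, hB v⟩, dict fun u => ⟨A u, hA u⟩, dict fun u => ⟨A u, hA u⟩], ?_⟩
  rw [sys, ex_flat _ _ fun q : Eqn => ind (¬ q.Ok _)]
  refine ex_le fun i => ?_
  have hi := List.get_mem G.2.2 i
  generalize G.2.2.get i = e at hi ⊢
  have k : prj d e ⟨A e.1, hA _⟩ = ⟨B e.2.1, hB _⟩ := Fin.ext ((prj_val d h hi _).trans (hG e hi))
  refine (ex_mono (g := fun x : Tst (Fin L) (Fin R) P => ind (x.2.2.1 ⟨A e.1, hA _⟩ = 0))
    fun x => ind_mono fun hx => by_contra fun h0 => hx ?a).trans (le_of_eq ?b)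
  case a =>
    rw [eqn_ok]
    simp only [Matrix.cons_val, dict_pair]
    simp only [q0, q2, noise, Pi.add_apply, Function.comp, k, if_neg h0]
    generalize x.2.1 _ = a, x.2.2.2 _ = b, x.1 = c
    revert a b c
    decide
  case b =>
    simp only [ex_prod, Fintype.expect_const]
    rw [ex_eval _ fun r : Fin (P + 2) => ind (r = 0), ex_ind]
    simp [filter_eq']

lemma sys_sound (hL : 0 < L) {K : ℝ} (hK0 : 0 < K)
    (hK : ∀ a : (Fin L → F2) → F2, ∑ s, wl P (fun x => sgn (a x)) s ≤ K) {G : LC} (h : G.WF L R)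
    (hG : G.ValLe L (1 / (4 * K))) (σ : Fin 3 → ℕ → F2) :
    𝔼 i, ind (((sys d L P G).get i).Ok σ) ≤ 3 / 4 := by
  have h0 : 0 < G.2.2.length := List.length_pos_iff.2 h.1
  have : Nonempty (Fin G.2.2.length) := ⟨⟨0, h0⟩⟩
  have : Nonempty (Fin L) := ⟨⟨0, hL⟩⟩
  have : Nonempty (Fin R) := ⟨d⟩
  let wL : ℕ → Fin L → ℝ := fun u => wl P fun x => sgn (σ 1 (Nat.pair u (num x)))
  let wR : ℕ → Fin R → ℝ := fun v => wr fun x => sgn (σ 0 (Nat.pair v (num x)))
  obtain ⟨A, hA⟩ := best (fun i => (G.2.2.get i).1) (w := wL) (fun _ => wl_nonneg _)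
    (fun _ => hK _) (f := fun i s => wR (G.2.2.get i).2.1 (prj d (G.2.2.get i) s))
    fun _ _ => wr_nonneg _ _
  obtain ⟨B, hB⟩ := best (fun i => (G.2.2.get i).2.1) (w := wR) (fun _ => wr_nonneg _)
    (fun _ => sum_wr _) (f := fun i t => ind (prj d (G.2.2.get i) (A (G.2.2.get i).1) = t))
    fun _ _ => ind_nonneg _
  have h1 := hG (fun u => A u) (fun v => B v) fun u => (A u).2
  rw [LC.good, countP_eq, ← sum_get] at h1
  simp only [beq_iff_eq, ← prj_val d h (List.get_mem _ _), Fin.val_inj] at h1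
  have h2 : ∀ (v : ℕ) (t : Fin R), ∑ l, wR v l * ind (t = l) = wR v t := fun v t => by
    simp [ind_eq_ite]
  simp only [h2, one_mul] at hB
  rw [sys, ex_flat _ _ fun q : Eqn => ind (q.Ok σ)]
  simp only [eqn_ok, ind_eq_zero, div_eq_mul_inv, ex_mul', ex_add, Fintype.expect_const]
  have h3 := fun i : Fin G.2.2.length => bias_sq (P := P) (L := Fin L) (prj d (G.2.2.get i))
    (fun x => σ 1 (Nat.pair (G.2.2.get i).1 (num x)))
    (fun x => σ 2 (Nat.pair (G.2.2.get i).1 (num x)))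
    fun x => σ 0 (Nat.pair (G.2.2.get i).2.1 (num x))
  replace h3 := (ex_sq_le _).trans (ex_mono h3)
  have h4 : K * (1 / (4 * K) * G.2.2.length) / Fintype.card (Fin G.2.2.length) = (1 / 2) ^ 2 := by
    rw [Fintype.card_fin]
    field_simp
    norm_num
  rw [ex_eq fun i => ∑ s, _] at h3
  have := (abs_le_of_sq_le_sq' (h3.trans ((div_le_div_of_nonneg_right (hA.trans
    (mul_le_mul_of_nonneg_left (hB.trans h1) hK0.le)) (Nat.cast_nonneg _)).trans h4.le))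
    (by norm_num)).2
  linarith

end Lin

theorem lin3_hard {η : ℝ} (hη : 0 < η) : ∃ red : CNF3 → List Eqn, CT 0 red ∧ ∀ φ, red φ ≠ [] ∧
    (Sat φ → ∃ σ, 𝔼 i, ind (¬ ((red φ).get i).Ok σ) ≤ η) ∧
    (¬ Sat φ → ∀ σ, 𝔼 i, ind (((red φ).get i).Ok σ) ≤ 3 / 4) := by
  obtain ⟨P, hP⟩ := exists_nat_one_div_lt hη
  obtain ⟨K, hK0, hK⟩ := Lin.exists_wl P
  obtain ⟨L, R, dU, dV, lc, hL, -, -, hc, h⟩ := labelCover_hard (δ := 1 / (4 * K)) (by positivity)
  obtain ⟨e, he⟩ := List.exists_mem_of_ne_nil _ (h []).1.1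
  obtain ⟨-, -, h1, h2⟩ := (h []).1.2 e he
  let d : Fin R := ⟨_, h2 _ (List.getElem_mem (h1 ▸ hL))⟩
  refine ⟨fun φ => Lin.sys d L P (lc φ), CT.flatMap (f := fun _ e => List.map (Lin.eqn d e) _)
    (ct_mapConst (f := fun (a : CNF3 × ℕ × ℕ × List ℕ) x => Lin.eqn d a.2 x) _ fun x =>
      (Lin.ct_eqn d x).comp CT.id.snd) hc.snd.snd, fun φ => ⟨?_, fun hs => ?_,
    fun hs => Lin.sys_sound d hL hK0 (hK L) (h φ).1 ((h φ).2.2.2 hs)⟩⟩
  · exact List.length_pos_iff.1 ((Nat.mul_pos (List.length_pos_iff.2 (h φ).1.1)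
      Fintype.card_pos).trans_eq (length_flat _ (Lin.eqn d)).symm)
  · refine (Lin.sys_complete d (h φ).1 ((h φ).2.2.1 hs)).imp fun σ hσ => hσ.trans (le_trans ?_ hP.le)
    gcongr
    norm_num

end Vale.Agent.P325
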