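import Vale.Agent.P325.Four

/-! The abstract unique game built from a system of linear equations. -/

namespace Vale.Agent.P325

open Finset Matrix
open scoped BigOperators

/-- An equation: three variables and the right-hand side. -/
abbrev Eqn := ℕ × ℕ × ℕ × Bool

/-- The variables of an equation. -/
def Eqn.var (e : Eqn) : Fin 3 → ℕ := ![e.1, e.2.1, e.2.2.1]

/-- The right-hand side. -/
def Eqn.rhs (e : Eqn) : F2 := if e.2.2.2 then 1 else 0

/-- The equation holds; the assignment may depend on the position. -/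
def Eqn.Ok (σ : Fin 3 → ℕ → F2) (e : Eqn) : Prop := ∑ j, σ j (e.var j) = e.rhs

/-- Parameters of the construction. -/
structure Par where
  d : ℕ
  m : ℕ
  n : ℕ
  N : ℕ
  J : Fin (N + 1) → Matrix (Fin n) (Fin d ⊕ Fin m) F2
  P : ℕ
  k : ℕ

namespace Par

variable (p : Par)

/-- The alphabet. -/
abbrev A := Fin p.d → F2

/-- The latent space. -/
abbrev Y := Fin p.d ⊕ Fin p.m → F2

/-- Tables: one latent vector per variable slot. -/
abbrev Mat := Matrix (Fin p.k × Fin 3) (Fin p.d ⊕ Fin p.m) F2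

/-- A coin, a position and three latent vectors. -/
abbrev Blk := Fin (p.P + 1) × Fin 3 × (Fin 3 → p.Y)

/-- What the second prover sees of one equation. -/
abbrev View := (Fin 3 × ℕ × p.Y) ⊕ (Eqn × (Fin 3 → p.Y))

/-- Vertices. -/
abbrev Vtx := ((Fin p.k → Eqn) × p.Mat) ⊕ (Fin p.k → p.View)

/-- The randomness of the test, apart from the equations. -/
abbrev Rnd := ((Fin p.k → p.Blk) × (Fin p.k → p.A)) × Fin (p.N + 1) ×
  Matrix (Fin p.k × Fin 3) (Fin p.n) F2

/-- If the coin is zero only one vector is kept. -/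
def mask (b : p.Blk) : Fin 3 → p.Y := if b.1 = 0 then Pi.single b.2.1 (b.2.2 b.2.1) else b.2.2

/-- If the coin is zero only one variable is seen. -/
def view (e : Eqn) (b : p.Blk) : p.View :=
  if b.1 = 0 then .inl (b.2.1, e.var b.2.1, b.2.2 b.2.1) else .inr (e, b.2.2)

/-- The masked table, shifted along the equations. -/
def mat (x : (Fin p.k → p.Blk) × (Fin p.k → p.A)) : p.Mat :=
  Matrix.of fun i => p.mask (x.1 i.1) i.2 + inA (x.2 i.1)

/-- The vertex of the first prover. -/
def vU (es : Fin p.k → Eqn) (ξ : p.Rnd) : p.Vtx := .inl (es, p.mat ξ.1 + ξ.2.2 * p.J ξ.2.1)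

/-- The vertex of the second prover. -/
def vV (es : Fin p.k → Eqn) (b : Fin p.k → p.Blk) : p.Vtx := .inr fun i => p.view (es i) (b i)

/-- The translation. -/
def shift (es : Fin p.k → Eqn) (t : Fin p.k → p.A) : p.A := ∑ i, (es i).rhs • t i

/-- The fraction of satisfied constraints. -/
noncomputable def acc {E : Type} [Fintype E] (q : E → Eqn) (lab : p.Vtx → p.A) : ℝ :=
  𝔼 e : Fin p.k → E, 𝔼 ξ : p.Rnd,
    ind (lab (p.vU (q ∘ e) ξ) = lab (p.vV (q ∘ e) ξ.1.1) + p.shift (q ∘ e) ξ.1.2)

end Par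

end Vale.Agent.P325
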