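import Vale.Agent.P325.Four
import Vale.Agent.Lib.PCP.ParRep

/-! Smooth parallel repetition: only the coordinates with coin zero are tested. -/

namespace Vale.Agent.P325

open Finset Vale.Agent.Lib.PCP
open scoped BigOperators

namespace Outer

variable {E U V L R E' U' V' L' R' : Type}

lemma col_equiv [Fintype E] [Fintype E'] (φ : E ≃ E') (G : Game E U V L R)
    (G' : Game E' U' V' L' R') (A : U → L) (A' : U' → L')
    (hv : ∀ e e', G.v e = G.v e' ↔ G'.v (φ e) = G'.v (φ e'))
    (hp : ∀ e e', G.π e (A (G.u e)) = G.π e' (A (G.u e')) ↔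
      G'.π (φ e) (A' (G'.u (φ e))) = G'.π (φ e') (A' (G'.u (φ e')))) : G.col A = G'.col A' := by
  unfold Game.col
  refine Fintype.sum_equiv φ _ _ fun e => ?_
  refine congrArg₂ (fun a b : ℕ => (a : ℝ) / b) ?_ ?_
  · exact Finset.card_equiv φ fun e' => by simp only [mem_filter, mem_univ, true_and, hv, hp]
  · exact Finset.card_equiv φ fun e' => by simp only [mem_filter, mem_univ, true_and, hv]

/-- The product of a family of games. -/
def piG {k : ℕ} (H : Fin k → Game E U V L R) :
    Game (Fin k → E) (Fin k → U) (Fin k → V) (Fin k → L) (Fin k → R) :=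
  ⟨fun e i => (H i).u (e i), fun e i => (H i).v (e i), fun e a i => (H i).π (e i) (a i)⟩

lemma piG_col [Fintype E] [Fintype L] [Nonempty L] [Nonempty R] :
    ∀ (k : ℕ) (H : Fin k → Game E U V L R) (δ : Fin k → ℝ), (∀ i, 0 ≤ δ i) → (∀ i, δ i ≤ 1) →
      (∀ i, (H i).ValLe (1 - δ i)) → (piG H).ColLe (∏ i, (1 - δ i ^ 2 / 25)) := by
  intro k
  induction k with
  | zero => intro H δ _ _ _; rw [Fin.prod_univ_zero]; exact Game.colLe_one _
  | succ k ih =>
    intro H δ h0 h1 hv A
    have h2 := Game.colLe_prod (h0 0) (h1 0) (prod_nonneg fun i _ => by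
      nlinarith [h0 i.succ, h1 i.succ]) (hv 0)
      (ih (fun i => H i.succ) (fun i => δ i.succ) (fun i => h0 _) (fun i => h1 _) fun i => hv _)
      fun w => (A (Fin.cons w.1 w.2) 0, fun i => A (Fin.cons w.1 w.2) i.succ)
    rw [Fin.prod_univ_succ, ← Fintype.card_congr (Fin.consEquiv fun _ : Fin (k + 1) => E)]
    refine le_trans (le_of_eq (col_equiv (Fin.consEquiv fun _ : Fin (k + 1) => E) _ _ _ _
      (fun e e' => ?_) fun e e' => ?_).symm) h2
    · simp only [Game.prod, piG, Prod.mk.injEq, funext_iff, Fin.forall_fin_succ, Fin.consEquiv,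
        Equiv.coe_fn_mk, Fin.cons_zero, Fin.cons_succ]
    · have h3 : ∀ x : E × (Fin k → E), (fun i => (H i).u (Fin.cons (α := fun _ => E) x.1 x.2 i)) =
          Fin.cons ((H 0).u x.1) fun i => (H i.succ).u (x.2 i) := fun x =>
        funext fun i => Fin.cases rfl (fun _ => rfl) i
      simp only [Game.prod, piG, Prod.mk.injEq, funext_iff, Fin.forall_fin_succ, Fin.consEquiv,
        Equiv.coe_fn_mk, Fin.cons_zero, Fin.cons_succ, h3]

/-- The game itself, or a trivial game in which the constraint is revealed. -/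
def opt (G : Game E U V L R) (b : Bool) : Game E (U ⊕ E) (V ⊕ E) L (Option R) :=
  ⟨fun e => bif b then .inl (G.u e) else .inr e, fun e => bif b then .inl (G.v e) else .inr e,
    fun e a => bif b then some (G.π e a) else none⟩

lemma opt_val [Fintype E] [Nonempty R] {G : Game E U V L R} {ε : ℝ} (hG : G.ValLe (1 - ε))
    (b : Bool) : (opt G b).ValLe (1 - bif b then ε else 0) := by
  classical
  intro A B
  cases b
  · simp only [cond_false, sub_zero, one_mul]
    exact_mod_cast card_le_univ _
  · refine le_trans ?_ (hG (fun u => A (.inl u))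
      fun v => (B (.inl v)).getD (Classical.arbitrary R))
    refine Nat.cast_le.mpr (card_le_card fun e he => ?_)
    simp only [mem_filter, mem_univ, true_and] at he ⊢
    have h1 : some (G.π e (A (.inl (G.u e)))) = B (.inl (G.v e)) := he
    rw [← h1]
    rfl

end Outer

open Outer in
theorem smooth_val {E U V L R : Type} [Fintype E] [Nonempty E] [Fintype L] [Nonempty L]
    [Nonempty R] (G : Game E U V L R) {ε : ℝ} (h0 : 0 ≤ ε) (h1 : ε ≤ 1) (hG : G.ValLe (1 - ε))
    (k P : ℕ) (A : (Fin k → Fin (P + 1) × E) → Fin k → L)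
    (B : (Fin k → Fin (P + 1) × E) → Fin k → R)
    (hA : ∀ x y, (∀ i, (x i).1 = (y i).1 ∧ ((x i).1 = 0 → G.u (x i).2 = G.u (y i).2) ∧
      ((x i).1 ≠ 0 → (x i).2 = (y i).2)) → A x = A y)
    (hB : ∀ x y, (∀ i, (x i).1 = (y i).1 ∧ ((x i).1 = 0 → G.v (x i).2 = G.v (y i).2) ∧
      ((x i).1 ≠ 0 → (x i).2 = (y i).2)) → B x = B y) :
    𝔼 x : Fin k → Fin (P + 1) × E, ind (∀ i, (x i).1 = 0 → G.π (x i).2 (A x i) = B x i) ≤
      (1 - ε ^ 2 / (50 * (P + 1))) ^ k := by
  classical
  set g : Fin (P + 1) → ℝ := fun b => 1 - (bif decide (b = 0) then ε else 0) ^ 2 / 50 with hg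
  have key : ∀ c : Fin k → Fin (P + 1), 𝔼 e : Fin k → E,
      ind (∀ i, c i = 0 → G.π (e i) (A (fun i => (c i, e i)) i) = B (fun i => (c i, e i)) i) ≤
      ∏ i, g (c i) := by
    intro c
    set H : Fin k → Game E (U ⊕ E) (V ⊕ E) L (Option R) := fun i => opt G (decide (c i = 0))
      with hH
    set δ : Fin k → ℝ := fun i => bif decide (c i = 0) then ε else 0 with hδ
    have hδ0 : ∀ i, 0 ≤ δ i := fun i => by
      simp only [hδ]; cases decide (c i = 0) <;> simp [h0]
    have hδ1 : ∀ i, δ i ≤ 1 := fun i => by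
      simp only [hδ]; cases decide (c i = 0) <;> simp [h1]
    have h2 := Game.valLe_of_colLe (prod_nonneg fun i _ => by nlinarith [hδ0 i, hδ1 i])
      (piG_col k H δ hδ0 hδ1 fun i => opt_val hG _)
    have h3 : √(∏ i, (1 - δ i ^ 2 / 25)) ≤ ∏ i, g (c i) := by
      refine Real.sqrt_le_iff.mpr ⟨prod_nonneg fun i _ => ?_, ?_⟩
      · show 0 ≤ 1 - δ i ^ 2 / 50
        nlinarith [hδ0 i, hδ1 i]
      · rw [← prod_pow]
        refine prod_le_prod (fun i _ => by nlinarith [hδ0 i, hδ1 i]) fun i _ => ?_
        show _ ≤ (1 - δ i ^ 2 / 50) ^ 2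
        nlinarith [sq_nonneg (δ i ^ 2)]
    have h4 := h2 (Function.extend (piG H).u (fun e => A fun i => (c i, e i))
        fun _ => Classical.arbitrary _)
      (Function.extend (piG H).v (fun e i => if c i = 0 then some (B (fun i => (c i, e i)) i)
        else none) fun _ => Classical.arbitrary _)
    have hu : Function.FactorsThrough (fun e : Fin k → E => A fun i => (c i, e i)) (piG H).u := by
      intro e e' h
      refine hA _ _ fun i => ⟨rfl, fun hi => ?_, fun hi => ?_⟩
      · have h5 := congrFun h i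
        simpa [piG, hH, opt, show c i = 0 from hi] using h5
      · have h5 := congrFun h i
        simpa [piG, hH, opt, show c i ≠ 0 from hi] using h5
    have hv : Function.FactorsThrough (fun (e : Fin k → E) i => if c i = 0 then
        some (B (fun i => (c i, e i)) i) else none) (piG H).v := by
      intro e e' h
      have h6 : (B fun i => (c i, e i)) = B fun i => (c i, e' i) := by
        refine hB _ _ fun i => ⟨rfl, fun hi => ?_, fun hi => ?_⟩
        · have h5 := congrFun h i
          simpa [piG, hH, opt, show c i = 0 from hi] using h5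
        · have h5 := congrFun h i
          simpa [piG, hH, opt, show c i ≠ 0 from hi] using h5
      simp only [h6]
    simp only [hu.extend_apply, hv.extend_apply] at h4
    have hc : (0 : ℝ) < Fintype.card (Fin k → E) := Nat.cast_pos.mpr Fintype.card_pos
    rw [ex_ind, div_le_iff₀ hc]
    refine le_trans (Nat.cast_le.mpr (card_le_card fun e he => ?_))
      (h4.trans (mul_le_mul_of_nonneg_right h3 hc.le))
    simp only [mem_filter, mem_univ, true_and] at he ⊢
    funext i
    by_cases hi : c i = 0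
    · simp [piG, hH, opt, hi, he i hi]
    · simp [piG, hH, opt, hi]
  rw [← ex_equiv (Equiv.arrowProdEquivProdArrow _ _ _).symm, ex_prod]
  refine (ex_mono key).trans (le_of_eq ?_)
  rw [ex_pi_prod fun _ b => g b, prod_const, card_univ, Fintype.card_fin]
  congr 1
  have h5 : ∀ b, g b = 1 - ε ^ 2 / 50 * if b = 0 then 1 else 0 := fun b => by
    by_cases hb : b = 0 <;> simp [hg, hb]
  have hP : (P : ℝ) + 1 ≠ 0 := by positivity
  simp only [h5, ex_eq, sum_sub_distrib, ← mul_sum, sum_ite_eq', mem_univ, if_true, sum_const,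
    card_univ, Fintype.card_fin, nsmul_eq_mul]
  push_cast
  field_simp

end Vale.Agent.P325
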