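import Vale.Agent.P325.SoundD

/-! Soundness. -/

namespace Vale.Agent.P325

open Finset Matrix
open scoped BigOperators

lemma exists_params {B e c c' : ℝ} (he : 0 < e) (he1 : e ≤ 50) (hc : 0 < c)
    (hB : 0 ≤ B) (hc' : 0 < c') : ∃ P k : ℕ, (1 + B * ((P + 1 : ℝ)⁻¹) ^ 2) ^ k - 1 ≤ c ∧
      (1 - e / (50 * (P + 1))) ^ k ≤ c' := by
  obtain ⟨K, hK⟩ := exists_nat_ge (50 / (e * c'))
  have hl : 0 < Real.log (1 + c) := Real.log_pos (by linarith)
  obtain ⟨P, hP⟩ := exists_nat_ge (B * K / Real.log (1 + c))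
  have h0 : (0 : ℝ) < P + 1 := by positivity
  refine ⟨P, (P + 1) * K, ?_, ?_⟩
  · rw [sub_le_iff_le_add, add_comm c, ← Real.exp_log (by linarith : 0 < 1 + c), add_comm 1]
    refine (pow_le_pow_left₀ (by positivity) (Real.add_one_le_exp _) _).trans ?_
    rw [← Real.exp_nat_mul, Real.exp_le_exp]
    rw [div_le_iff₀ hl] at hP
    have : (((P + 1) * K : ℕ) : ℝ) * (B * (P + 1 : ℝ)⁻¹ ^ 2) = B * K / (P + 1) := by
      push_cast; field_simp
    rw [this, div_le_iff₀ h0]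
    nlinarith
  · have h1 : e / (50 * (P + 1)) ≤ 1 := by
      rw [div_le_one (by positivity)]; nlinarith [(Nat.cast_nonneg P : (0 : ℝ) ≤ P)]
    refine (pow_le_pow_left₀ (by linarith) (Real.one_sub_le_exp_neg _) _).trans ?_
    rw [← Real.exp_nat_mul]
    have : (((P + 1) * K : ℕ) : ℝ) * -(e / (50 * (P + 1))) = -(e * K / 50) := by
      push_cast; field_simp
    rw [this, Real.exp_neg, inv_le_comm₀ (Real.exp_pos _) hc']
    refine le_trans ?_ (Real.add_one_le_exp _)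
    rw [div_le_iff₀ (by positivity)] at hK
    rw [inv_le_iff_one_le_mul₀ hc']
    nlinarith

theorem sound {δ : ℝ} (hδ : 0 < δ) : ∃ lam : ℝ, 0 < lam ∧ ∀ r : ℕ, ∃ d : ℕ, 1 ≤ d ∧
    ∀ (m n N : ℕ) (J : Fin (N + 1) → Matrix (Fin n) (Fin d ⊕ Fin m) F2),
      (∀ (ι : Type) [Fintype ι] (S : Matrix ι (Fin d ⊕ Fin m) F2), r ≤ S.toCols₁.rank →
        𝔼 ω, ind (S * (J ω)ᵀ = 0) ≤ lam) →
      ∃ P k : ℕ, ∀ (E : Type) [Fintype E] [Nonempty E] (q : E → Eqn),
        (∀ σ, 𝔼 e, ind ((q e).Ok σ) ≤ 3 / 4) →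
        ∀ lab, (Par.mk d m n N J P k).acc q lab ≤ δ := by
  refine ⟨δ / 8, by positivity, fun r => ?_⟩
  obtain ⟨γ, hγ, hs⟩ := spectral r (a := δ / 4) (by positivity)
  obtain ⟨d0, hd0⟩ := pow_unbounded_of_one_lt (2 ^ r / min (γ / 2) 1 : ℝ) one_lt_two
  have hd : (2 : ℝ) ^ r / 2 ^ (d0 + 1) ≤ min (γ / 2) 1 := by
    rw [div_lt_comm₀ (by positivity) (by positivity)] at hd0
    exact (div_le_div_of_nonneg_left (by positivity) (by positivity)
      (pow_le_pow_right₀ one_le_two d0.le_succ)).trans hd0.le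
  refine ⟨d0 + 1, by omega, fun m n N J hJ => ?_⟩
  generalize d0 + 1 = d at *
  have hM : (0 : ℝ) < Fintype.card (Matrix (Fin d) (Fin d) F2) := Nat.cast_pos.2 Fintype.card_pos
  have hY : (1 : ℝ) ≤ Fintype.card (Fin d ⊕ Fin m → F2) := Nat.one_le_cast.2 Fintype.card_pos
  set κ := δ / 4 / Fintype.card (Matrix (Fin d) (Fin d) F2) with hκ
  set c0 := γ / 2 * (2 ^ r : ℝ)⁻¹ ^ (d + m) with hc0
  have c0p : 0 < c0 := by positivity
  obtain ⟨c, hc, c1, c2, c3, c4⟩ : ∃ c : ℝ, 0 < c ∧ c ≤ κ / 2 ∧ c ≤ c0 * κ / 6 ∧ c ≤ 1 ∧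
      c ≤ δ / 8 := ⟨min (min (κ / 2) (c0 * κ / 6)) (min 1 (δ / 8)), by positivity,
    (min_le_left _ _).trans (min_le_left _ _), (min_le_left _ _).trans (min_le_right _ _),
    (min_le_right _ _).trans (min_le_left _ _), (min_le_right _ _).trans (min_le_right _ _)⟩
  obtain ⟨K, hK⟩ := exists_nat_ge c⁻¹
  have Kp : (0 : ℝ) < K := (inv_pos.2 hc).trans_le hK
  have Kp' : 0 < K := Nat.cast_pos.1 Kp
  have hB : (0 : ℝ) < (2 ^ r : ℕ) * (2 ^ d * K ^ 2 : ℕ) := by positivity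
  obtain ⟨P, k, h1, h2⟩ := exists_params (B := Fintype.card (Fin 3 → Fin d ⊕ Fin m → F2))
    (e := (12 * Fintype.card (Fin d ⊕ Fin m → F2) : ℝ)⁻¹ ^ 2) (by positivity)
    ((pow_le_one₀ (by positivity) (inv_le_one_of_one_le₀ (by linarith))).trans (by norm_num))
    (pow_pos hc 2) (by positivity) (div_pos hc hB)
  refine ⟨P, k, fun E _ _ q hq lab => ?_⟩
  let p : Par := ⟨d, m, n, N, J, P, k⟩
  have hV := p.covering.trans h1
  have hτ := Real.sqrt_le_iff.2 ⟨hc.le, hV⟩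
  let w := fun es => dens p.mat fun x => lab (p.vV es x.1) + p.shift es x.2
  have hT : ∀ T : Matrix (Fin d) (Fin d) F2, 𝔼 e : Fin k → E, 𝔼 x,
      ind (T * T = T ∧ T.rank ≤ r ∧ Good r γ (w (q ∘ e)) T (p.mat x)) ≤ κ := fun T => by
    by_cases h : T * T = T ∧ T.rank ≤ r
    swap
    · exact ex_le fun _ => ex_le fun _ => (ind_neg fun h' => h ⟨h'.1, h'.2.1⟩).le.trans
        (by positivity)
    have ha : ∀ χ : p.A, ∃ a : p.A, (1 + T) *ᵥ χ ≠ 0 → χ ⬝ᵥ a ᵥ* (1 + T) = 1 := fun χ => by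
      by_cases h : (1 + T) *ᵥ χ = 0
      · exact ⟨0, fun h' => (h' h).elim⟩
      · obtain ⟨a, ha⟩ := not_forall.1 fun h' => h (Pairing.nd _ h')
        refine ⟨a, fun _ => (F2.cases _).resolve_left ?_⟩
        rwa [dotProduct_comm, ← dotProduct_mulVec, dotProduct_comm]
    have hw : ∀ es (M : p.Mat), ∃ (P : Matrix (Fin k × Fin 3) (Fin k × Fin 3) F2) (α : p.A)
        (X0 : p.Mat), P * P = P ∧ P.rank ≤ r ∧ (Good r γ (w es) T M →
          γ < 𝔼 X : p.Mat, w es α (M + X0 * p.U T + (1 + P) * X * p.U T)) := fun es M => by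
      by_cases h : Good r γ (w es) T M
      · obtain ⟨P, α, X, k1, k2, k3⟩ := h
        exact ⟨P, α, X, k1, k2, fun _ => k3⟩
      · exact ⟨0, 0, 0, by simp, by simp, fun h' => (h h').elim⟩
    choose a ha using ha
    choose W α X0 hW using hw
    have k1 := ex_mono fun e : Fin k → E => p.decode T lab a (K : ℝ)⁻¹ (by positivity) ha h.1 h.2
      (hd.trans (min_le_left _ _)) (hd.trans (min_le_right _ _)) (q ∘ e) rfl (hW (q ∘ e))
    have k2 := ex_le fun t => p.game_bound T Kp' lab a q hq W (fun es M => (hW es M).2.1) t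
    rw [ex_comm, funext fun e => (ex_comm _).trans (ex_prod fun x => ind (p.Dec T lab a (K : ℝ)⁻¹
      (q ∘ e) x.1 (W (q ∘ e) (p.cl T (p.mat x))))).symm] at k2
    rw [ex_mul, ex_sub, ex_add, Fintype.expect_const, Fintype.expect_const] at k1
    have k3 := (le_div_iff₀' hB).1 h2
    have k4 := inv_le_of_inv_le₀ hc hK
    have k5 := ex_mono fun e : Fin k → E => ex_mono fun x => ind_mono
      (p := T * T = T ∧ T.rank ≤ r ∧ Good r γ (w (q ∘ e)) T (p.mat x)) fun h => h.2.2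
    refine k5.trans (le_of_mul_le_mul_left ?_ c0p)
    have k6 := mul_le_mul_of_nonneg_left (hτ.trans c1) c0p.le
    have k7 := k2.trans k3
    change c0 * _ ≤ _ at k1
    linarith
  have k1 := ex_mono fun e : Fin k → E => hs _ _ _ _ _ _ _ J (δ / 8) p.mat
    (fun x => lab (p.vV (q ∘ e) x.1) + p.shift (q ∘ e) x.2) (fun M => lab (.inl (q ∘ e, M)))
    (by positivity) (hJ _)
  rw [ex_add, ex_add, ex_add, ex_sum, Fintype.expect_const, Fintype.expect_const,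
    Fintype.expect_const] at k1
  have k2 := sum_le_card_nsmul univ _ κ fun T _ => hT T
  rw [card_univ, nsmul_eq_mul, hκ, mul_div_cancel₀ _ hM.ne'] at k2
  refine le_trans (le_of_eq ?_) (k1.trans (by nlinarith))
  simp only [Par.acc, ex_prod]
  rfl

end Vale.Agent.P325
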