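import Vale.Agent.P325.GH

/-! Densities and the spectral step of the soundness proof. -/

namespace Vale.Agent.P325

open Finset Matrix
open scoped BigOperators

set_option linter.unusedSectionVars false

section dens

variable {Ξ G Λ : Type} [Fintype Ξ] [Fintype G] [Nonempty G] [Fintype Λ]

/-- Density of the event (point `M`, label `α`) with respect to the uniform law of the point. -/
noncomputable def dens (mm : Ξ → G) (lb : Ξ → Λ) (α : Λ) (M : G) : ℝ :=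
  Fintype.card G * 𝔼 ξ, ind (mm ξ = M ∧ lb ξ = α)

/-- Density of the point. -/
noncomputable def rho (mm : Ξ → G) (M : G) : ℝ := Fintype.card G * 𝔼 ξ, ind (mm ξ = M)

lemma dens_nonneg (mm : Ξ → G) (lb : Ξ → Λ) (α : Λ) (M : G) : 0 ≤ dens mm lb α M :=
  mul_nonneg (Nat.cast_nonneg _) (ex_nonneg fun _ => ind_nonneg _)

lemma sum_ind_mul {Λ : Type} [Fintype Λ] (a : Λ) (h : Λ → ℝ) : ∑ α, ind (a = α) * h α = h a := by
  classical
  simp [ind_eq_ite]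

lemma sum_dens (mm : Ξ → G) (lb : Ξ → Λ) (M : G) : ∑ α, dens mm lb α M = rho mm M := by
  simp only [dens, rho, ← mul_sum, ← ex_sum, ind_and, mul_comm (ind (mm _ = M)), sum_ind_mul]

lemma dens_ex (mm : Ξ → G) (lb : Ξ → Λ) (h : G → Λ → ℝ) :
    𝔼 ξ, h (mm ξ) (lb ξ) = 𝔼 M, ∑ α, dens mm lb α M * h M α := by
  have hc : (Fintype.card G : ℝ) ≠ 0 := Nat.cast_ne_zero.2 Fintype.card_ne_zero
  simp only [dens, mul_assoc, ← mul_sum, ← ex_mul', ← ex_sum, ind_and, sum_ind_mul]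
  rw [ex_mul, ex_comm, ← ex_mul]
  simp only [ex_eq fun M => ind (mm _ = M) * _, sum_ind_mul, mul_div_cancel₀ _ hc]

lemma rho_ex (mm : Ξ → G) (h : G → ℝ) : 𝔼 ξ, h (mm ξ) = 𝔼 M, rho mm M * h M := by
  simpa only [← sum_mul, sum_dens] using dens_ex mm (fun _ => ()) fun M _ => h M

lemma ex_rho [Nonempty Ξ] (mm : Ξ → G) : 𝔼 M, rho mm M = 1 := by
  simpa using (rho_ex mm fun _ => 1).symm

lemma rho_dev (mm : Ξ → G) {h : G → ℝ} (h0 : ∀ M, 0 ≤ h M) (h1 : ∀ M, h M ≤ 1) :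
    𝔼 ξ, h (mm ξ) ≤ 𝔼 M, h M + √(𝔼 M, (rho mm M - 1) ^ 2) := by
  have k := ex_mul_le (fun M => rho mm M - 1) h
  have k2 : √(𝔼 M, h M ^ 2) ≤ 1 :=
    Real.sqrt_le_one.2 (ex_le fun M => pow_le_one₀ (h0 M) (h1 M))
  have k3 := mul_le_mul_of_nonneg_left k2 (Real.sqrt_nonneg (𝔼 M, (rho mm M - 1) ^ 2))
  simp only [sub_mul, ex_sub, one_mul] at k
  rw [rho_ex]
  linarith

end dens

variable {ι κ μ : Type} [Fintype ι] [Fintype κ] [Fintype μ] [DecidableEq ι] [DecidableEq κ]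
  [DecidableEq μ]

/-- The part of the latent space that is not given as advice. -/
def up (T : Matrix κ κ F2) : Matrix (κ ⊕ μ) (κ ⊕ μ) F2 := fromBlocks (1 + T) 0 0 0

/-- Some label is dense in a zoom inside the advice class of `M`. -/
def Good {Λ : Type} (r : ℕ) (γ : ℝ) (w : Λ → Matrix ι (κ ⊕ μ) F2 → ℝ) (T : Matrix κ κ F2)
    (M : Matrix ι (κ ⊕ μ) F2) : Prop :=
  ∃ (P : Matrix ι ι F2) (α : Λ) (X : Matrix ι (κ ⊕ μ) F2), P * P = P ∧ P.rank ≤ r ∧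
    γ < 𝔼 X' : Matrix ι (κ ⊕ μ) F2, w α (M + X * (up T : Matrix (κ ⊕ μ) (κ ⊕ μ) F2) +
      (1 + P) * X' * (up T : Matrix (κ ⊕ μ) (κ ⊕ μ) F2))

lemma hat_noise {δ Ω : Type} [Fintype δ] [DecidableEq δ] [Fintype Ω]
    (J : Ω → Matrix δ κ F2) (f : Matrix ι κ F2 → ℝ) (S : Matrix ι κ F2) :
    hat (fun M => 𝔼 ω, 𝔼 N : Matrix ι δ F2, f (M + N * J ω)) S =
      (𝔼 ω, ind (S * (J ω)ᵀ = 0)) * hat f S := by
  simp only [← ex_chi, ← chi_mul_right, ← ex_mul', mul_comm (chi _ _), ← hat_shift]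
  simp only [hat, ← ex_mul']
  rw [ex_comm]
  exact congrArg _ (funext fun ω => ex_comm _)

theorem spectral (r : ℕ) {a : ℝ} (ha : 0 < a) : ∃ γ : ℝ, 0 < γ ∧ ∀ (ι κ μ δ Ω Ξ Λ : Type)
    [Fintype ι] [Fintype κ] [Fintype μ] [DecidableEq ι] [DecidableEq κ] [DecidableEq μ]
    [Fintype δ] [DecidableEq δ] [Fintype Ω] [Nonempty Ω] [Fintype Ξ] [Nonempty Ξ] [Fintype Λ]
    (J : Ω → Matrix δ (κ ⊕ μ) F2) (lam : ℝ) (mm : Ξ → Matrix ι (κ ⊕ μ) F2) (lb : Ξ → Λ)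
    (F : Matrix ι (κ ⊕ μ) F2 → Λ), 0 ≤ lam →
    (∀ S : Matrix ι (κ ⊕ μ) F2, r ≤ S.toCols₁.rank → 𝔼 ω, ind (S * (J ω)ᵀ = 0) ≤ lam) →
    𝔼 ξ, 𝔼 ω, 𝔼 N : Matrix ι δ F2, ind (F (mm ξ + N * J ω) = lb ξ) ≤
      ∑ T : Matrix κ κ F2, 𝔼 ξ, ind (T * T = T ∧ T.rank ≤ r ∧ Good r γ (dens mm lb) T (mm ξ)) +
        2 * 𝔼 M, (rho mm M - 1) ^ 2 + a + 2 * lam := by
  obtain ⟨γ, hγ, hlev⟩ := level_ineq r (η := a ^ 2) (by positivity)
  refine ⟨γ, hγ, fun ι κ μ δ Ω Ξ Λ _ _ _ _ _ _ _ _ _ _ _ _ _ J lam mm lb F hl hJ => ?_⟩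
  set w := dens mm lb
  let Bad : Matrix ι (κ ⊕ μ) F2 → Prop := fun M =>
    ∃ T : Matrix κ κ F2, T * T = T ∧ T.rank ≤ r ∧ Good r γ w T M
  let g : Λ → Matrix ι (κ ⊕ μ) F2 → ℝ := fun α M => w α M * ind (¬ Bad M ∧ rho mm M ≤ 2)
  let f : Λ → Matrix ι (κ ⊕ μ) F2 → ℝ := fun α M => ind (F M = α)
  let Tf : Λ → Matrix ι (κ ⊕ μ) F2 → ℝ := fun α M => 𝔼 ω, 𝔼 N : Matrix ι δ F2, f α (M + N * J ω)
  have hw : ∀ α M, 0 ≤ w α M := dens_nonneg mm lb
  have hg0 : ∀ α M, 0 ≤ g α M := fun α M => mul_nonneg (hw α M) (ind_nonneg _)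
  have hgw : ∀ α M, g α M ≤ w α M := fun α M => mul_le_of_le_one_right (hw α M) (ind_le_one _)
  have hg2 : ∀ α M, g α M ≤ 2 := fun α M => by
    by_cases h : ¬ Bad M ∧ rho mm M ≤ 2
    · refine (hgw α M).trans (le_trans ?_ h.2)
      rw [← sum_dens mm lb]
      exact single_le_sum (f := fun α => w α M) (fun α _ => hw α M) (mem_univ α)
    · simp only [g, ind_neg h, mul_zero]; norm_num
  have hsum : ∑ α, 𝔼 M, g α M ≤ 1 := by
    rw [← ex_sum, ← ex_rho mm]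
    exact ex_mono fun M => (sum_le_sum fun α _ => hgw α M).trans (sum_dens mm lb M).le
  have hlo : ∀ α, ∑ S : Matrix ι (κ ⊕ μ) F2, ind (S.toCols₁.rank < r) * hat (g α) S ^ 2 ≤
      a ^ 2 * 𝔼 M, g α M := fun α => by
    refine hlev ι κ μ (g α) (hg0 α) (hg2 α) fun P T M0 hP hT rP rT => ?_
    by_cases h : ∃ X : Matrix ι (κ ⊕ μ) F2,
      ¬ Bad (M0 + (1 + P) * X * (up T : Matrix (κ ⊕ μ) (κ ⊕ μ) F2))
    · obtain ⟨X, hX⟩ := h
      refine (ex_mono fun M => hgw α _).trans (not_lt.1 fun hlt => hX ⟨T, hT, rT, P, α,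
        (1 + P) * X, hP, rP, ?_⟩)
      rwa [add_assoc M0, mat_add_self, add_zero]
    · refine ex_le fun X => le_trans (le_of_eq ?_) hγ.le
      exact mul_eq_zero_of_right _ (ind_neg fun h' => h ⟨X, h'.1⟩)
  have hf : ∑ α, ∑ S, hat (f α) S ^ 2 = 1 := by
    have : ∀ M, ∑ α, f α M ^ 2 = 1 := fun M => by
      simpa only [sq, f, ind_pos trivial] using sum_ind_mul (F M) fun α => ind (F M = α)
    simp only [← parseval, ← ex_sum, this, Fintype.expect_const]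
  have hgg : ∑ α, ∑ S, hat (g α) S ^ 2 ≤ 2 * ∑ α, 𝔼 M, g α M := by
    simp only [← parseval, mul_sum, ← ex_mul]
    exact sum_le_sum fun α _ => ex_mono fun M => by nlinarith [hg0 α M, hg2 α M]
  have key : ∑ α, 𝔼 M, g α M * Tf α M ≤ a + 2 * lam := by
    have e : ∀ α S, hat (g α) S * hat (Tf α) S ≤
        (2 * a)⁻¹ * (ind (S.toCols₁.rank < r) * hat (g α) S ^ 2) + (a / 2 + lam / 2) *
          hat (f α) S ^ 2 + lam / 2 * hat (g α) S ^ 2 := fun α S => by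
      rw [hat_noise]
      have l0 : 0 ≤ 𝔼 ω, ind (S * (J ω)ᵀ = 0) := ex_nonneg fun _ => ind_nonneg _
      have l1 : 𝔼 ω, ind (S * (J ω)ᵀ = 0) ≤ 1 := ex_le fun _ => ind_le_one _
      have l2 := hJ S
      generalize 𝔼 ω, ind (S * (J ω)ᵀ = 0) = l at *
      generalize hat (g α) S = x
      generalize hat (f α) S = y
      by_cases h : S.toCols₁.rank < r
      · have e1 : x * y ≤ (2 * a)⁻¹ * x ^ 2 + a / 2 * y ^ 2 := by
          have : (2 * a)⁻¹ * x ^ 2 + a / 2 * y ^ 2 - x * y = (2 * a)⁻¹ * (x - a * y) ^ 2 := by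
            field_simp; ring
          nlinarith [mul_nonneg (inv_pos.2 (by positivity : 0 < 2 * a)).le (sq_nonneg (x - a * y))]
        have e2 : 0 ≤ (2 * a)⁻¹ * x ^ 2 + a / 2 * y ^ 2 := by positivity
        rw [ind_pos h]
        nlinarith [mul_nonneg hl (sq_nonneg x), mul_nonneg hl (sq_nonneg y)]
      · have l3 := l2 (not_lt.1 h)
        rw [ind_neg h]
        nlinarith [mul_nonneg l0 (sq_nonneg (x - y)), mul_nonneg ha.le (sq_nonneg y),
          mul_nonneg (sub_nonneg.2 l3) (add_nonneg (sq_nonneg x) (sq_nonneg y))]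
    simp only [plancherel]
    refine (sum_le_sum fun α _ => sum_le_sum fun S _ => e α S).trans ?_
    simp only [sum_add_distrib, ← mul_sum, hf]
    have e3 := (sum_le_sum fun α (_ : α ∈ univ) => hlo α).trans
      ((mul_sum _ _ _).symm.le.trans (mul_le_mul_of_nonneg_left hsum (sq_nonneg a)))
    have e4 := mul_le_mul_of_nonneg_left e3 (inv_pos.2 (by positivity : 0 < 2 * a)).le
    have e5 : (2 * a)⁻¹ * (a ^ 2 * 1) = a / 2 := by field_simp
    nlinarith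
  have e1 : ∀ M, ∑ α, w α M * Tf α M ≤ ∑ α, g α M * Tf α M + rho mm M * ind (Bad M) +
      2 * (rho mm M - 1) ^ 2 := fun M => by
    have t0 : ∀ α, 0 ≤ Tf α M := fun α => ex_nonneg fun _ => ex_nonneg fun _ => ind_nonneg _
    have t1 : ∑ α, w α M * Tf α M ≤ rho mm M := by
      rw [← sum_dens mm lb]
      exact sum_le_sum fun α _ => mul_le_of_le_one_right (hw α M)
        (ex_le fun _ => ex_le fun _ => ind_le_one _)
    have t2 : 0 ≤ ∑ α, g α M * Tf α M := sum_nonneg fun α _ => mul_nonneg (hg0 α M) (t0 α)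
    have t3 : 0 ≤ rho mm M := (sum_nonneg fun α _ => hw α M).trans (sum_dens mm lb M).le
    by_cases h : Bad M
    · rw [ind_pos h]; nlinarith [sq_nonneg (rho mm M - 1)]
    · by_cases h' : rho mm M ≤ 2
      · simp only [g, ind_pos (And.intro h h'), ind_neg h, mul_one, mul_zero, add_zero]
        exact le_add_of_nonneg_right (by positivity)
      · rw [ind_neg h]; nlinarith
  refine (dens_ex mm lb fun M α => Tf α M).trans_le ((ex_mono e1).trans ?_)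
  rw [ex_add, ex_add, ex_sum, ex_mul, ← rho_ex mm fun M => ind (Bad M)]
  have := ex_mono fun ξ => ind_exists_le fun T : Matrix κ κ F2 =>
    T * T = T ∧ T.rank ≤ r ∧ Good r γ w T (mm ξ)
  rw [ex_sum] at this
  linarith

end Vale.Agent.P325
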