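import Vale.Agent.P325.SoundA
import Vale.Agent.P325.Model

/-! The covering property: the masked table is nearly uniform. -/

namespace Vale.Agent.P325

open Finset Matrix
open scoped BigOperators

lemma ex_ind_eq {G : Type} [Fintype G] (x : G) : 𝔼 y, ind (y = x) = (Fintype.card G : ℝ)⁻¹ := by
  classical
  simp [ind_eq_ite]

namespace Par

variable (p : Par)

lemma ex_coin (f : (Fin 3 → p.Y) → ℝ) (g : Fin (p.P + 1) → ℝ) :
    𝔼 b : p.Blk, g b.1 * f b.2.2 = (𝔼 c, g c) * 𝔼 y, f y := by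
  simp only [ex_prod, ex_mul, Fintype.expect_const, ex_mul']

lemma blk_col (s s' : p.Y) :
    𝔼 b : p.Blk, 𝔼 b' : p.Blk, ind (∀ j, p.mask b' j + s' = p.mask b j + s) ≤
      (Fintype.card (Fin 3 → p.Y) : ℝ)⁻¹ + ((p.P + 1 : ℝ)⁻¹) ^ 2 := by
  have e : ∀ b b' : p.Blk, ind (∀ j, p.mask b' j + s' = p.mask b j + s) ≤
      ind (b.1 = 0) * 1 * (ind (b'.1 = 0) * 1) +
        ind (¬ b'.1 = 0) * ind (b'.2.2 = fun j => p.mask b j + s - s') +
        ind (b'.1 = 0) * 1 * (1 * ind (b.2.2 = fun j => p.mask b' j + s' - s)) := fun b b' => by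
    by_cases h : ∀ j, p.mask b' j + s' = p.mask b j + s
    · have t1 := ind_nonneg (b'.2.2 = fun j => p.mask b j + s - s')
      have t2 := ind_nonneg (b.2.2 = fun j => p.mask b' j + s' - s)
      have t3 := ind_nonneg (b.1 = 0)
      rw [ind_pos h]
      by_cases h' : b'.1 = 0
      · rw [ind_pos h', ind_neg (not_not.2 h')]
        by_cases h1 : b.1 = 0
        · rw [ind_pos h1]; linarith
        · rw [ind_pos (p := b.2.2 = _) (funext fun j => by rw [h j, mask, if_neg h1]; simp)]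
          linarith
      · rw [ind_neg h', ind_pos h', ind_pos (p := b'.2.2 = _)
          (funext fun j => by rw [← h j, mask, if_neg h']; simp)]
        linarith
    · rw [ind_neg h]
      exact add_nonneg (add_nonneg (mul_nonneg (by simp [ind_nonneg]) (by simp [ind_nonneg]))
        (mul_nonneg (ind_nonneg _) (ind_nonneg _)))
        (mul_nonneg (by simp [ind_nonneg]) (by simp [ind_nonneg]))
  have c0 : 𝔼 c : Fin (p.P + 1), ind (c = 0) = (p.P + 1 : ℝ)⁻¹ := by simp [ex_ind_eq]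
  refine (ex_mono fun b => ex_mono fun b' => e b b').trans (le_of_eq ?_)
  simp only [ex_add]
  rw [ex_comm fun b b' : p.Blk => ind (b'.1 = 0) * 1 * _]
  have c1 : ∀ (g : Fin (p.P + 1) → ℝ) z, 𝔼 b : p.Blk, g b.1 * ind (b.2.2 = z) =
      (𝔼 c, g c) * (Fintype.card (Fin 3 → p.Y) : ℝ)⁻¹ := fun g z => by
    rw [p.ex_coin fun y => ind (y = z), ex_ind_eq]
  simp only [ex_mul, ex_mul', c1 fun c => ind (¬ c = 0), c1 fun _ => 1,
    p.ex_coin (fun _ => 1) fun c => ind (c = 0), Fintype.expect_const, c0]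
  simp only [ind_not, ex_sub, c0, Fintype.expect_const]
  ring

theorem covering : 𝔼 M, (rho p.mat M - 1) ^ 2 ≤
    (1 + Fintype.card (Fin 3 → p.Y) * ((p.P + 1 : ℝ)⁻¹) ^ 2) ^ p.k - 1 := by
  have hc : (0 : ℝ) < Fintype.card (Fin 3 → p.Y) := Nat.cast_pos.2 Fintype.card_pos
  have e1 : 𝔼 M, (rho p.mat M - 1) ^ 2 = 𝔼 x, rho p.mat (p.mat x) - 1 := by
    rw [rho_ex, show (fun M => (rho p.mat M - 1) ^ 2) =
      fun M => rho p.mat M * rho p.mat M - 2 * rho p.mat M + 1 from funext fun M => by ring,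
      ex_add, ex_sub, ex_mul, ex_rho, Fintype.expect_const]
    ring
  have e2 : (Fintype.card p.Mat : ℝ) = Fintype.card (Fin 3 → p.Y) ^ p.k := by
    rw [show Fintype.card p.Mat = _ from Fintype.card_congr (Equiv.curry (Fin p.k) (Fin 3) p.Y),
      Fintype.card_fun, Fintype.card_fin, Nat.cast_pow]
  have e3 : ∀ x x', ind (p.mat x' = p.mat x) = ∏ i, ind (∀ j, p.mask (x'.1 i) j + inA (x'.2 i) =
      p.mask (x.1 i) j + inA (x.2 i)) := fun x x' => by
    rw [← ind_forall]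
    exact ind_congr ⟨fun h i j => congrFun h (i, j), fun h => funext fun i => h i.1 i.2⟩
  rw [e1, sub_le_sub_iff_right]
  simp only [rho, ex_mul, e2, e3, ex_prod]
  have e4 : ∀ t t' : Fin p.k → p.A, 𝔼 b : Fin p.k → p.Blk, 𝔼 b' : Fin p.k → p.Blk,
      ∏ i, ind (∀ j, p.mask (b' i) j + inA (t' i) = p.mask (b i) j + inA (t i)) ≤
      ∏ _i : Fin p.k, ((Fintype.card (Fin 3 → p.Y) : ℝ)⁻¹ + ((p.P + 1 : ℝ)⁻¹) ^ 2) := fun t t' => by
    have := fun b : Fin p.k → p.Blk => ex_pi_prod fun i b' =>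
      ind (∀ j, p.mask b' j + inA (t' i) = p.mask (b i) j + inA (t i))
    rw [funext this, ex_pi_prod fun i b => 𝔼 b',
      ind (∀ j, p.mask b' j + inA (t' i) = p.mask b j + inA (t i))]
    exact prod_le_prod (fun i _ => ex_nonneg fun _ => ex_nonneg fun _ => ind_nonneg _) fun i _ =>
      p.blk_col _ _
  rw [ex_comm]
  refine (mul_le_mul_of_nonneg_left (ex_le fun t => (le_of_eq ((congrArg _ (funext fun _ =>
    ex_comm _)).trans (ex_comm _))).trans (ex_le (e4 t))) (by positivity)).trans (le_of_eq ?_)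
  rw [prod_const, card_univ, Fintype.card_fin, ← mul_pow, mul_add, mul_inv_cancel₀ hc.ne']

end Par

end Vale.Agent.P325
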