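import Vale.Agent.P325.SoundB

/-! From a dense zoom to a large Fourier coefficient. -/

namespace Vale.Agent.P325

open Finset Matrix
open scoped BigOperators

set_option linter.unusedSectionVars false

section gen

variable {ι κ μ : Type} [Fintype ι] [Fintype κ] [Fintype μ] [DecidableEq ι] [DecidableEq κ]
  [DecidableEq μ] {r : ℕ}

open Classical in
lemma card_range (S : Matrix ι κ F2) :
    (univ.filter fun y => ∃ x, S *ᵥ x = y).card = 2 ^ S.rank := by
  have := Module.card_eq_pow_finrank (K := F2) (V := LinearMap.range S.mulVecLin)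
  rw [ZMod.card, Fintype.card_subtype] at this
  refine Eq.trans (congrArg _ ?_) this
  ext y
  simp

lemma ker_ge {P : Matrix ι κ F2} (h : P.rank ≤ r) : (2 ^ r : ℝ)⁻¹ ≤ 𝔼 x, ind (P *ᵥ x = 0) := by
  classical
  have e : ∀ y ∈ univ.filter fun y => ∃ x, P *ᵥ x = y,
      𝔼 x, ind (P *ᵥ x = y) = 𝔼 x, ind (P *ᵥ x = 0) := fun y hy => by
    obtain ⟨x, rfl⟩ := (mem_filter.1 hy).2
    rw [← ex_shift x]
    simp only [mulVec_add, add_eq_right]
  have e2 : ∑ y ∈ univ.filter fun y => ∃ x, P *ᵥ x = y, 𝔼 x, ind (P *ᵥ x = y) = 1 := by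
    rw [← ex_sum, ← Fintype.expect_const (ι := κ → F2) (1 : ℝ)]
    exact congrArg _ (funext fun x => by simp [ind_eq_ite])
  rw [sum_congr rfl e, sum_const, card_range, nsmul_eq_mul] at e2
  rw [inv_le_iff_one_le_mul₀' (by positivity), ← e2]
  exact mul_le_mul_of_nonneg_right (by exact_mod_cast Nat.pow_le_pow_right two_pos h)
    (ex_nonneg fun _ => ind_nonneg _)

lemma zeta_ge {P : Matrix ι ι F2} (h : P.rank ≤ r) (U : Matrix κ κ F2) :
    (2 ^ r : ℝ)⁻¹ ^ Fintype.card κ ≤ 𝔼 X : Matrix ι κ F2, ind (P * (X * U) = 0) := by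
  refine le_trans ?_ (ex_mono fun X => ind_mono (p := P * X = 0) fun h => by
    rw [← Matrix.mul_assoc, h, Matrix.zero_mul])
  rw [← ex_equiv (transposeAddEquiv κ ι F2).toEquiv]
  have e : ∀ X : Matrix κ ι F2, ind (P * Xᵀ = 0) = ∏ c, ind (P *ᵥ X c = 0) := fun X => by
    rw [← ind_forall]
    exact ind_congr ⟨fun h c => funext fun i => congrFun (congrFun h i) c,
      fun h => Matrix.ext fun i c => congrFun (h c) i⟩
  refine le_trans ?_ ((congrArg _ (funext e)).trans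
    (ex_pi_prod fun _ x => ind (P *ᵥ x = 0))).symm.le
  rw [prod_const, card_univ]
  exact pow_le_pow_left₀ (by positivity) (ker_ge h) _

lemma triv_le {T : Matrix κ κ F2} (h : T.rank ≤ r) :
    𝔼 x, ind ((1 + T) *ᵥ x = 0) ≤ 2 ^ r / 2 ^ Fintype.card κ := by
  classical
  rw [ex_ind, Fintype.card_fun, ZMod.card, Nat.cast_pow, Nat.cast_ofNat]
  refine div_le_div_of_nonneg_right ?_ (by positivity)
  have := (card_le_card (s := univ.filter fun x => (1 + T) *ᵥ x = 0) fun x hx => mem_filter.2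
    ⟨mem_univ _, x, by
      have := (mem_filter.1 hx).2
      rwa [add_mulVec, one_mulVec, add_eq_zero_iff, eq_comm] at this⟩).trans_eq (card_range T)
  exact_mod_cast this.trans (Nat.pow_le_pow_right two_pos h)

lemma zoom_ex {P : Matrix ι ι F2} (hP : P * P = P) (U : Matrix κ κ F2) (u : Matrix ι κ F2 → ℝ) :
    𝔼 X : Matrix ι κ F2, ind (P * (X * U) = 0) * u (X * U) =
      (𝔼 X : Matrix ι κ F2, ind (P * (X * U) = 0)) *
        𝔼 X : Matrix ι κ F2, u ((1 + P) * X * U) := by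
  have h0 : P * (1 + P) = 0 := by rw [Matrix.mul_add, hP, Matrix.mul_one, mat_add_self]
  have e1 : ∀ X' : Matrix ι κ F2, 𝔼 X : Matrix ι κ F2, ind (P * (X * U) = 0) * u (X * U) =
      𝔼 X : Matrix ι κ F2, ind (P * (X * U) = 0) * u (X * U + (1 + P) * X' * U) := fun X' => by
    rw [← ex_shift ((1 + P) * X')]
    refine congrArg _ (funext fun X => ?_)
    rw [Matrix.add_mul X, Matrix.mul_add, ← Matrix.mul_assoc P (_ * X'), ← Matrix.mul_assoc P _ X',
      h0, Matrix.zero_mul, Matrix.zero_mul, add_zero]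
  rw [← Fintype.expect_const (ι := Matrix ι κ F2) (𝔼 X, _ * u (X * U)), funext e1, ex_comm,
    ← ex_mul']
  refine congrArg _ (funext fun X => ?_)
  rw [ex_mul]
  by_cases h : P * (X * U) = 0
  · rw [← ex_shift' X fun X => u ((1 + P) * X * U)]
    refine congrArg _ (congrArg _ (funext fun X' => ?_))
    rw [Matrix.mul_add, Matrix.add_mul (_ * X), Matrix.mul_assoc _ X,
      Matrix.add_mul 1 P (X * U), h, Matrix.one_mul, add_zero]
  · rw [ind_neg h, zero_mul, zero_mul]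

lemma up_mul_up {T : Matrix κ κ F2} (hT : T * T = T) :
    (up T : Matrix (κ ⊕ μ) (κ ⊕ μ) F2) * up T = up T := by
  simp [up, fromBlocks_multiply, Matrix.mul_add, Matrix.add_mul, hT, mat_add_self]

lemma inA_up (T : Matrix κ κ F2) (a : κ → F2) :
    (inA a : κ ⊕ μ → F2) ᵥ* up T = inA (a ᵥ* (1 + T)) := by
  simp [inA, up, vecMul_fromBlocks]

lemma inA_add (a b : κ → F2) : (inA (a + b) : κ ⊕ μ → F2) = inA a + inA b := by
  ext (i | i) <;> simp [inA]

end gen

namespace Par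

variable (p : Par)

/-- The projection to the free part of the latent space. -/
abbrev U (T : Matrix (Fin p.d) (Fin p.d) F2) :
    Matrix (Fin p.d ⊕ Fin p.m) (Fin p.d ⊕ Fin p.m) F2 := up T

/-- Translation of the latent vectors. -/
def addB (b : Fin p.k → p.Blk) (X : p.Mat) : Fin p.k → p.Blk :=
  fun i => ((b i).1, (b i).2.1, fun j => (b i).2.2 j + X (i, j))

/-- The mask as a diagonal matrix. -/
def keep (b : Fin p.k → p.Blk) : Matrix (Fin p.k × Fin 3) (Fin p.k × Fin 3) F2 :=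
  diagonal fun i => if (b i.1).1 = 0 ∧ i.2 ≠ (b i.1).2.1 then 0 else 1

/-- Shifts along the equations. -/
def fold (s : Fin p.k → p.A) : p.Mat := Matrix.of fun i => inA (s i.1)

lemma addB_addB (b : Fin p.k → p.Blk) (X X' : p.Mat) :
    p.addB (p.addB b X) X' = p.addB b (X + X') := by
  funext i
  simp only [addB, add_assoc]
  rfl

lemma ex_addB (X : p.Mat) (f : (Fin p.k → p.Blk) → ℝ) : 𝔼 b, f (p.addB b X) = 𝔼 b, f b :=
  ex_equiv (Function.Involutive.toPerm (fun b => p.addB b X) fun b => by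
    funext i
    simp only [addB_addB, mat_add_self]
    simp only [addB, show ∀ i, (0 : p.Mat) i = 0 from fun _ => rfl, add_zero]) f

lemma mat_add (b : Fin p.k → p.Blk) (X : p.Mat) (t s : Fin p.k → p.A) :
    p.mat (p.addB b X, t + s) = p.mat (b, t) + p.keep b * X + p.fold s := by
  ext ⟨i, j⟩ c
  simp only [mat, keep, fold, mask, addB, Matrix.add_apply, of_apply, diagonal_mul, Pi.add_apply,
    inA_add]
  by_cases h : (b i).1 = 0
  · by_cases h' : j = (b i).2.1
    · subst h'; simp [h]; ring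
    · simp [h, h']
  · simp [h]; ring

lemma fold_up (T : Matrix (Fin p.d) (Fin p.d) F2) (s : Fin p.k → p.A) :
    p.fold s * p.U T = p.fold fun i => s i ᵥ* (1 + T) :=
  funext fun i => inA_up T (s i.1)

lemma shift_add (es : Fin p.k → Eqn) (t s : Fin p.k → p.A) :
    p.shift es (t + s) = p.shift es t + p.shift es s := by
  simp [shift, sum_add_distrib]

variable (T : Matrix (Fin p.d) (Fin p.d) F2) (lab : p.Vtx → p.A) (a : p.A → p.A) (θ : ℝ)

/-- The table of the second prover along a character. -/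
def phi (es : Fin p.k → Eqn) (b : Fin p.k → p.Blk) (χ : p.A) (X : p.Mat) : ℝ :=
  chi χ (lab (p.vV es (p.addB b (X * p.U T))))

/-- The lists of the two provers contain consistent answers. -/
def Dec (es : Fin p.k → Eqn) (b : Fin p.k → p.Blk)
    (P : Matrix (Fin p.k × Fin 3) (Fin p.k × Fin 3) F2) : Prop :=
  ∃ z χ S, (∃ s, Pᵀ *ᵥ s = z) ∧ θ < |hat (p.phi T lab es b χ) S| ∧
    (∀ i, ∑ j, z (i, j) = (es i).rhs) ∧ S *ᵥ inA (a χ) = p.keep b *ᵥ z

lemma core (hθ : 0 ≤ θ) (ha : ∀ χ, (1 + T) *ᵥ χ ≠ 0 → χ ⬝ᵥ a χ ᵥ* (1 + T) = 1)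
    (es : Fin p.k → Eqn) (b : Fin p.k → p.Blk) (P : Matrix (Fin p.k × Fin 3) (Fin p.k × Fin 3) F2)
    (D : p.Mat) (α : p.A) :
    𝔼 X : p.Mat, 𝔼 s : Fin p.k → p.A, ind (P * (D + p.keep b * (X * p.U T) + p.fold s * p.U T) = 0) *
      ind (lab (p.vV es (p.addB b (X * p.U T))) + p.shift es (fun i => s i ᵥ* (1 + T)) = α) ≤
    (𝔼 χ : p.A, ind ((1 + T) *ᵥ χ = 0)) * (𝔼 X : p.Mat, 𝔼 s : Fin p.k → p.A,
      ind (P * (D + p.keep b * (X * p.U T) + p.fold s * p.U T) = 0)) + θ +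
      ind (p.Dec T lab a θ es b P) := by
  set y := 𝔼 X : p.Mat, 𝔼 s : Fin p.k → p.A,
    ind (P * (D + p.keep b * (X * p.U T) + p.fold s * p.U T) = 0) with hy
  have y1 : y ≤ 1 := ex_le fun _ => ex_le fun _ => ind_le_one _
  have y0 : 0 ≤ y := ex_nonneg fun _ => ex_nonneg fun _ => ind_nonneg _
  simp only [← add_eq_zero_iff _ α, ← ex_chi' (_ + α), ← ex_mul]
  rw [funext fun X => ex_comm _, ex_comm, ← ex_mul', add_assoc,
    ← Fintype.expect_const (ι := p.A) (θ + _), ← ex_add]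
  refine ex_mono fun χ => ?_
  have c1 := ex_mono fun X : p.Mat => ex_mono fun s : Fin p.k → p.A => mul_le_of_le_one_right
    (ind_nonneg (P * (D + p.keep b * (X * p.U T) + p.fold s * p.U T) = 0)) ((le_abs_self _).trans
      (abs_chi χ (lab (p.vV es (p.addB b (X * p.U T))) +
        p.shift es (fun i => s i ᵥ* (1 + T)) + α)).le)
  by_cases h1 : (1 + T) *ᵥ χ = 0
  · rw [ind_pos h1]; linarith [ind_nonneg (p.Dec T lab a θ es b P)]
  by_cases h2 : p.Dec T lab a θ es b P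
  · rw [ind_pos h2, ind_neg h1]; linarith
  rw [ind_neg h1, ind_neg h2, zero_mul, zero_add, add_zero]
  simp only [fun N : p.Mat => (ex_chi' (P * N)).symm, ← ex_mul']
  rw [funext fun X => ex_comm _, ex_comm]
  refine ex_le fun S => ?_
  let ψ : (Fin p.k → p.A) → F2 := fun s => Pairing.B (Pᵀ * S) (p.fold s * p.U T) +
    Pairing.B χ (p.shift es fun i => s i ᵥ* (1 + T))
  have hψ : ∀ s s', ψ (s + s') = ψ s + ψ s' := fun s s' => by
    have e1 : p.fold (s + s') = p.fold s + p.fold s' := funext fun i => inA_add _ _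
    have e2 : (fun i => (s + s') i ᵥ* (1 + T)) = (fun i => s i ᵥ* (1 + T)) +
      fun i => s' i ᵥ* (1 + T) := funext fun i => add_vecMul _ _ _
    simp only [ψ, e1, e2, Matrix.add_mul, shift_add, Pairing.add]
    ring
  have e : ∀ (X : p.Mat) s, chi S (P * (D + p.keep b * (X * p.U T) + p.fold s * p.U T)) *
      chi χ (lab (p.vV es (p.addB b (X * p.U T))) + p.shift es (fun i => s i ᵥ* (1 + T)) + α) =
      chi (Pᵀ * S) D * chi χ α * (p.phi T lab es b χ X *
        chi ((p.keep b)ᵀ * (Pᵀ * S) * (p.U T)ᵀ) X * sgn (ψ s)) := fun X s => by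
    rw [chi_mul_left, chi_add, chi_add, chi_add, chi_add, chi_mul_left, chi_mul_right, sgn_add]
    simp only [phi, chi]
    ring
  simp only [e, ex_mul, ex_mul', ex_sgn hψ]
  refine (le_abs_self _).trans ?_
  rw [abs_mul, abs_mul, abs_chi, abs_chi, one_mul, one_mul]
  by_cases h3 : ∀ s, ψ s = 0
  swap
  · rwa [ind_neg h3, mul_zero, abs_zero]
  rw [ind_pos h3, mul_one]
  refine not_lt.1 fun h4 => h2 ⟨(Pᵀ * S) *ᵥ inA (a χ ᵥ* (1 + T)), χ, _,
    ⟨_, mulVec_mulVec _ _ _⟩, h4, fun i => ?_, ?_⟩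
  · have := h3 (Pi.single i (a χ))
    have e3 : (fun i' => (Pi.single i (a χ) : Fin p.k → p.A) i' ᵥ* (1 + T)) =
        Pi.single i (a χ ᵥ* (1 + T)) := funext fun i' => by
      by_cases h : i' = i
      · simp [h]
      · simp [h]
    simp only [ψ, fold_up, e3, add_eq_zero_iff] at this
    have e4 : p.shift es (Pi.single i (a χ ᵥ* (1 + T))) = (es i).rhs • a χ ᵥ* (1 + T) := by
      rw [shift, sum_eq_single i] <;> simp +contextual
    rw [e4, B_vec, dotProduct_smul, ha χ h1, smul_eq_mul, mul_one] at this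
    rw [← this]
    change _ = ∑ i' : Fin p.k × Fin 3, (Pᵀ * S) i' ⬝ᵥ
      inA ((Pi.single i (a χ ᵥ* (1 + T)) : Fin p.k → p.A) i'.1)
    rw [Fintype.sum_prod_type, sum_eq_single i]
    · simp only [Pi.single_eq_same]; rfl
    · intro i' _ h
      simp [h, inA]
    · simp
  · rw [← mulVec_mulVec, mulVec_transpose, inA_up, ← mulVec_mulVec, keep, diagonal_transpose]

/-- The canonical point of the advice class. -/
def cl (M : p.Mat) : p.Mat := M + M * p.U T

lemma cl_add (hT : T * T = T) (M X : p.Mat) : p.cl T (M + X * p.U T) = p.cl T M := by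
  rw [cl, cl, Matrix.add_mul, Matrix.mul_assoc, up_mul_up hT, add_add_add_comm, mat_add_self,
    add_zero]

lemma class_ex (hT : T * T = T) {P : p.Mat → Matrix (Fin p.k × Fin 3) (Fin p.k × Fin 3) F2}
    (hP : ∀ M, P M * P M = P M) (X0 : p.Mat → p.Mat) (u : p.Mat → p.Mat → ℝ) :
    𝔼 M, ind (P (p.cl T M) * (M + (p.cl T M + X0 (p.cl T M) * p.U T)) = 0) * u (p.cl T M) M =
      𝔼 M, (𝔼 X : p.Mat, ind (P (p.cl T M) * (X * p.U T) = 0)) * 𝔼 X : p.Mat, u (p.cl T M)
        (p.cl T M + X0 (p.cl T M) * p.U T + (1 + P (p.cl T M)) * X * p.U T) := by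
  rw [← Fintype.expect_const (ι := p.Mat) (𝔼 M, _ * u _ M),
    funext fun X : p.Mat => (ex_shift (X * p.U T) _).symm, ex_comm]
  refine congrArg _ (funext fun M => ?_)
  rw [← zoom_ex (hP _) (p.U T) fun N => u (p.cl T M) (p.cl T M + X0 (p.cl T M) * p.U T + N),
    ← ex_shift' (M + X0 (p.cl T M))]
  refine congrArg _ (funext fun X => ?_)
  have e : M + (M + X0 (p.cl T M) + X) * p.U T =
      p.cl T M + X0 (p.cl T M) * p.U T + X * p.U T := by
    rw [Matrix.add_mul, Matrix.add_mul, ← add_assoc, ← add_assoc]; rfl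
  rw [p.cl_add T hT, e, add_right_comm, mat_add_self, zero_add]

lemma rerand (f : (Fin p.k → p.Blk) × (Fin p.k → p.A) → ℝ) :
    𝔼 x, f x = 𝔼 x : (Fin p.k → p.Blk) × (Fin p.k → p.A), 𝔼 X : p.Mat, 𝔼 s : Fin p.k → p.A,
      f (p.addB x.1 (X * p.U T), x.2 + fun i => s i ᵥ* (1 + T)) := by
  rw [ex_comm, funext fun X => ex_comm _]
  have : ∀ (X : p.Mat) (s : Fin p.k → p.A), 𝔼 x : (Fin p.k → p.Blk) × (Fin p.k → p.A),
      f (p.addB x.1 X, x.2 + s) = 𝔼 x, f x := fun X s => by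
    rw [ex_prod, ex_prod f, ← p.ex_addB X fun b => 𝔼 t, f (b, t)]
    exact congrArg _ (funext fun b => ex_shift s fun t => f (p.addB b X, t))
  simp only [this, Fintype.expect_const]

theorem decode {r : ℕ} {γ : ℝ} (hθ : 0 ≤ θ) (ha : ∀ χ, (1 + T) *ᵥ χ ≠ 0 → χ ⬝ᵥ a χ ᵥ* (1 + T) = 1)
    (hT : T * T = T) (rT : T.rank ≤ r) (h1 : (2 : ℝ) ^ r / 2 ^ p.d ≤ γ / 2)
    (h2 : (2 : ℝ) ^ r / 2 ^ p.d ≤ 1) (es : Fin p.k → Eqn)
    {P : p.Mat → Matrix (Fin p.k × Fin 3) (Fin p.k × Fin 3) F2} {α : p.Mat → p.A}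
    {X0 : p.Mat → p.Mat} {w : p.A → p.Mat → ℝ}
    (hw : w = dens p.mat fun x => lab (p.vV es x.1) + p.shift es x.2)
    (hP : ∀ M, P M * P M = P M ∧ (P M).rank ≤ r ∧ (Good r γ w T M →
      γ < 𝔼 X : p.Mat, w (α M) (M + X0 M * p.U T + (1 + P M) * X * p.U T))) :
    γ / 2 * (2 ^ r : ℝ)⁻¹ ^ (p.d + p.m) *
        (𝔼 x, ind (Good r γ w T (p.mat x)) - √(𝔼 M, (rho p.mat M - 1) ^ 2)) ≤
      √(𝔼 M, (rho p.mat M - 1) ^ 2) + θ +
        𝔼 x : (Fin p.k → p.Blk) × (Fin p.k → p.A),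
          ind (p.Dec T lab a θ es x.1 (P (p.cl T (p.mat x)))) := by
  set τ := √(𝔼 M, (rho p.mat M - 1) ^ 2)
  have hτ : 0 ≤ τ := Real.sqrt_nonneg _
  have hγ : 0 ≤ γ / 2 := le_trans (by positivity) h1
  let ζ : p.Mat → ℝ := fun M => 𝔼 X : p.Mat, ind (P (p.cl T M) * (X * p.U T) = 0)
  let h : p.Mat → ℝ := fun M => ind (P (p.cl T M) * (M + (p.cl T M + X0 (p.cl T M) * p.U T)) = 0) *
    ind (Good r γ w T (p.cl T M))
  let Z := 𝔼 M, ζ M * ind (Good r γ w T (p.cl T M))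
  have d0 : (2 ^ r : ℝ)⁻¹ ^ (p.d + p.m) * (𝔼 x, ind (Good r γ w T (p.mat x)) - τ) ≤ Z := by
    have e1 := rho_dev p.mat (h := fun M => ind (Good r γ w T M)) (fun _ => ind_nonneg _)
      fun _ => ind_le_one _
    refine (mul_le_mul_of_nonneg_left (sub_le_iff_le_add.2 e1) (by positivity)).trans ?_
    rw [← ex_mul]
    refine ex_mono fun M => mul_le_mul (by simpa using zeta_ge (hP _).2.1 (p.U T))
      (ind_mono fun ⟨P, α, X, k⟩ => ⟨P, α, M + X, ?_⟩) (ind_nonneg _)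
      (ex_nonneg fun _ => ind_nonneg _)
    rwa [cl, Matrix.add_mul M, add_assoc M, ← add_assoc (M * _), mat_add_self, zero_add]
  have d1 : γ * Z ≤ 𝔼 x, h (p.mat x) *
      ind (lab (p.vV es x.1) + p.shift es x.2 = α (p.cl T (p.mat x))) := by
    rw [dens_ex p.mat (fun x => lab (p.vV es x.1) + p.shift es x.2)
      fun M β => h M * ind (β = α (p.cl T M)), ← hw, ← ex_mul]
    have e : ∀ M, ∑ β, w β M * (h M * ind (β = α (p.cl T M))) = h M * w (α (p.cl T M)) M :=
      fun M => by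
        rw [← sum_ind_mul (α (p.cl T M)) fun β => h M * w β M]
        exact sum_congr rfl fun β _ => by rw [ind_congr eq_comm]; ring
    simp only [e]
    simp only [h, mul_assoc]
    rw [p.class_ex T hT (fun M => (hP M).1) X0 fun M0 M => ind (Good r γ w T M0) * w (α M0) M]
    refine ex_mono fun M => ?_
    rw [mul_left_comm, ex_mul]
    refine mul_le_mul_of_nonneg_left ?_ (ex_nonneg fun _ => ind_nonneg _)
    by_cases hG : Good r γ w T (p.cl T M)
    · rw [ind_pos hG, mul_one, one_mul]; exact ((hP _).2.2 hG).le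
    · rw [ind_neg hG, mul_zero, zero_mul]
  have d2 : 𝔼 x, h (p.mat x) ≤ Z + τ := by
    refine (rho_dev p.mat (h := h) (fun M => mul_nonneg (ind_nonneg _) (ind_nonneg _)) fun M =>
      mul_le_one₀ (ind_le_one _) (ind_nonneg _) (ind_le_one _)).trans (le_of_eq ?_)
    rw [p.class_ex T hT (fun M => (hP M).1) X0 fun M0 _ => ind (Good r γ w T M0)]
    simp only [Fintype.expect_const]
    rfl
  have d3 : 𝔼 x, h (p.mat x) * ind (lab (p.vV es x.1) + p.shift es x.2 = α (p.cl T (p.mat x))) ≤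
      2 ^ r / 2 ^ p.d * 𝔼 x, h (p.mat x) + θ + 𝔼 x : (Fin p.k → p.Blk) × (Fin p.k → p.A),
        ind (p.Dec T lab a θ es x.1 (P (p.cl T (p.mat x)))) := by
    have e0 : ∀ f : (Fin p.k → p.Blk) × (Fin p.k → p.A) → ℝ, θ + 𝔼 x, f x = 𝔼 x, (θ + f x) :=
      fun f => by rw [ex_add, Fintype.expect_const]
    rw [p.rerand T, p.rerand T fun x => h (p.mat x), ← ex_mul, add_assoc, e0, ← ex_add]
    refine ex_mono fun x => ?_
    have e1 : ∀ (X : p.Mat) (s : Fin p.k → p.A), p.mat (p.addB x.1 (X * p.U T),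
        x.2 + fun i => s i ᵥ* (1 + T)) = p.mat x + (p.keep x.1 * X + p.fold s) * p.U T :=
      fun X s => by rw [mat_add, ← fold_up, Matrix.add_mul, Matrix.mul_assoc, add_assoc]
    have e2 : ∀ (X D : p.Mat) (s : Fin p.k → p.A), p.mat x + (p.keep x.1 * X + p.fold s) * p.U T +
        D = p.mat x + D + p.keep x.1 * (X * p.U T) + p.fold s * p.U T := fun X D s => by
      rw [Matrix.add_mul, Matrix.mul_assoc]; abel
    have e3 : ∀ u v β : p.A, (u + (p.shift es x.2 + v) = β) = (u + v = β + p.shift es x.2) :=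
      fun u v β => by rw [← add_eq_zero_iff _ β, ← add_eq_zero_iff (u + v)]; abel_nf
    simp only [h, e1, p.cl_add T hT, e2, shift_add, e3, mul_right_comm _ (ind (Good ..)), ex_mul']
    have k := p.core T lab a θ hθ ha es x.1 (P (p.cl T (p.mat x)))
      (p.mat x + (p.cl T (p.mat x) + X0 (p.cl T (p.mat x)) * p.U T))
      (α (p.cl T (p.mat x)) + p.shift es x.2)
    have k2 := mul_le_mul_of_nonneg_right (triv_le rT) (ex_nonneg fun X : p.Mat =>
      ex_nonneg fun s : Fin p.k → p.A => ind_nonneg (P (p.cl T (p.mat x)) * (p.mat x +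
        (p.cl T (p.mat x) + X0 (p.cl T (p.mat x)) * p.U T) + p.keep x.1 * (X * p.U T) +
          p.fold s * p.U T) = 0))
    rw [Fintype.card_fin] at k2
    by_cases hG : Good r γ w T (p.cl T (p.mat x))
    · rw [ind_pos hG, mul_one, mul_one]; linarith
    · rw [ind_neg hG, mul_zero, mul_zero, mul_zero, zero_add]
      exact add_nonneg hθ (ind_nonneg _)
  have hZ : 0 ≤ Z := ex_nonneg fun _ => mul_nonneg (ex_nonneg fun _ => ind_nonneg _) (ind_nonneg _)
  have k1 := mul_le_mul_of_nonneg_left d0 hγ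
  have k2 := mul_le_mul_of_nonneg_left d2 (by positivity : (0 : ℝ) ≤ 2 ^ r / 2 ^ p.d)
  have k3 := mul_le_mul_of_nonneg_right h1 hZ
  have k4 := mul_le_mul_of_nonneg_right h2 hτ
  rw [mul_assoc]
  linarith

end Par

end Vale.Agent.P325
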