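import Vale.Agent.P325.SoundC
import Vale.Agent.P325.Outer

/-! List decoding gives strategies in the smooth outer game. -/

namespace Vale.Agent.P325

open Finset Matrix Vale.Agent.Lib.PCP
open scoped BigOperators

lemma exists_sel {Z : Type} [Nonempty Z] (N : ℕ) : ∃ s : Fin N → Finset Z → Z,
    ∀ L : Finset Z, L.card ≤ N → ∀ z ∈ L, ∃ i, s i L = z := by
  refine ⟨fun i L => L.toList.getD i (Classical.arbitrary Z), fun L hL z hz => ?_⟩
  obtain ⟨i, hi, rfl⟩ := List.getElem_of_mem (mem_toList.2 hz)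
  exact ⟨⟨i, hi.trans_le (by simpa using hL)⟩, List.getD_eq_getElem _ _ hi⟩

lemma list_val {Ω Z Z' : Type} [Fintype Ω] [Nonempty Z] [Nonempty Z'] {N N' : ℕ} {v : ℝ}
    (L : Ω → Finset Z) (L' : Ω → Finset Z') (hL : ∀ x, (L x).card ≤ N)
    (hL' : ∀ x, (L' x).card ≤ N') (W : Ω → Z → Z' → Prop)
    (h : ∀ (s : Finset Z → Z) (s' : Finset Z' → Z'), 𝔼 x, ind (W x (s (L x)) (s' (L' x))) ≤ v) :
    𝔼 x, ind (∃ z ∈ L x, ∃ z' ∈ L' x, W x z z') ≤ N * N' * v := by
  obtain ⟨s, hs⟩ := exists_sel (Z := Z) N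
  obtain ⟨s', hs'⟩ := exists_sel (Z := Z') N'
  refine (ex_mono fun x => (ind_mono ?_).trans (ind_exists_le fun i : Fin N × Fin N' =>
    W x (s i.1 (L x)) (s' i.2 (L' x)))).trans ?_
  · rintro ⟨z, hz, z', hz', hW⟩
    obtain ⟨i, rfl⟩ := hs _ (hL x) z hz
    obtain ⟨i', rfl⟩ := hs' _ (hL' x) z' hz'
    exact ⟨(i, i'), hW⟩
  · rw [ex_sum]
    exact (sum_le_card_nsmul _ _ v fun i _ => h _ _).trans (by simp)

open Classical in
lemma card_large {G : Type} [AddCommGroup G] [Pairing G] [Fintype G] {f : G → ℝ}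
    (hf : ∀ x, f x ^ 2 = 1) {K : ℕ} (hK : 0 < K) :
    (univ.filter fun S => (K : ℝ)⁻¹ < |hat f S|).card ≤ K ^ 2 := by
  have h1 := parseval f
  simp only [hf, Fintype.expect_const] at h1
  have h2 := (card_nsmul_le_sum (univ.filter fun S => (K : ℝ)⁻¹ < |hat f S|)
    (fun S => hat f S ^ 2) ((K : ℝ)⁻¹ ^ 2) fun S hS => by
      rw [← sq_abs (hat f S)]
      exact pow_le_pow_left₀ (by positivity) (mem_filter.1 hS).2.le 2).trans
    (sum_le_sum_of_subset_of_nonneg (subset_univ _) fun _ _ _ => sq_nonneg _)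
  rw [← h1, nsmul_eq_mul, inv_pow, mul_inv_le_iff₀ (by positivity), one_mul] at h2
  exact_mod_cast h2

namespace Par

variable (p : Par) (T : Matrix (Fin p.d) (Fin p.d) F2)

/-- The advice. -/
def dn (y : p.Y) : p.Y := y + y ᵥ* p.U T

/-- The equation-variable game with advice. -/
def base {E : Type} (q : E → Eqn) : Game (E × Fin 3 × (Fin 3 → p.Y)) (Eqn × (Fin 3 → p.Y))
    (Fin 3 × ℕ × p.Y) (F2 × F2) F2 where
  u x := (q x.1, fun j => p.dn T ((Pi.single x.2.1 (x.2.2 x.2.1) : Fin 3 → p.Y) j))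
  v x := (x.2.1, (q x.1).var x.2.1, p.dn T (x.2.2 x.2.1))
  π x a := ![a.1, a.2, (q x.1).rhs + a.1 + a.2] x.2.1

lemma base_val {E : Type} [Fintype E] [Nonempty E] (q : E → Eqn)
    (hq : ∀ σ, 𝔼 e, ind ((q e).Ok σ) ≤ 3 / 4) :
    (p.base T q).ValLe (1 - (12 * Fintype.card p.Y : ℝ)⁻¹) := by
  classical
  intro A B
  rw [← div_le_iff₀ (Nat.cast_pos.2 Fintype.card_pos), ← ex_ind, le_sub_comm,
    ← Fintype.expect_const (ι := E × Fin 3 × (Fin 3 → p.Y)) (1 : ℝ), ← ex_sub]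
  let σ : Fin 3 → ℕ → F2 := fun j n => B (j, n, 0)
  let F : E → Fin 3 → Prop := fun e j =>
    ![(A (q e, 0)).1, (A (q e, 0)).2, (q e).rhs + (A (q e, 0)).1 + (A (q e, 0)).2] j ≠
      σ j ((q e).var j)
  have h1 : ∀ x : E × Fin 3 × (Fin 3 → p.Y), ind (F x.1 x.2.1) * ind (x.2.2 x.2.1 = 0) ≤
      1 - ind ((p.base T q).π x (A ((p.base T q).u x)) = B ((p.base T q).v x)) := fun x => by
    rw [← ind_and, ← ind_not]
    refine ind_mono fun h h' => h.1 ?_
    have e : (p.base T q).u x = (q x.1, 0) := by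
      simp only [base, h.2, dn, Pi.single_zero, Pi.zero_apply, zero_vecMul, add_zero]; rfl
    rw [e] at h'
    simpa only [base, h.2, dn, zero_vecMul, add_zero] using h'
  have h2 : ∀ e, 1 - ind ((q e).Ok σ) ≤ ∑ j, ind (F e j) := fun e => by
    rw [← ind_not]
    refine (ind_mono fun h => not_forall.1 fun h' => h ?_).trans (ind_exists_le _)
    rw [Eqn.Ok, ← sum_congr rfl fun j _ => h' j, Fin.sum_univ_three]
    exact (by decide : ∀ a b c : F2, a + b + (c + a + b) = c) _ _ _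
  have h3 := ex_mono h2
  refine le_trans ?_ (ex_mono h1)
  simp only [ex_prod, ex_mul, ex_eval _ fun y : p.Y => ind (y = 0), ex_ind_eq, ex_mul']
  simp only [ex_eq fun j => ind (F _ j), div_eq_mul_inv, ex_mul', Fintype.card_fin]
  rw [ex_sub, Fintype.expect_const] at h3
  rw [mul_inv]
  refine mul_le_mul_of_nonneg_right ?_ (by positivity)
  have := hq σ
  norm_num
  linarith

theorem game_bound {r K : ℕ} (hK : 0 < K) (lab : p.Vtx → p.A) (a : p.A → p.A) {E : Type}
    [Fintype E] [Nonempty E] (q : E → Eqn) (hq : ∀ σ, 𝔼 e, ind ((q e).Ok σ) ≤ 3 / 4)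
    (P : (Fin p.k → Eqn) → p.Mat → Matrix (Fin p.k × Fin 3) (Fin p.k × Fin 3) F2)
    (rP : ∀ es M, (P es M).rank ≤ r) (t : Fin p.k → p.A) :
    𝔼 e : Fin p.k → E, 𝔼 b : Fin p.k → p.Blk,
      ind (p.Dec T lab a (K : ℝ)⁻¹ (q ∘ e) b (P (q ∘ e) (p.cl T (p.mat (b, t))))) ≤
      (2 ^ r : ℕ) * (2 ^ p.d * K ^ 2 : ℕ) *
        (1 - (12 * Fintype.card p.Y : ℝ)⁻¹ ^ 2 / (50 * (p.P + 1))) ^ p.k := by
  classical
  let Ω := Fin p.k → Fin (p.P + 1) × E × Fin 3 × (Fin 3 → p.Y)
  let es : Ω → Fin p.k → Eqn := fun x i => q (x i).2.1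
  let bs : Ω → Fin p.k → p.Blk := fun x i => ((x i).1, (x i).2.2)
  let eqv : Ω ≃ (Fin p.k → E) × (Fin p.k → p.Blk) :=
    ⟨fun x => (fun i => (x i).2.1, bs x), fun y i => ((y.2 i).1, y.1 i, (y.2 i).2),
      fun _ => rfl, fun _ => rfl⟩
  let Yb : Ω → p.Mat := fun x => Matrix.of fun i => (x i.1).2.2.2 i.2
  let φ : Ω → p.A → p.Mat → ℝ := fun x => p.phi T lab (es x) (p.addB (bs x) (Yb x * p.U T))
  let L : Ω → Finset (Fin p.k × Fin 3 → F2) := fun x =>
    univ.filter fun z => ∃ s, (P (es x) (p.cl T (p.mat (bs x, t))))ᵀ *ᵥ s = z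
  let L' : Ω → Finset (Fin p.k × Fin 3 → F2) := fun x => univ.biUnion fun χ =>
    (univ.filter fun S => (K : ℝ)⁻¹ < |hat (φ x χ) S|).image fun S => S *ᵥ inA (a χ)
  rw [← ex_prod fun y : (Fin p.k → E) × (Fin p.k → p.Blk) => ind (p.Dec T lab a (K : ℝ)⁻¹
    (q ∘ y.1) y.2 (P (q ∘ y.1) (p.cl T (p.mat (y.2, t))))), ← ex_equiv eqv]
  refine le_trans (ex_mono fun x => ind_mono ?_) (list_val L L' (fun x => ?_) (fun x => ?_)
    (fun x z z' => (∀ i, ∑ j, z (i, j) = (es x i).rhs) ∧ z' = p.keep (bs x) *ᵥ z) fun s s' => ?_)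
  · rintro ⟨z, χ, S, h1, h2, h3, h4⟩
    refine ⟨z, mem_filter.2 ⟨mem_univ _, h1⟩, _, mem_biUnion.2 ⟨χ, mem_univ _,
      mem_image_of_mem _ (mem_filter.2 ⟨mem_univ S, ?_⟩)⟩, h3, h4⟩
    have : φ x χ = fun X => p.phi T lab (es x) (bs x) χ (X + Yb x) := funext fun X => by
      simp only [φ, phi, addB_addB, Matrix.add_mul, add_comm]
    rwa [this, hat_shift, abs_mul, abs_chi, mul_one]
  · refine le_trans (le_of_eq ?_) (Nat.pow_le_pow_right two_pos ((rank_transpose _).trans_le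
      (rP (es x) (p.cl T (p.mat (bs x, t))))))
    rw [← card_range]
  · refine (card_biUnion_le_card_mul _ _ _ fun χ _ => card_image_le.trans
      (card_large (fun _ => chi_sq _ _) hK)).trans (by simp)
  have hc : (1 : ℝ) ≤ Fintype.card p.Y := Nat.one_le_cast.2 Fintype.card_pos
  refine le_trans (ex_mono fun x => ind_mono ?_) (smooth_val (p.base T q) (by positivity)
    (inv_le_one_of_one_le₀ (by linarith)) (p.base_val T q hq) p.k p.P
    (fun x i => (s (L x) (i, 0), s (L x) (i, 1))) (fun x i => s' (L' x) (i, (x i).2.2.1))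
    (fun x y h => ?_) fun x y h => ?_)
  · rintro ⟨h1, h2⟩ i hi
    have h3 := h1 i
    rw [Fin.sum_univ_three] at h3
    have h4 : ∀ j, ![s (L x) (i, 0), s (L x) (i, 1), (es x i).rhs + s (L x) (i, 0) +
        s (L x) (i, 1)] j = s (L x) (i, j) := fun j => by
      fin_cases j
      · rfl
      · rfl
      · change _ + _ + _ = s (L x) (i, 2)
        rw [← h3, add_assoc, add_right_comm, F2.add_self, zero_add]
    refine (h4 _).trans ?_
    rw [h2, keep, mulVec_diagonal, if_neg fun h => h.2 rfl, one_mul]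
  · have e1 : es x = es y := funext fun i => by
      by_cases h0 : (x i).1 = 0
      · exact congrArg Prod.fst ((h i).2.1 h0)
      · exact congrArg (fun z => q z.1) ((h i).2.2 h0)
    have e2 : p.cl T (p.mat (bs x, t)) = p.cl T (p.mat (bs y, t)) := funext fun i => by
      have e3 : ∀ b, p.cl T (p.mat (b, t)) i = p.dn T (p.mask (b i.1) i.2) +
          p.dn T (inA (t i.1)) := fun b => by
        rw [dn, dn, add_add_add_comm, ← add_vecMul]; rfl
      rw [e3, e3]
      by_cases h0 : (x i.1).1 = 0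
      · rw [mask, mask, if_pos h0, if_pos ((h i.1).1.symm.trans h0)]
        exact congrArg (· + _) (congrFun (congrArg Prod.snd ((h i.1).2.1 h0)) i.2)
      · simp only [bs, (h i.1).1, (h i.1).2.2 h0]
    simp only [L, e1, e2]
  · have e1 : φ x = φ y := funext fun χ => funext fun X => by
      refine congrArg (fun v => chi χ (lab (Sum.inr v))) (funext fun i => ?_)
      by_cases h0 : (x i).1 = 0
      · have k := (h i).2.1 h0
        simp only [base, Prod.mk.injEq] at k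
        refine (if_pos h0).trans (Eq.trans ?_ (if_pos ((h i).1.symm.trans h0)).symm)
        change Sum.inl ((x i).2.2.1, (q (x i).2.1).var (x i).2.2.1,
            p.dn T ((x i).2.2.2 (x i).2.2.1) + (X * p.U T) (i, (x i).2.2.1)) =
          Sum.inl ((y i).2.2.1, (q (y i).2.1).var (y i).2.2.1,
            p.dn T ((y i).2.2.2 (y i).2.2.1) + (X * p.U T) (i, (y i).2.2.1))
        rw [k.2.1, k.2.2, k.1]
      · change p.view (q (x i).2.1) ((x i).1, (x i).2.2.1,
            fun j => p.dn T ((x i).2.2.2 j) + (X * p.U T) (i, j)) =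
          p.view (q (y i).2.1) ((y i).1, (y i).2.2.1,
            fun j => p.dn T ((y i).2.2.2 j) + (X * p.U T) (i, j))
        rw [(h i).1, (h i).2.2 h0]
    funext i
    have e2 : (x i).2.2.1 = (y i).2.2.1 := by
      by_cases h0 : (x i).1 = 0
      · exact congrArg (fun z : Fin 3 × ℕ × p.Y => z.1) ((h i).2.1 h0)
      · rw [(h i).2.2 h0]
    simp only [L', e1, e2]

end Par

end Vale.Agent.P325
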